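import Crest.Agent.N325.M0.Data2

-- ▼ part N325/M0/Arr
section

/-!
# N325 / M0: binary recursion, arrays (tries), samples (helper68)
-/

set_option autoImplicit false

namespace Crest.Agent.N325

variable {α β γ δ : Type} [Rp α] [Rp β] [Rp γ] [Rp δ] {σ : Bool}

/-! ### linear recursion in the deep language -/

/-- the body: `x ↦ if p x = 0 then b x else u (x, self (d x))` on `node self x` -/
def recB (p b d u : Tm) : Tm :=
  .comp (.cond (.comp u (.pair .snd (.comp .app (.pair .fst (.pair .fst (.comp d .snd))))))
    (.comp b .snd)) (.pair (.comp p .snd) .id)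

/-- the recursion -/
def recT (p b d u : Tm) : Tm := .comp (recB p b d u) (.pair (.const (recB p b d u).enc) .id)

section
variable {W : ℕ} {p b d u : Tm} {x x' y y' q : V} {n1 n2 n3 n4 : ℕ}

theorem ev_rec_base (h1 : Ev W p x (.leaf 0) n1) (h2 : Ev W b x y n2) :
    Ev W (recB p b d u) (.node (recB p b d u).enc x) y (n1 + n2 + 8) :=
  ((((Ev.snd _ _).comp h1).pair (Ev.id _)).comp (Ev.cond_zero ((Ev.snd _ _).comp h2))).le (by omega)

theorem ev_rec_step (h1 : Ev W p x q n1) (hq : q ≠ .leaf 0) (h2 : Ev W d x x' n2)
    (h3 : Ev W (recB p b d u) (.node (recB p b d u).enc x') y' n3) (h4 : Ev W u (.node x y') y n4) :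
    Ev W (recB p b d u) (.node (recB p b d u).enc x) y (n1 + n2 + n3 + n4 + 17) :=
  ((((Ev.snd _ _).comp h1).pair (Ev.id _)).comp (Ev.cond_ne hq (((Ev.snd _ _).pair
    (((Ev.fst _ _).pair ((Ev.fst _ _).pair ((Ev.snd _ _).comp h2))).comp (Ev.app h3))).comp h4))).le
    (by omega)

theorem ev_recT (h : Ev W (recB p b d u) (.node (recB p b d u).enc x) y n1) :
    Ev W (recT p b d u) x y (n1 + 4) := (((Ev.const _ _).pair (Ev.id _)).comp h).le (by omega)

end

/-! ### recursion on the binary digits -/

/-- recursion along `n ↦ n / 2` -/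
def binRec {β γ : Type} (b : β → γ) (d : ℕ → β → β) (u : ℕ → β → γ → γ) (n : ℕ) (x : β) : γ :=
  if _h : n = 0 then b x else u n x (binRec b d u (n / 2) (d n x))
termination_by n
decreasing_by omega

theorem lt_grow2 {x s : ℕ} (c : ℕ) (hs : 1 ≤ s) (h : x < 2 ^ s) :
    x + c * (s + 1) < 2 ^ ((2 * c + 1) * s) := by
  have h1 : c * (s + 1) + 1 ≤ 2 ^ (2 * c * s) :=
    (Nat.lt_two_pow_self (n := c * (s + 1))).trans_le
      (Nat.pow_le_pow_right two_pos (by nlinarith))
  rw [add_mul, one_mul, pow_add]
  nlinarith [Nat.mul_le_mul h1 (Nat.succ_le_of_lt h), Nat.zero_le (c * (s + 1) * x)]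

theorem Pu.binRec' {b : β → γ} {d : ℕ → β → β} {u : ℕ → β → γ → γ} (hb : Pu true b)
    (hd : Pu true fun p : ℕ × β => d p.1 p.2)
    (hu : Pu true fun p : (ℕ × β) × γ => u p.1.1 p.1.2 p.2) :
    Pu false fun p : ℕ × β => N325.binRec b d u p.1 p.2 := by
  obtain ⟨t1, d1, c1, hd1, hb⟩ := hb.comp (Pu.snd' (α := ℕ))
  obtain ⟨t2, d2, c2, hd2, hd⟩ := (Pu.fst'.div (Pu.const 2)).pair hd
  obtain ⟨t3, d3, c3, hd3, hu⟩ := hu
  refine ⟨recT .fst t1 t2 t3, (d1 + d2 + d3) * (2 * (c1 + c2 + c3) + 1), c1 + c2 + c3 + 18 + 1 + 4,
    Nat.mul_pos (by omega) (by omega), fun P s B a v k1 k2 k3 k4 k5 k6 => ?_⟩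
  rw [mul_assoc] at k3 ⊢
  generalize hc : c1 + c2 + c3 = c at *
  generalize hs : (2 * c + 1) * s = s' at *
  have e0 : s ≤ s' := hs ▸ Nat.le_mul_of_pos_left _ (by omega)
  have e1 := U_add3 P.w (c1 + c2) c3 18
  have e2 := U_add P.w c1 c2
  have e3 := U_succ P.w (c + 18)
  have e4 := U_add2 P.w (c + 18 + 1) 4
  have e5 := U_mono P.w (Nat.le_add_right (c + 18) 1)
  rw [hc] at e1
  rw [add_mul, add_mul] at k3
  have e6 : s' ≤ d1 * s' := Nat.le_mul_of_pos_left _ hd1
  have key : ∀ (j : ℕ) (a : ℕ × β) (v : V), a.1 < 2 ^ j → rp P B a v → v.mx + c * (j + 1) < 2 ^ s' →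
      ∃ r, rp P B (N325.binRec b d u a.1 a.2) r ∧ r.mx ≤ v.mx + c * (j + 1) ∧
        Ev (2 ^ P.w) (recB .fst t1 t2 t3) (.node (recB .fst t1 t2 t3).enc v) r
          ((j + 1) * U P.w (c + 18)) := by
    intro j
    induction j with
    | zero =>
      rintro ⟨n, x⟩ v h1 h2 h3
      obtain rfl : n = 0 := by simpa using h1
      obtain ⟨r, r1, -, r3, r4⟩ := hb P s' B _ v k1 (by omega) (by omega) (by omega) h2 (by omega)
      obtain ⟨y, z, rfl, rfl, -⟩ := h2
      rw [binRec, dif_pos rfl]
      exact ⟨r, r1, by have := r3 rfl; omega, (ev_rec_base (Ev.fst _ _) r4).le (by omega)⟩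
    | succ j ih =>
      rintro ⟨n, x⟩ v h1 h2 h3
      rw [mul_add, mul_one] at h3 ⊢
      rw [add_mul, one_mul]
      by_cases hn : n = 0
      · obtain ⟨r, r1, r2, r3⟩ := ih (n, x) v (by rw [hn]; positivity) h2 (by omega)
        exact ⟨r, r1, by omega, r3.le (by omega)⟩
      obtain ⟨q, q1, -, q3, q4⟩ := hd P s' B _ v k1 (by omega) (by omega) (by omega) h2 (by omega)
      have q3 := q3 rfl
      obtain ⟨r, r1, r2, r3⟩ := ih _ q (by dsimp only at h1 ⊢; rw [pow_succ] at h1; omega) q1
        (by omega)
      obtain ⟨z, z1, -, z3, z4⟩ := hu P s' B ((n, x), _) (.node v r) k1 (by omega) (by omega)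
        (by omega) ⟨v, r, rfl, h2, r1⟩ (by rw [V.mx_node]; omega)
      have z3 := z3 rfl
      rw [V.mx_node] at z3
      obtain ⟨y, y', rfl, rfl, -⟩ := h2
      rw [binRec, dif_neg hn]
      exact ⟨z, z1, by omega,
        (ev_rec_step (Ev.fst _ _) (by simpa using hn) q4 r3 z4).le (by omega)⟩
  have k7 : a.1 < 2 ^ s := by
    obtain ⟨y, y', rfl, rfl, -⟩ := k5
    exact (le_max_left _ _).trans_lt k6
  have k8 := lt_grow2 c (k1.trans k2) k6
  rw [hs] at k8
  obtain ⟨r, r1, r2, r3⟩ := key s a v k7 k5 k8
  have e7 : (s + 1) * U P.w (c + 18) ≤ (P.w + 1) * U P.w (c + 18) :=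
    Nat.mul_le_mul_right _ (by omega)
  exact ⟨r, r1, lt_up (r2.trans_lt k8) (by rw [add_mul, add_mul]; omega), fun h => by simp at h,
    (ev_recT r3).le (by omega)⟩

theorem size_eq_binRec (n : ℕ) :
    binRec (fun _ : Unit => 0) (fun _ x => x) (fun _ _ y => y + 1) n () = n.size := by
  induction n using Nat.strong_induction_on with
  | _ n ih =>
    rw [binRec]
    split_ifs with h
    · rw [h, Nat.size_zero]
    · rw [ih _ (by omega)]
      conv_rhs => rw [← Nat.bit_testBit_zero_shiftRight_one n]
      rw [Nat.size_bit (by rwa [Nat.bit_testBit_zero_shiftRight_one]), Nat.shiftRight_one]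

@[fun_prop] theorem Pu.size {f : α → ℕ} (hf : Pu σ f) : Pu σ fun a => (f a).size :=
  (((Pu.binRec' (Pu.const 0) Pu.snd' (Pu.snd'.add_const 1)).comp
    (hf.ar.pair (Pu.unit fun _ => ()))).of_eq fun _ => size_eq_binRec _).clamp hf
      fun _ => Nat.size_le.2 Nat.lt_two_pow_self

/-! ### tries -/

/-- tries over values -/
inductive Tr : Type
  | cst (d : V)
  | br (x : V) (l r : Tr)

namespace Tr

def enc : Tr → V
  | cst d => .node d (.leaf 0)
  | br x l r => .node x (.node l.enc r.enc)

def val : Tr → V
  | cst d => d
  | br x _ _ => x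

def ch : Tr → Tr × Tr
  | cst d => (cst d, cst d)
  | br _ l r => (l, r)

def dn (n : ℕ) (t : Tr) : Tr := if n % 2 = 0 then t.ch.1 else t.ch.2

def get (t : Tr) (i : ℕ) : V := binRec val dn (fun _ _ y => y) i t

def set (t : Tr) (i : ℕ) (x : V) : Tr :=
  binRec (fun p : Tr × V => br p.2 p.1.ch.1 p.1.ch.2) (fun n p => (dn n p.1, p.2))
    (fun n p y => if n % 2 = 0 then br p.1.val y p.1.ch.2 else br p.1.val p.1.ch.1 y) i (t, x)

theorem get_eq (t : Tr) (i : ℕ) : t.get i = if i = 0 then t.val else (dn i t).get (i / 2) := by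
  rw [get, binRec]; rfl

theorem set_eq (t : Tr) (i : ℕ) (x : V) : t.set i x = if i = 0 then br x t.ch.1 t.ch.2 else
    if i % 2 = 0 then br t.val ((dn i t).set (i / 2) x) t.ch.2
    else br t.val t.ch.1 ((dn i t).set (i / 2) x) := by
  rw [set, binRec]; rfl

theorem get_cst (d : V) (i : ℕ) : (cst d).get i = d := by
  induction i using Nat.strong_induction_on with
  | _ i ih =>
    rw [get_eq]
    split_ifs with h
    · rfl
    · rw [show dn i (cst d) = cst d from ite_self _, ih _ (by omega)]

theorem get_set (t : Tr) (i j : ℕ) (x : V) : (t.set i x).get j = if j = i then x else t.get j := by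
  induction i using Nat.strong_induction_on generalizing t j with
  | _ i ih =>
    rw [set_eq, get_eq, get_eq t]
    by_cases hi : i = 0
    · subst hi
      by_cases hj : j = 0 <;> simp [hj, val, dn, ch]
    have := fun j => ih (i / 2) (by omega) (dn i t) j
    by_cases hj : j = 0
    · rw [if_neg hi, if_pos hj, if_pos hj, if_neg (show ¬j = i by omega)]
      split_ifs <;> rfl
    rw [if_neg hi, if_neg hj, if_neg hj]
    by_cases h1 : i % 2 = 0 <;> by_cases h2 : j % 2 = 0 <;>
      simp only [h1, h2, dn, ch, if_true, if_false] at this ⊢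
    · rw [this]; exact if_congr (by omega) rfl rfl
    · rw [if_neg (by omega)]
    · rw [if_neg (by omega)]
    · rw [this]; exact if_congr (by omega) rfl rfl

theorem mx_val (t : Tr) : t.val.mx ≤ t.enc.mx := by cases t <;> exact le_max_left _ _

theorem mx_ch (t : Tr) : t.ch.1.enc.mx ≤ t.enc.mx ∧ t.ch.2.enc.mx ≤ t.enc.mx := by
  cases t <;> simp [ch, enc]

theorem mx_dn (n : ℕ) (t : Tr) : (dn n t).enc.mx ≤ t.enc.mx := by
  unfold dn; split_ifs; exacts [t.mx_ch.1, t.mx_ch.2]

theorem mx_get (t : Tr) (i : ℕ) : (t.get i).mx ≤ t.enc.mx := by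
  induction i using Nat.strong_induction_on generalizing t with
  | _ i ih =>
    rw [get_eq]
    split_ifs with h
    exacts [t.mx_val, (ih _ (by omega) _).trans (mx_dn _ _)]

theorem mx_set (t : Tr) (i : ℕ) (x : V) : (t.set i x).enc.mx ≤ max t.enc.mx x.mx := by
  induction i using Nat.strong_induction_on generalizing t with
  | _ i ih =>
    have h1 := t.mx_ch
    have h2 := t.mx_val
    have h3 := mx_dn i t
    rw [set_eq]
    split_ifs with h
    · simp only [enc, V.mx_node]; omega
    all_goals
      have := ih (i / 2) (by omega) (dn i t)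
      simp only [enc, V.mx_node]; omega

instance : Rp Tr := Rp.via enc

theorem pu_val : Pu σ val :=
  Pu.prim .fst 0 1 fun _ _ _ t v _ _ h _ => by
    obtain rfl : v = t.enc := h
    exact ⟨_, rfl, t.mx_val.trans (Nat.le_succ _), by cases t <;> exact Ev.fst _ _⟩

theorem pu_ch : Pu σ ch :=
  Pu.prim (.comp (.cond .snd (.pair .id .id)) (.pair .snd .id)) 0 8 fun _ _ _ t v _ _ h _ => by
    obtain rfl : v = t.enc := h
    refine ⟨.node t.ch.1.enc t.ch.2.enc, ⟨_, _, rfl, rfl, rfl⟩,
      (max_le t.mx_ch.1 t.mx_ch.2).trans (Nat.le_add_right _ _), ?_⟩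
    cases t with
    | cst d => exact ((Ev.snd _ _).pair (Ev.id _)).comp (Ev.cond_zero ((Ev.id _).pair (Ev.id _)))
    | br x l r =>
      exact (((Ev.snd _ _).pair (Ev.id _)).comp (Ev.cond_ne (by simp) (Ev.snd _ _))).le (by omega)

theorem pu_br' : Pu σ fun p : V × Tr × Tr => br p.1 p.2.1 p.2.2 :=
  Pu.of_rp fun _ _ _ _ ⟨_, _, e, h1, _, _, e', h2, h3⟩ => by
    rw [e, e', h1, h2, h3]; rfl

theorem pu_br {x : α → V} {l r : α → Tr} (hx : Pu σ x) (hl : Pu σ l) (hr : Pu σ r) :
    Pu σ fun a => br (x a) (l a) (r a) := pu_br'.comp (hx.pair (hl.pair hr))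

theorem pu_dn : Pu σ fun p : ℕ × Tr => dn p.1 p.2 :=
  (Pu.fst'.mod (Pu.const 2)).eq_zero.ite (pu_ch.comp Pu.snd').fst (pu_ch.comp Pu.snd').snd

theorem pu_get : Pu1 get :=
  Pu1.of_ar ((Pu.binRec' pu_val pu_dn Pu.snd').comp Pu.id.swap) 0 fun _ _ t i x r h1 h2 => by
    rw [show x = t.enc from h1, show r = t.get i from h2]; exact t.mx_get i

theorem pu_set : Pu1 fun (p : Tr × V) (i : ℕ) => p.1.set i p.2 :=
  Pu1.of_ar ((Pu.binRec' (pu_br Pu.snd' (pu_ch.comp Pu.fst').fst (pu_ch.comp Pu.fst').snd)
    ((pu_dn.comp (Pu.fst'.pair Pu.snd'.fst)).pair Pu.snd'.snd)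
    ((Pu.fst'.fst.mod (Pu.const 2)).eq_zero.ite
      (pu_br (pu_val.comp Pu.fst'.snd.fst) Pu.snd' (pu_ch.comp Pu.fst'.snd.fst).snd)
      (pu_br (pu_val.comp Pu.fst'.snd.fst) (pu_ch.comp Pu.fst'.snd.fst).fst Pu.snd'))).comp
    Pu.id.swap) 0 fun _ _ p i x r ⟨_, _, e, h0, h1⟩ h2 => by
      rw [e, h0, h1, show r = (p.1.set i p.2).enc from h2]; exact p.1.mx_set i p.2

end Tr

/-! ### arrays -/

instance : Rp (Arr α) where
  rp P B a v := ∃ t : Tr, v = t.enc ∧ ∀ i, rp P B (a.get i) (t.get i)
  anti := fun ⟨t, e, h⟩ k => ⟨t, e, fun i => Rp.anti (h i) k⟩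

@[fun_prop] theorem Pu.arr_cst {x : α → β} (hx : Pu σ x) : Pu σ fun a => Arr.cst (x a) :=
  Pu.comp (g := Arr.cst) (Pu.prim (.pair .id (.const (.leaf 0))) 0 3 fun _ _ _ _ v _ _ h _ =>
    ⟨(Tr.cst v).enc, ⟨_, rfl, fun i => by rw [Tr.get_cst]; exact h⟩, by simp [Tr.enc],
      (Ev.id _).pair (Ev.const _ _)⟩) hx

@[fun_prop] theorem Pu.arr_get {x : α → Arr β} {i : α → ℕ} (hx : Pu σ x) (hi : Pu false i) :
    Pu σ fun a => (x a).get (i a) := by
  refine Pu1.app (f := Arr.get) ?_ hx hi
  obtain ⟨t, d, c, h⟩ := Tr.pu_get
  refine ⟨t, d, c, fun P s B a i x y h1 h2 h3 h4 ⟨u, e, h5⟩ h6 h7 h8 => ?_⟩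
  obtain ⟨r, r1, r2⟩ := h P s B u i x y h1 h2 h3 h4 e h6 h7 h8
  exact ⟨r, by rw [show r = u.get i from r1]; exact h5 i, r2⟩

@[fun_prop] theorem Pu.arr_set {x : α → Arr β} {i : α → ℕ} {y : α → β} (hx : Pu σ x)
    (hi : Pu false i) (hy : Pu σ y) : Pu σ fun a => (x a).set (i a) (y a) := by
  refine Pu1.app (f := fun (p : Arr β × β) i => p.1.set i p.2) ?_ (hx.pair hy) hi
  obtain ⟨t, d, c, h⟩ := Tr.pu_set
  refine ⟨t, d, c, fun P s B a i x y h1 h2 h3 h4 ⟨x1, x2, e, ⟨u, e', h5⟩, h9⟩ h6 h7 h8 => ?_⟩
  obtain ⟨r, r1, r2⟩ := h P s B (u, x2) i x y h1 h2 h3 h4 ⟨x1, x2, e, e', rfl⟩ h6 h7 h8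
  refine ⟨r, ⟨_, r1, fun j => ?_⟩, r2⟩
  rw [Tr.get_set, Arr.get_set]
  split_ifs
  exacts [h9, h5 j]

/-! ### samples -/

theorem tkb_succ (n : ℕ) (τ : List Bool) : tkb (n + 1) τ = τ.headD false :: tkb n τ.tail := by
  cases τ <;> simp [tkb, List.replicate_succ]

theorem impl_smp (G : ℕ → List Bool → Prop) : Impl fun n : ℕ => smp n (G n) := by
  obtain ⟨t2, d2, c2, hd2, h2⟩ : Pu true fun p : ℕ × List Bool => (p.1 - 1, p.2.tail) :=
    (Pu.fst'.sub (Pu.const 1)).pair Pu.snd'.tail
  obtain ⟨t3, d3, c3, hd3, h3⟩ : Pu true fun p : (ℕ × List Bool) × List Bool × List Bool =>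
      (p.1.2.headD false :: p.2.1, p.2.2) :=
    ((Pu.fst'.snd.headD (Pu.const false)).cons Pu.snd'.fst).pair Pu.snd'.snd
  have rpl : ∀ {P : Par} {B : ℕ} {l : List Bool} {v : V}, rp P B l v → v = tp l := by
    intro P B l
    induction l with
    | nil => exact fun h => rp_nil.1 h
    | cons a l ih =>
      intro v h
      obtain ⟨x, y, rfl, h1, h2⟩ := rp_cons.1 h
      rw [show x = .leaf a.toNat from h1, ih h2]; rfl
  refine ⟨recT .fst (.pair (.const (.leaf 0)) .snd) t2 t3, d2 + d3, c2 + c3 + 18,
    fun P B M n v τ k1 k2 k3 k4 k5 _ _ k8 => ?_⟩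
  obtain rfl : v = .leaf n := k4
  rw [add_mul] at k2
  have e1 := U_add3 P.w c2 c3 18
  have k5 : n ≤ M := k5
  have hM : M + 1 < 2 ^ P.m := by omega
  have key : ∀ (n : ℕ) (τ : List Bool), n ≤ M → Ev (2 ^ P.w)
      (recB .fst (.pair (.const (.leaf 0)) .snd) t2 t3)
      (.node (recB .fst (.pair (.const (.leaf 0)) .snd) t2 t3).enc (.node (.leaf n) (tp τ)))
      (.node (tp (tkb n τ)) (tp (τ.drop n))) (P.K * (n + 1)) := by
    intro n
    induction n with
    | zero =>
      intro τ _
      rw [List.drop_zero, show tp (tkb 0 τ) = .leaf 0 by simp [tkb, tp]]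
      exact (ev_rec_base (Ev.fst _ _) ((Ev.const _ _).pair (Ev.snd _ _))).le (by omega)
    | succ n ih =>
      intro τ hn
      have m1 := mx_tp τ
      have m2 := mx_tp (tkb n τ.tail)
      have m3 := mx_tp (τ.tail.drop n)
      obtain ⟨q, ⟨_, _, rfl, rfl, q1⟩, -, -, q4⟩ := h2 P P.m B (n + 1, τ) _ k1 le_rfl (by omega)
        (by omega) ⟨_, _, rfl, rfl, rp_tp τ⟩ (by simp only [V.mx_node, V.mx_leaf]; omega)
      rw [rpl q1] at q4
      obtain ⟨z, ⟨_, _, rfl, z1, z2⟩, -, -, z4⟩ := h3 P P.m B
        ((n + 1, τ), tkb n τ.tail, τ.tail.drop n) _ k1 le_rfl (by omega) (by omega)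
        ⟨_, _, rfl, ⟨_, _, rfl, rfl, rp_tp τ⟩, _, _, rfl, rp_tp _, rp_tp _⟩
        (by simp only [V.mx_node, V.mx_leaf]; omega)
      rw [rpl z1, rpl z2] at z4
      rw [tkb_succ, ← List.drop_tail, mul_add]
      exact (ev_rec_step (Ev.fst _ _) (by simp) q4 (ih τ.tail (by omega)) z4).le (by omega)
  refine ⟨tp (tkb n τ), rp_tp _, (mx_tp _).trans (by omega), (ev_recT (key n τ k5)).le ?_⟩
  show P.K * (n + 1) + 4 ≤ P.K * (n + 1 + 0) + _
  rw [add_zero]; omega

@[fun_prop] theorem Impl.smp {n : α → ℕ} (G : α → List Bool → Prop) (h : Pu true n) :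
    Impl fun a => smp (n a) (G a) :=
  ((impl_smp fun _ _ => True).comp h).of_run fun _ _ => ⟨rfl, rfl, le_rfl, le_rfl⟩

end Crest.Agent.N325
private theorem rz_e2ee7db817 : type_of% @_root_.Crest.Agent.N325.Tr.ch.eq_1 := @_root_.Crest.Agent.N325.Tr.ch.eq_1 -- L155
private theorem rz_0a2837dde5 : type_of% @_root_.Crest.Agent.N325.Tr.enc.eq_def := @_root_.Crest.Agent.N325.Tr.enc.eq_def -- L147
private theorem rz_c7872d0b5f : type_of% @_root_.Crest.Agent.N325.Tr.enc.eq_1 := @_root_.Crest.Agent.N325.Tr.enc.eq_1 -- L147
private theorem rz_c01715fd60 : type_of% @_root_.Crest.Agent.N325.Tr.val.eq_1 := @_root_.Crest.Agent.N325.Tr.val.eq_1 -- L151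
private theorem rz_5751fc9b79 : type_of% @_root_.Crest.Agent.N325.binRec.eq_1 := @_root_.Crest.Agent.N325.binRec.eq_1 -- L45
end

-- ▼ part N325/M0/Loops
section

/-!
# N325 / M0: the loops are implementable; the tactic `impl` (helper68)
-/

set_option autoImplicit false

namespace Crest.Agent.N325

variable {α β γ δ : Type} [Rp α] [Rp β] [Rp γ] [Rp δ] {σ : Bool}

@[fun_prop] theorem Impl.foldL {f : α → β → γ → R γ} {l : α → List β} {s : α → γ}
    (hf : Impl fun p : α × β × γ => f p.1 p.2.1 p.2.2) (hl : Pu true l) (hs : Pu true s) :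
    Impl fun a => foldL (f a) (l a) (s a) := by
  let g : α → List β × γ → R γ := fun a c =>
    List.casesOn (motive := fun _ => R γ) c.1 (.ret c.2) fun x l => f a x c.2 >>= N325.foldL (f a) l
  have e : ∀ a l s, N325.foldL (f a) l s = N325.call (g a) (l, s) := fun a l s => by
    cases l <;> rfl
  have : Impl fun p : α × List β × γ => g p.1 p.2 :=
    Impl.fix (fun a k c => List.casesOn (motive := fun _ => R γ) c.1 (.ret c.2) fun x l =>
      f a x c.2 >>= fun s => N325.call k (l, s)) (fun a c => by simp only [g, ← e]) (by fun_prop)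
  exact (Impl.call_known (this.comp (Pu.id.pair (hl.pair hs)))).of_eq fun a => (e a _ _).symm

@[fun_prop] theorem Impl.forN {f : α → ℕ → γ → R γ} {n i : α → ℕ} {s : α → γ}
    (hf : Impl fun p : α × ℕ × γ => f p.1 p.2.1 p.2.2) (hn : Pu true n) (hi : Pu true i)
    (hs : Pu true s) : Impl fun a => forN (f a) (n a) (i a) (s a) := by
  let g : α → ℕ × ℕ × γ → R γ := fun a c => Nat.casesOn (motive := fun _ => R γ) c.1 (.ret c.2.2)
    fun n => f a c.2.1 c.2.2 >>= N325.forN (f a) n (c.2.1 + 1)
  have e : ∀ a n i s, N325.forN (f a) n i s = N325.call (g a) (n, i, s) := fun a n i s => by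
    cases n <;> rfl
  have : Impl fun p : α × ℕ × ℕ × γ => g p.1 p.2 :=
    Impl.fix (fun a k c => Nat.casesOn (motive := fun _ => R γ) c.1 (.ret c.2.2) fun n =>
      f a c.2.1 c.2.2 >>= fun s => N325.call k (n, c.2.1 + 1, s)) (fun a c => by simp only [g, ← e])
      (by fun_prop)
  exact (Impl.call_known (this.comp (Pu.id.pair (hn.pair (hi.pair hs))))).of_eq
    fun a => (e a _ _ _).symm

@[fun_prop] theorem Impl.whileF {c : α → γ → Bool} {f : α → γ → R γ} {n : α → ℕ} {s : α → γ}
    (hc : Pu false fun p : α × γ => c p.1 p.2) (hf : Impl fun p : α × γ => f p.1 p.2)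
    (hn : Pu true n) (hs : Pu true s) : Impl fun a => whileF (c a) (f a) (n a) (s a) := by
  let g : α → ℕ × γ → R γ := fun a x => Nat.casesOn (motive := fun _ => R γ) x.1 (.ret x.2)
    fun n => if c a x.2 then f a x.2 >>= N325.whileF (c a) (f a) n else .ret x.2
  have e : ∀ a n s, N325.whileF (c a) (f a) n s = N325.call (g a) (n, s) := fun a n s => by
    cases n <;> rfl
  have : Impl fun p : α × ℕ × γ => g p.1 p.2 :=
    Impl.fix (fun a k x => Nat.casesOn (motive := fun _ => R γ) x.1 (.ret x.2) fun n =>
      if c a x.2 then f a x.2 >>= fun s => N325.call k (n, s) else .ret x.2)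
      (fun a c => by simp only [g, ← e]) (by fun_prop)
  exact (Impl.call_known (this.comp (Pu.id.pair (hn.pair hs)))).of_eq fun a => (e a _ _).symm

end Crest.Agent.N325
end

-- ▼ part N325/M0/Tac

/-!
# N325 / M0: the tactic `impl` (helper68)

`impl` proves `Impl f` and `Pu σ f` by a syntax-directed search with the rules registered by
`fun_prop` and the hypotheses; it unfolds the definitions of this development that have no rule,
matchers and join points, and it knows the structures that are represented by `Rp.via`.
It only builds a proof term.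
-/

set_option autoImplicit false

namespace Crest.Agent.N325

variable {α β γ δ : Type} [Rp α] [Rp β] [Rp γ] [Rp δ] {σ : Bool}

/-! ### wildcard matches -/

@[fun_prop] theorem Pu.list_else {k : ℕ} {l : α → List β} {n : α → (Nat.hasNotBit k (List.ctorIdx ([] : List β)) → γ) → γ}
    {c : α → ∀ h t, (Nat.hasNotBit k (List.ctorIdx (h :: t : List β)) → γ) → γ} {e : α → γ} (hl : Pu σ l)
    (hn : Pu σ fun a => n a fun _ => e a)
    (hc : Pu σ fun p : α × β × List β => c p.1 p.2.1 p.2.2 fun _ => e p.1) :
    Pu σ fun a => List.rec (motive := fun t => (Nat.hasNotBit k (List.ctorIdx (t : List β)) → γ) → γ) (n a) (fun h t _ => c a h t) (l a)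
      fun _ => e a :=
  (hl.list_casesOn hn (c := fun a h t => c a h t fun _ => e a) hc).of_eq fun a => by
    cases l a <;> rfl
@[fun_prop] theorem Impl.list_else {k : ℕ} {l : α → List β}
    {n : α → (Nat.hasNotBit k (List.ctorIdx ([] : List β)) → R γ) → R γ} {c : α → ∀ h t, (Nat.hasNotBit k (List.ctorIdx (h :: t : List β)) → R γ) → R γ} {e : α → R γ}
    (hl : Pu true l) (hn : Impl fun a => n a fun _ => e a)
    (hc : Impl fun p : α × β × List β => c p.1 p.2.1 p.2.2 fun _ => e p.1) :
    Impl fun a => List.rec (motive := fun t => (Nat.hasNotBit k (List.ctorIdx (t : List β)) → R γ) → R γ) (n a) (fun h t _ => c a h t) (l a)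
      fun _ => e a :=
  (Impl.list_casesOn hl hn (c := fun a h t => c a h t fun _ => e a) hc).of_eq fun a => by
    cases l a <;> rfl
@[fun_prop] theorem Pu.option_else {k : ℕ} {l : α → Option β}
    {n : α → (Nat.hasNotBit k (Option.ctorIdx (Option.none : Option β)) → γ) → γ} {c : α → ∀ h, (Nat.hasNotBit k (Option.ctorIdx (Option.some h : Option β)) → γ) → γ} {e : α → γ}
    (hl : Pu σ l) (hn : Pu σ fun a => n a fun _ => e a)
    (hc : Pu σ fun p : α × β => c p.1 p.2 fun _ => e p.1) :
    Pu σ fun a => Option.rec (motive := fun t => (Nat.hasNotBit k (Option.ctorIdx (t : Option β)) → γ) → γ) (n a) (c a) (l a) fun _ => e a :=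
  (hl.option_casesOn hn (c := fun a h => c a h fun _ => e a) hc).of_eq fun a => by
    cases l a <;> rfl
@[fun_prop] theorem Impl.option_else {k : ℕ} {l : α → Option β}
    {n : α → (Nat.hasNotBit k (Option.ctorIdx (none : Option β)) → R γ) → R γ} {c : α → ∀ h, (Nat.hasNotBit k (Option.ctorIdx (some h : Option β)) → R γ) → R γ} {e : α → R γ}
    (hl : Pu true l) (hn : Impl fun a => n a fun _ => e a)
    (hc : Impl fun p : α × β => c p.1 p.2 fun _ => e p.1) :
    Impl fun a => Option.rec (motive := fun t => (Nat.hasNotBit k (Option.ctorIdx (t : Option β)) → R γ) → R γ) (n a) (c a) (l a)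
      fun _ => e a :=
  (Impl.option_casesOn hl hn (c := fun a h => c a h fun _ => e a) hc).of_eq fun a => by
    cases l a <;> rfl
@[fun_prop] theorem Pu.nat_else {k : ℕ} {l : α → ℕ} {n : α → (Nat.hasNotBit k (Nat.ctorIdx (Nat.zero : ℕ)) → γ) → γ}
    {c : α → ∀ h, (Nat.hasNotBit k (Nat.ctorIdx (Nat.succ h : ℕ)) → γ) → γ} {e : α → γ} (hl : Pu σ l)
    (hn : Pu σ fun a => n a fun _ => e a) (hc : Pu σ fun p : α × ℕ => c p.1 p.2 fun _ => e p.1) :
    Pu σ fun a => Nat.rec (motive := fun t => (Nat.hasNotBit k (Nat.ctorIdx (t : ℕ)) → γ) → γ) (n a) (fun h _ => c a h) (l a)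
      fun _ => e a :=
  (hl.nat_casesOn hn (y := fun a h => c a h fun _ => e a) hc).of_eq fun a => by cases l a <;> rfl
@[fun_prop] theorem Impl.nat_else {k : ℕ} {l : α → ℕ} {n : α → (Nat.hasNotBit k (Nat.ctorIdx (Nat.zero : ℕ)) → R γ) → R γ}
    {c : α → ∀ h, (Nat.hasNotBit k (Nat.ctorIdx (Nat.succ h : ℕ)) → R γ) → R γ} {e : α → R γ} (hl : Pu true l)
    (hn : Impl fun a => n a fun _ => e a) (hc : Impl fun p : α × ℕ => c p.1 p.2 fun _ => e p.1) :
    Impl fun a => Nat.rec (motive := fun t => (Nat.hasNotBit k (Nat.ctorIdx (t : ℕ)) → R γ) → R γ) (n a) (fun h _ => c a h) (l a)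
      fun _ => e a :=
  (Impl.nat_casesOn hl hn (y := fun a h => c a h fun _ => e a) hc).of_eq fun a => by
    cases l a <;> rfl
@[fun_prop] theorem Pu.bool_else {k : ℕ} {l : α → Bool} {n : α → (Nat.hasNotBit k (Bool.ctorIdx (false : Bool)) → γ) → γ}
    {c : α → (Nat.hasNotBit k (Bool.ctorIdx (true : Bool)) → γ) → γ} {e : α → γ} (hl : Pu false l)
    (hn : Pu σ fun a => n a fun _ => e a) (hc : Pu σ fun a => c a fun _ => e a) :
    Pu σ fun a => Bool.rec (motive := fun t => (Nat.hasNotBit k (Bool.ctorIdx (t : Bool)) → γ) → γ) (n a) (c a) (l a) fun _ => e a :=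
  (hl.bool_casesOn hn hc).of_eq fun a => by cases l a <;> rfl
@[fun_prop] theorem Impl.bool_else {k : ℕ} {l : α → Bool}
    {n : α → (Nat.hasNotBit k (Bool.ctorIdx (false : Bool)) → R γ) → R γ} {c : α → (Nat.hasNotBit k (Bool.ctorIdx (true : Bool)) → R γ) → R γ} {e : α → R γ} (hl : Pu false l)
    (hn : Impl fun a => n a fun _ => e a) (hc : Impl fun a => c a fun _ => e a) :
    Impl fun a => Bool.rec (motive := fun t => (Nat.hasNotBit k (Bool.ctorIdx (t : Bool)) → R γ) → R γ) (n a) (c a) (l a) fun _ => e a :=
  (Impl.bool_casesOn hl hn hc).of_eq fun a => by cases l a <;> rfl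
@[fun_prop] theorem Pu.sum_else {k : ℕ} {l : α → β ⊕ δ}
    {n : α → ∀ h, (Nat.hasNotBit k (Sum.ctorIdx (Sum.inl h : β ⊕ δ)) → γ) → γ} {c : α → ∀ h, (Nat.hasNotBit k (Sum.ctorIdx (Sum.inr h : β ⊕ δ)) → γ) → γ} {e : α → γ}
    (hl : Pu σ l) (hn : Pu σ fun p : α × β => n p.1 p.2 fun _ => e p.1)
    (hc : Pu σ fun p : α × δ => c p.1 p.2 fun _ => e p.1) :
    Pu σ fun a => Sum.rec (motive := fun t => (Nat.hasNotBit k (Sum.ctorIdx (t : β ⊕ δ)) → γ) → γ) (n a) (c a) (l a) fun _ => e a :=
  (hl.sum_casesOn (f := fun a h => n a h fun _ => e a) (g := fun a h => c a h fun _ => e a)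
    hn hc).of_eq fun a => by cases l a <;> rfl
@[fun_prop] theorem Impl.sum_else {k : ℕ} {l : α → β ⊕ δ}
    {n : α → ∀ h, (Nat.hasNotBit k (Sum.ctorIdx (Sum.inl h : β ⊕ δ)) → R γ) → R γ} {c : α → ∀ h, (Nat.hasNotBit k (Sum.ctorIdx (Sum.inr h : β ⊕ δ)) → R γ) → R γ}
    {e : α → R γ} (hl : Pu true l) (hn : Impl fun p : α × β => n p.1 p.2 fun _ => e p.1)
    (hc : Impl fun p : α × δ => c p.1 p.2 fun _ => e p.1) :
    Impl fun a => Sum.rec (motive := fun t => (Nat.hasNotBit k (Sum.ctorIdx (t : β ⊕ δ)) → R γ) → R γ) (n a) (c a) (l a) fun _ => e a :=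
  (Impl.sum_casesOn hl (f := fun a h => n a h fun _ => e a) (g := fun a h => c a h fun _ => e a)
    hn hc).of_eq fun a => by cases l a <;> rfl

/-! ### closures as data, units, structures -/

@[fun_prop] theorem Pu.lam' {g : α → γ → R δ} (h : Impl fun p : α × γ => g p.1 p.2) :
    Pu σ fun a c => g a c := Pu.lam h
attribute [fun_prop] Pu.lam Pu.unit Impl.call_known

/-- the code of a value -/
def Rp.out {ρ τ : Type} (e : ρ → τ) (s : ρ) : τ := e s
/-- a value given with its code -/
def Rp.into {ρ τ : Type} (e : ρ → τ) (t : τ) (s : ρ) (_h : e s = t) : ρ := s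

@[fun_prop] theorem Pu.out {ρ τ : Type} [Rp τ] {e : ρ → τ} {f : α → ρ}
    (hf : @Pu α ρ _ (Rp.via e) σ f) : Pu σ fun a => Rp.out e (f a) := hf
@[fun_prop] theorem Pu.into {ρ τ : Type} [Rp τ] {e : ρ → τ} {t : α → τ} {s : α → ρ}
    {h : ∀ a, e (s a) = t a} (ht : Pu σ t) :
    @Pu α ρ _ (Rp.via e) σ fun a => Rp.into e (t a) (s a) (h a) :=
  Pu.via_in e (ht.of_eq fun a => (h a).symm)

attribute [irreducible] Rp.out Rp.into

theorem Impl.let' {v : α → β} {c : α → β → R γ} (hv : Pu true v)
    (hc : Impl fun p : α × β => c p.1 p.2) : Impl fun a => c a (v a) := hc.comp (Pu.id.pair hv)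
theorem Pu.let' {v : α → β} {c : α → β → γ} (hv : Pu σ v)
    (hc : Pu σ fun p : α × β => c p.1 p.2) : Pu σ fun a => c a (v a) := hc.comp (Pu.id.pair hv)
theorem Impl.tk_call {g : α → γ → R δ} {x : α → γ} {p : α → ℕ} (hg : Pu true g) (hx : Pu true x) :
    Impl fun a => R.tk 1 (p a) (g a (x a)) :=
  (Impl.call hg hx).of_run fun _ _ => ⟨rfl, rfl, le_rfl, max_le_max (Nat.zero_le _) le_rfl⟩

namespace ImplTac

/-- the coding map of a structure that is represented through `Rp.via` -/
def viaMap (ty : Lean.Expr) : Lean.MetaM (Option Lean.Expr) := do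
  let ty ← Lean.Meta.whnfR ty
  let some n := ty.getAppFn.constName? | return none
  if [``Prod, ``Subtype, ``Fin, ``Gh, ``Arr].contains n then return none
  unless Lean.isStructure (← Lean.getEnv) n do return none
  unless (← Lean.Meta.inferType ty).isType0 do return none
  let some inst ← Lean.Meta.synthInstance? (Lean.mkApp (Lean.mkConst ``Rp) ty) | return none
  let mut i ← Lean.instantiateMVars inst
  for _ in [0:4] do
    if i.isAppOfArity ``Rp.via 4 then return some i.appArg!
    let some j ← Lean.Meta.unfoldDefinition? i true | return none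
    i := j.headBeta
  return none

/-- find the component of the tuple `t` (reduced form `r`) that is `x` -/
partial def findComp (x t r : Lean.Expr) : Lean.MetaM (Option Lean.Expr) := do
  if ← Lean.Meta.withReducible (Lean.Meta.isDefEq x r) then return some t
  let r ← Lean.Meta.whnf r
  if r.isAppOfArity ``Prod.mk 4 then
    if let some y ← findComp x (← Lean.Meta.mkAppM ``Prod.fst #[t]) r.appFn!.appArg! then
      return some y
    findComp x (← Lean.Meta.mkAppM ``Prod.snd #[t]) r.appArg!
  else return none

/-- the head of a term below projections -/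
partial def headOf (e : Lean.Expr) : Lean.MetaM Lean.Expr := do
  let e := e.consumeMData
  let f := e.getAppFn
  if let .proj _ _ s := f then return ← headOf s
  if let some c := f.constName? then
    if let some p := (← Lean.getEnv).getProjectionFnInfo? c then
      if !p.fromClass && e.getAppNumArgs > p.numParams then return ← headOf (e.getArg! p.numParams)
  return f

/-- steps at the head that need no rule: beta, projections of constructors, matchers -/
partial def hnf (e : Lean.Expr) : Lean.MetaM Lean.Expr := do
  let e := e.consumeMData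
  if e.isHeadBetaTarget then return ← hnf e.headBeta
  let env ← Lean.getEnv
  let f := e.getAppFn
  let args := e.getAppArgs
  if let .mdata _ f' := f then return ← hnf (Lean.mkAppN f' args)
  if let .letE _ _ v b _ := f then
    if args.size > 0 then return ← hnf (Lean.mkAppN (b.instantiate1 v) args)
  if let .proj n i s := f then
    if let some fn := (Lean.getStructureInfo? env n).bind (·.getProjFn? i) then
      let t ← Lean.Meta.whnf (← Lean.Meta.inferType s)
      return ← hnf (Lean.mkAppN (Lean.mkApp (Lean.mkAppN (Lean.mkConst fn t.getAppFn.constLevels!)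
        t.getAppArgs) s) args)
  let some c := f.constName? | return e
  if let some p := env.getProjectionFnInfo? c then
    if !p.fromClass && args.size > p.numParams then
      let s ← hnf args[p.numParams]!
      if s.isAppOf p.ctorName then
        return ← hnf (Lean.mkAppN (s.getArg! (p.numParams + p.i)) (args.extract (p.numParams + 1)))
      return Lean.mkAppN f (args.set! p.numParams s)
    return e
  if Lean.Meta.isMatcherCore env c || Lean.isSparseCasesOn env c then
    let v ← Lean.Core.instantiateValueLevelParams (← Lean.getConstInfo c) f.constLevels!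
    if args.size < v.getNumHeadLambdas then return e
    return ← hnf (← Lean.Core.betaReduce (v.beta args))
  if Lean.isCasesOnRecursor env c || Lean.isRecCore env c then
    let e' ← Lean.Meta.withReducible (Lean.Meta.whnfCore e)
    if e' != e then return ← hnf e'
  return e

/-- state of the search -/
structure St where
  cache : Std.HashMap Lean.Expr (Option Lean.Expr) := {}
  errs : Array Lean.MessageData := #[]
  inst : Std.HashMap Lean.Expr (Option Lean.Expr) := {}
  same : Std.HashMap Lean.Expr Lean.Expr := {}

abbrev M := ReaderT (Lean.LocalContext × Lean.LocalInstances) (StateRefT St Lean.MetaM)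

/-- run in the context of the goal -/
def base {τ : Type} (k : M τ) : M τ := do Lean.Meta.withLCtx (← read).1 (← read).2 k

def fail (m : Lean.MessageData) : M (Option Lean.Expr) := do
  let m ← Lean.addMessageContext m
  modify fun s => if s.errs.size < 6 then { s with errs := s.errs.push m } else s
  return none

/-- the instance `Rp ty` -/
partial def rpInst (ty : Lean.Expr) : M (Option Lean.Expr) := do
  if let some r := (← get).inst[ty]? then return r
  let ty' ← Lean.Meta.whnfR ty
  let r ← if ty'.isAppOfArity ``Prod 2 then do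
      let some i ← rpInst ty'.appFn!.appArg! | pure none
      let some j ← rpInst ty'.appArg! | pure none
      pure (some (Lean.mkApp4 (Lean.mkConst ``instRpProd) ty'.appFn!.appArg! ty'.appArg! i j))
    else Lean.Meta.synthInstance? (Lean.mkApp (Lean.mkConst ``Rp) ty) (some 4096)
  let r ← r.mapM fun i => Lean.instantiateMVars i
  modify fun s => { s with inst := s.inst.insert ty r }
  return r

/-- the canonical form of the instance `i : Rp ty` -/
def canon (ty i : Lean.Expr) : M Lean.Expr := do
  if let some r := (← get).same[i]? then return r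
  let r ← match ← rpInst ty with
    | some j => if i == j || (← Lean.Meta.withReducibleAndInstances (Lean.Meta.isDefEq i j))
        then pure j else pure i
    | none => pure i
  modify fun s => { s with same := s.same.insert i r }
  return r

/-- a tuple of metavariables, as deep as the projections of `p` in `b` go -/
partial def mvTup (α a δ p b : Lean.Expr) : M Lean.Expr := do
  let δ' ← Lean.Meta.whnfR δ
  if δ'.isAppOfArity ``Prod 2 then
    let p1 ← Lean.Meta.mkAppM ``Prod.fst #[p]
    let p2 ← Lean.Meta.mkAppM ``Prod.snd #[p]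
    let isP (q s : Lean.Expr) : Bool :=
      s == q || (match s with
        | .proj _ i t => t == p && q.isAppOf (if i == 0 then ``Prod.fst else ``Prod.snd)
        | _ => s.isAppOfArity q.getAppFn.constName! 3 && s.appArg! == p)
    if (b.find? fun s => isP p1 s || isP p2 s).isSome then
      let b' := b.replace fun s => if isP p1 s then some p1 else if isP p2 s then some p2 else none
      return ← Lean.Meta.mkAppOptM ``Prod.mk #[δ'.appFn!.appArg!, δ'.appArg!,
        ← mvTup α a δ'.appFn!.appArg! p1 b', ← mvTup α a δ'.appArg! p2 b']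
  return Lean.mkApp (← base (Lean.Meta.mkFreshExprMVar (← Lean.mkArrow α δ))) a

/-- reduce the projections of explicit pairs -/
def redProj (e : Lean.Expr) : Lean.MetaM Lean.Expr :=
  Lean.Meta.transform e (post := fun s => do
    let (i, t) ← match s with
      | .proj ``Prod i t => pure (i, t)
      | _ =>
        if s.isAppOfArity ``Prod.fst 3 then pure (0, s.appArg!)
        else if s.isAppOfArity ``Prod.snd 3 then pure (1, s.appArg!) else return .done s
    if t.isAppOfArity ``Prod.mk 4 then return .done (t.getArg! (2 + i)) else return .done s)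

def isGoal (t : Lean.Expr) : Bool := t.isAppOfArity ``Impl 5 || t.isAppOfArity ``Pu 6

def unf : List Lean.Name := [``id, ``Function.comp, ``Function.const, ``Function.uncurry,
  ``Function.curry, ``Prod.map, ``flip, ``Function.swap, ``Ne, ``GT.gt, ``GE.ge, ``Sum.elim,
  ``Functor.discard, ``Sum.isLeft, ``Sum.isRight, ``Sum.map, ``Option.orElse,
  ``Option.or, ``Option.filter, ``Option.all, ``Option.any, ``Option.join, ``List.tail?]

mutual

/-- use the rule `pf`; `dec`: compose it with a tuple -/
partial def useRule (extra : Array Lean.Name) (t pf : Lean.Expr) (dec : Bool) :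
    M (Option Lean.Expr) := base do
  let sv ← Lean.Meta.saveState
  let r ← (do
    let (ms, bis, c) ← Lean.Meta.forallMetaTelescope (← Lean.Meta.inferType pf)
    let c ← Lean.Meta.whnfR c
    unless isGoal c && c.getAppFn.constName! == t.getAppFn.constName! do return none
    let mut side : Option Lean.Expr := none
    let mut weak := false
    if c.isAppOf ``Pu && (c.getArg! 4).isConstOf ``Bool.true && !(t.getArg! 4).isConstOf ``Bool.true
      then weak := true
    let ar := c.isAppOf ``Pu && (c.getArg! 4).isFVar && (t.getArg! 4).isConstOf ``Bool.false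
    let t' := if weak then t.setArg 4 (Lean.mkConst ``Bool.true)
      else if ar then t.setArg 4 (c.getArg! 4) else t
    if dec then
      let F := c.appArg!
      let α := t.getArg! 0
      let g? ← Lean.Meta.withLocalDeclD `a α fun a =>
        Lean.Meta.withLocalDeclD `p (c.getArg! 0) fun p => do
          let tp ← mvTup α a (c.getArg! 0) p (F.beta #[p])
          let l ← Lean.Meta.mkLambdaFVars #[a] (← redProj (F.beta #[tp]))
          unless ← Lean.Meta.withReducible (Lean.Meta.isDefEq (c.getArg! 1) (t.getArg! 1)) do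
            return none
          if c.isAppOf ``Pu then
            unless ← Lean.Meta.isDefEq (c.getArg! 4) (t'.getArg! 4) do return none
          unless ← Lean.Meta.withReducibleAndInstances (Lean.Meta.isDefEq l t.appArg!) do return none
          return some (← Lean.Meta.mkLambdaFVars #[a] tp)
      let some g := g? | return none
      side := some g
    else
      unless ← Lean.Meta.withReducibleAndInstances (Lean.Meta.isDefEq c t') do return none
    for m in ms, bi in bis do
      if bi.isInstImplicit && !(← m.mvarId!.isAssigned) then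
        let ty ← Lean.instantiateMVars (← Lean.Meta.inferType m)
        if ty.hasExprMVar then return none
        let some i ← (if ty.isAppOfArity ``Rp 1 then rpInst ty.appArg! else
          Lean.Meta.synthInstance? ty (some 4096)) | return none
        m.mvarId!.assign i
    for m in ms do
      if ← m.mvarId!.isAssigned then continue
      let h ← Lean.instantiateMVars (← Lean.Meta.inferType m)
      let h' ← Lean.Meta.whnfR h
      if isGoal h' then
        if h'.hasExprMVar then return none
        let some q ← solve extra h' | return none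
        m.mvarId!.assign q
      else
        try m.mvarId!.assumption catch _ => return ← fail m!"side condition {h}"
    let mut r := Lean.mkAppN pf ms
    if let some g := side then
      let g ← Lean.instantiateMVars g
      if g.hasExprMVar then return none
      let s := if t.isAppOf ``Pu then t'.getArg! 4 else Lean.mkConst ``Bool.true
      let c ← Lean.instantiateMVars c
      let h := Lean.mkAppN (Lean.mkConst ``Pu) #[t.getArg! 0, c.getArg! 0, t.getArg! 2, c.getArg! 2,
        s, g]
      let some q ← solve extra h | return none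
      r := Lean.mkAppN (Lean.mkConst (if t.isAppOf ``Pu then ``Pu.comp else ``Impl.comp))
        (#[t.getArg! 0, c.getArg! 0, c.getArg! 1, t.getArg! 2, c.getArg! 2, c.getArg! 3]
          ++ (if t.isAppOf ``Pu then #[s] else #[]) ++ #[c.appArg!, g, r, q])
      r ← Lean.Meta.mkExpectedTypeHint r t'
    if weak then
      r := Lean.mkAppN (Lean.mkConst ``Pu.weak) #[t.getArg! 0, t.getArg! 1, t.getArg! 2, t.getArg! 3,
        t.getArg! 4, t.appArg!, ← Lean.Meta.mkExpectedTypeHint r t']
    if ar then
      r := Lean.mkAppN (Lean.mkConst ``Pu.ar) #[t.getArg! 0, t.getArg! 1, t.getArg! 2, t.getArg! 3,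
        c.getArg! 4, t.appArg!, ← Lean.Meta.mkExpectedTypeHint r t']
    return some (← Lean.instantiateMVars r))
  if r.isNone then sv.restore
  return r

/-- the hypotheses of the context about the head `h` -/
partial def useLocal (extra : Array Lean.Name) (t h : Lean.Expr) : M (Option Lean.Expr × Bool) := do
  let mut found := false
  for d in (← read).1 do
    if d.isImplementationDetail then continue
    let ty ← Lean.instantiateMVars d.type
    let b := ty.getForallBody
    unless isGoal b && b.getAppFn.constName! == t.getAppFn.constName! do continue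
    let f := b.appArg!
    let x := if f.isLambda then f.bindingBody! else f
    let hd ← headOf x
    unless (x.getAppFn.isConst && h.isConst && x.getAppFn.constName! == h.constName!
      && (hd.isConst || hd.hasLooseBVars)) || hd == h do continue
    found := true
    if let some r ← useRule extra t d.toExpr false then return (some r, true)
    if let some r ← useRule extra t d.toExpr true then return (some r, true)
  return (none, found)

/-- prove the goal `t` through the definitionally equal goal with the body `b` -/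
partial def change (extra : Array Lean.Name) (t a b : Lean.Expr) : M (Option Lean.Expr) := do
  let some r ← solve extra (Lean.mkApp t.appFn! (← Lean.Meta.mkLambdaFVars #[a] b)) | return none
  return some (← Lean.Meta.mkExpectedTypeHint r t)

partial def byName (extra : Array Lean.Name) (t : Lean.Expr) (n : Lean.Name) :
    M (Option Lean.Expr) := useRule extra t (Lean.mkConst n) false

partial def solve (extra : Array Lean.Name) (t : Lean.Expr) : M (Option Lean.Expr) := do
  let t := (t.setArg 2 (← base (canon (t.getArg! 0) (t.getArg! 2)))).setArg 3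
    (← base (canon (t.getArg! 1) (t.getArg! 3)))
  if let some r := (← get).cache[t]? then return r
  let r ← base (solveCore extra t)
  modify fun s => { s with cache := s.cache.insert t r }
  return r

partial def solveCore (extra : Array Lean.Name) (t : Lean.Expr) (noLam : Bool := false) : M (Option Lean.Expr) := do
  Lean.Core.checkSystem "impl"
  let pu := t.isAppOf ``Pu
  Lean.Meta.withLocalDeclD `a (t.getArg! 0) fun a => do
  let b0 := t.appArg!.beta #[a]
  let b ← hnf b0
  if b != b0 || !t.appArg!.isLambda then return ← change extra t a b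
  if !b.containsFVar a.fvarId! then
    for th in ← Mathlib.Meta.FunProp.getLambdaTheorems t.getAppFn.constName! .const do
      if let some r ← byName extra t th.thmName then return some r
  if pu then
    let β ← Lean.Meta.whnfR (t.getArg! 1)
    if β.isConstOf ``Unit || β.isConstOf ``PUnit then return ← byName extra t ``Pu.unit
    if !(t.getArg! 4).isConstOf ``Bool.false then
      if β.isProp then return ← byName extra t ``Pu.prop
      if β.isConstOf ``Bool then return ← byName extra t ``Pu.bool
    if b == a then return ← byName extra t ``Pu.id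
    if β.isForall && !noLam then
      unless (← headOf b) == a do
        if (← headOf b).isFVar || (← headOf b).isConstOf ``Rp.out then
          let n0 := (← get).errs.size
          if let some r ← solveCore extra t true then return some r
          modify fun s => { s with errs := s.errs.shrink n0 }
        let f ← Lean.Meta.mkLambdaFVars #[a] (← Lean.Meta.etaExpand b)
        let some r ← byName extra (Lean.mkApp t.appFn! f) ``Pu.lam' | return none
        return some (← Lean.Meta.mkExpectedTypeHint r t)
    if let .forallE _ d c _ := b then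
      if !c.hasLooseBVars && (← Lean.Meta.isProp d) then return ← byName extra t ``Pu.imp
  if let .letE n ty v c _ := b then
    let ty' ← Lean.Meta.whnfR ty
    if !(ty'.isForall || v.isFVar || !c.hasLooseBVars || !v.containsFVar a.fvarId!
        || ty.containsFVar a.fvarId!) && (← Lean.Meta.inferType ty').isType0 then
      if let some i ← rpInst ty then
        let s := if pu then t.getArg! 4 else Lean.mkConst ``Bool.true
        let vf ← Lean.Meta.mkLambdaFVars #[a] v
        let n0 := (← get).errs.size
        match ← solve extra (Lean.mkAppN (Lean.mkConst ``Pu) #[t.getArg! 0, ty, t.getArg! 2, i, s, vf])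
          with
        | some q1 =>
          let cf ← Lean.Meta.mkLambdaFVars #[a] (.lam n ty c .default)
          let pf ← Lean.Meta.mkAppOptM (if pu then ``Pu.let' else ``Impl.let')
            (#[t.getArg! 0, ty, t.getArg! 1, t.getArg! 2, i, t.getArg! 3].map some
              ++ (if pu then #[some s] else #[]) ++ #[some vf, some cf])
          let .forallE _ _ (.forallE _ h2 _ _) _ ← Lean.Meta.inferType pf | return none
          let some q2 ← solve extra h2 | return none
          return some (← Lean.Meta.mkExpectedTypeHint (Lean.mkApp2 pf q1 q2) t)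
        | none => modify fun s => { s with errs := s.errs.shrink n0 }
    return ← change extra t a (c.instantiate1 v)
  let f := b.getAppFn
  let args := b.getAppArgs
  let env ← Lean.getEnv
  if f.isFVar then
    let (r, _) ← useLocal extra t f
    if r.isSome then return r
    if let some v ← f.fvarId!.getValue? then return ← change extra t a (v.beta args)
    return ← fail m!"no hypothesis for the variable {f} in{Lean.indentExpr t}"
  let some c := f.constName? | fail m!"no rule for{Lean.indentExpr t}"
  if c == ``call && args.size == 4 then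
    let x ← hnf (args[2]!.beta #[args[3]!])
    if x.isApp && (← headOf x).isFVar then
      let y ← Lean.Meta.mkAppM ``call #[x.appFn!, x.appArg!]
      if y != b then return ← change extra t a y
      let (r, _) ← useLocal extra t f
      if r.isSome then return r
      if (← headOf x) == a then return ← byName extra t ``Impl.call
      let n0 := (← get).errs.size
      if let some r ← byName extra t ``Impl.call_known then return some r
      let r ← byName extra t ``Impl.call
      if r.isSome then modify fun s => { s with errs := s.errs.shrink n0 }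
      return r
    return ← byName extra t ``Impl.call_known
  if c == ``R.tk && args.size == 4 && args[1]!.nat? == some 1 then
    let x ← hnf args[3]!
    if x.isApp && (← headOf x) == a then
      if x != args[3]! then return ← change extra t a (Lean.mkApp b.appFn! x)
      return ← byName extra t ``Impl.tk_call
  if extra.contains c then
    if let some e ← Lean.Meta.unfoldDefinition? b true then return ← change extra t a e
  let (r, found) ← useLocal extra t f
  if r.isSome then return r
  let hd ← headOf b
  let (r, found') ← if hd.isFVar && hd != a then useLocal extra t hd else pure (none, false)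
  if r.isSome then return r
  let main := (List.range args.size).filter (args[·]!.containsFVar a.fvarId!)
  let ths := (← Mathlib.Meta.FunProp.getTheoremsForFunction c t.getAppFn.constName!).filter
    fun th => th.appliedArgs == args.size && main.all th.mainArgs.contains
  let ths := ths.qsort fun x y => x.mainArgs.size < y.mainArgs.size
  let n0 := (← get).errs.size
  for th in ths do
    if let some r ← useRule extra t (← th.getProof) (th.form == .uncurried) then
      modify fun s => { s with errs := s.errs.shrink n0 }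
      return some r
  if let some p := env.getProjectionFnInfo? c then
    if !p.fromClass && args.size > p.numParams then
      let s := args[p.numParams]!
      if let some m ← viaMap (← Lean.Meta.inferType s) then
        let x := Lean.mkAppN f (args.extract 0 (p.numParams + 1))
        if let some y ← findComp x (← Lean.Meta.mkAppM ``Rp.out #[m, s]) (m.beta #[s]) then
          return ← change extra t a (Lean.mkAppN y (args.extract (p.numParams + 1)))
      if ths.isEmpty && !(← headOf s).isConstOf ``Rp.out then
        if let some s' ← Lean.Meta.unfoldDefinition? s true then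
          return ← change extra t a (Lean.mkAppN f (args.set! p.numParams s'))
    if p.fromClass && (← get).errs.size == n0 then
      if let some e ← Lean.Meta.unfoldProjInst? b then
        discard <| fail m!"no rule for{Lean.indentExpr t}"
        let r ← change extra t a e
        if r.isSome then modify fun s => { s with errs := s.errs.shrink n0 }
        return r
  else if let some (.ctorInfo ci) := env.find? c then
    if pu && args.size == ci.numParams + ci.numFields then
      if let some m ← viaMap (t.getArg! 1) then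
        let x := m.beta #[b]
        let h ← Lean.Meta.mkExpectedTypeHint (← Lean.Meta.mkEqRefl x)
          (← Lean.Meta.mkEq (Lean.mkApp m b) x)
        return ← change extra t a (← Lean.Meta.mkAppOptM ``Rp.into #[none, none, m, x, b, h])
  else if ths.isEmpty && !found && !found' then
    if unf.contains c || (← Lean.isReducible c)
        || ((`Crest.Agent).isPrefixOf c && !(← Lean.Meta.isRecursiveDefinition c)) then
      if let some (.defnInfo di) := env.find? c then
        let v ← Lean.Core.instantiateValueLevelParams (.defnInfo di) f.constLevels!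
        return ← change extra t a (v.beta args)
  if (← get).errs.size == n0 then fail m!"no rule for{Lean.indentExpr t}" else return none

end

/-- the argument lists of the occurrences of the constant `c` -/
partial def occs (c : Lean.Name) (e : Lean.Expr) : StateM (Array (Array Lean.Expr)) Unit := do
  match e with
  | .app .. | .const .. =>
    if e.getAppFn.isConstOf c then modify (·.push e.getAppArgs)
    else if e.isApp then occs c e.getAppFn
    e.getAppArgs.forM (occs c)
  | .lam _ _ b _ => occs c b
  | .letE _ _ v b _ => occs c v; occs c b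
  | .mdata _ b => occs c b
  | .proj _ _ b => occs c b
  | _ => pure ()

/-- nested pairs -/
def mkTup (xs : List Lean.Expr) : Lean.MetaM Lean.Expr :=
  match xs with
  | [] => pure (Lean.mkConst ``Unit.unit)
  | [x] => pure x
  | x :: l => do Lean.Meta.mkAppM ``Prod.mk #[x, ← mkTup l]

/-- the components of nested pairs -/
def unTup : ℕ → Lean.Expr → Lean.MetaM (List Lean.Expr)
  | 0, _ => pure []
  | 1, t => pure [t]
  | n + 2, t => do
    return (← Lean.Meta.mkAppM ``Prod.fst #[t]) :: (← unTup (n + 1) (← Lean.Meta.mkAppM ``Prod.snd #[t]))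

/-- reduce `Impl fun a => foo ..` for a recursive `foo` to its body -/
def recStep (g : Lean.MVarId) : Lean.MetaM (List Lean.MVarId) := g.withContext do
  let t ← Lean.Meta.whnfR (← Lean.instantiateMVars (← g.getType))
  unless t.isAppOfArity ``Impl 5 do throwError "impl_rec: the goal is not `Impl`"
  Lean.Meta.withLocalDeclD `a (t.getArg! 0) fun a => do
    let body := t.appArg!.beta #[a]
    let some c := body.getAppFn.constName? | throwError "impl_rec: the head is not a constant"
    let args := body.getAppArgs
    let some eqn ← Lean.Meta.getUnfoldEqnFor? c (nonRec := true)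
      | throwError "impl_rec: no unfolding equation for {c}"
    let eqc := Lean.mkConst eqn body.getAppFn.constLevels!
    let vary ← Lean.Meta.forallTelescope (← Lean.Meta.inferType eqc) fun xs eq => do
      unless xs.size == args.size do throwError "impl_rec: wrong number of arguments"
      let some (_, _, rhs) := eq.eq? | throwError "impl_rec: not an equation"
      let os := ((occs c rhs).run #[]).2
      return (List.range xs.size).filter fun i => os.any fun o => o[i]? != some xs[i]!
    let tup ← mkTup (vary.map (args[·]!))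
    let γ ← Lean.Meta.inferType tup
    let ρ ← Lean.Meta.whnfR (← Lean.Meta.inferType body)
    let (gE, FE, eE) ← Lean.Meta.withLocalDeclD `c γ fun x => do
      let ps ← unTup vary.length x
      let args' := (vary.zip ps).foldl (fun r (i, p) => r.set! i p) args
      let gE ← Lean.Meta.mkLambdaFVars #[a, x] (Lean.mkAppN body.getAppFn args')
      let pf := Lean.mkAppN eqc args'
      let some (_, _, rhs) := (← Lean.Meta.inferType pf).eq? | throwError "impl_rec"
      Lean.Meta.withLocalDeclD `k (← Lean.mkArrow γ ρ) fun k => do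
        let rhs' ← Lean.Meta.transform rhs (skipConstInApp := true)
          (pre := fun e => do
            if e.getAppFn.isConstOf c && e.getAppNumArgs < args.size then
              return .visit (← Lean.Meta.forallBoundedTelescope (← Lean.Meta.inferType e)
                (some (args.size - e.getAppNumArgs)) fun ys _ =>
                  Lean.Meta.mkLambdaFVars ys (Lean.mkAppN e ys))
            return .continue)
          (post := fun e => do
            if e.getAppFn.isConstOf c && e.getAppNumArgs == args.size then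
              return .done (Lean.mkApp k (← mkTup (vary.map (e.getArg! ·))))
            return .done e)
        return (gE, ← Lean.Meta.mkLambdaFVars #[a, k, x] rhs', ← Lean.Meta.mkLambdaFVars #[a, x] pf)
    let fx ← Lean.Meta.mkAppOptM ``Impl.fix #[t.getArg! 0, γ, ρ.appArg!, none, none, none, gE, FE]
    let .forallE _ eT _ _ ← Lean.Meta.inferType fx | throwError "impl_rec"
    let fx := Lean.mkApp fx (← Lean.Meta.mkExpectedTypeHint eE eT)
    let .forallE _ hT _ _ ← Lean.Meta.inferType fx | throwError "impl_rec"
    let hF ← Lean.Meta.mkFreshExprMVarAt (← g.getDecl).lctx (← g.getDecl).localInstances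
      (← Lean.Core.betaReduce hT) .syntheticOpaque
    let pr ← Lean.Meta.mkLambdaFVars #[a] (← Lean.Meta.mkAppM ``Prod.mk #[a, tup])
    let hP ← Lean.Meta.mkFreshExprMVarAt (← g.getDecl).lctx (← g.getDecl).localInstances
      (← Lean.Meta.mkAppM ``Pu #[Lean.mkConst ``Bool.true, pr]) .syntheticOpaque
    let pf ← Lean.Meta.mkAppM ``Impl.comp #[Lean.mkApp fx hF, hP]
    g.assign (← Lean.Meta.mkExpectedTypeHint pf t)
    return [hF.mvarId!, hP.mvarId!]

end ImplTac

/-- the proof search for `Impl f` and `Pu σ f` -/
elab "impl_core" ids:(ppSpace colGt ident)* : tactic => Lean.Elab.Tactic.withMainContext do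
  let extra ← ids.mapM fun i => Lean.Elab.realizeGlobalConstNoOverloadWithInfo i
  let g ← Lean.Elab.Tactic.getMainGoal
  let t ← Lean.Meta.whnfR (← Lean.instantiateMVars (← g.getType))
  unless ImplTac.isGoal t do throwError "impl: the goal is not `Impl` or `Pu`"
  let (r, s) ← (ImplTac.solve extra t (← Lean.getLCtx, ← Lean.Meta.getLocalInstances)).run {}
  let some r := r
    | throwError "impl failed:\n{Lean.MessageData.joinSep s.errs.toList "\n"}"
  g.assign r

/-- unfold the recursive program at the head of the goal; its calls become calls of a closure -/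
elab "impl_rec_step" : tactic => do
  Lean.Elab.Tactic.replaceMainGoal (← Lean.withOptions
    (fun o => o.set `synthInstance.maxSize (4096 : ℕ)) (ImplTac.recStep (← Lean.Elab.Tactic.getMainGoal)))

/-- prove `Impl f` or `Pu σ f`; the listed constants are unfolded in any case -/
macro "impl" ids:(ppSpace colGt ident)* : tactic => `(tactic| (intros; impl_core $ids*))

/-- prove `Impl fun a => foo ..` for a recursive program whose recursive uses go through `call` -/
macro "impl_rec" ids:(ppSpace colGt ident)* : tactic =>
  `(tactic| (intros; impl_rec_step; (· impl $ids*); (· impl)))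

end Crest.Agent.N325
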