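import Mathlib

/-!
# Row 325 (helper57): the cost monad with random samples, its specifications and loops

`R α` is a tree: `tk t p k` spends `t` ticks and declares the new number `p`;
`smp n G k` draws `n` fair bits, `G` is the (ghost) set of good samples.
`Sp g m Q`: all declared numbers are at most `g.X`, every set of good samples misses at most the
fraction `g.d`, and along good samples the result and the elapsed cost satisfy `Q`.
-/

set_option autoImplicit false

namespace Crest.Agent.N325

/-- computations -/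
inductive R (α : Type) : Type
  | ret (a : α) : R α
  | tk (t pk : ℕ) (k : R α) : R α
  | smp (n : ℕ) (G : List Bool → Prop) (k : List Bool → R α) : R α

/-- result of a run: value, rest of the tape, cost, largest declared number -/
structure Out (α : Type) where
  val : α
  tape : List Bool
  cost : ℕ
  pk : ℕ

/-- the first `n` bits of the tape, padded by `false` -/
def tkb (n : ℕ) (τ : List Bool) : List Bool := τ.take n ++ List.replicate (n - τ.length) false

@[simp] theorem length_tkb (n : ℕ) (τ : List Bool) : (tkb n τ).length = n := by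
  simp only [tkb, List.length_append, List.length_take, List.length_replicate]; omega

namespace R

variable {α β : Type}

/-- sequencing -/
protected def bind : R α → (α → R β) → R β
  | ret a, f => f a
  | tk t p k, f => tk t p (k.bind f)
  | smp n G k, f => smp n G fun l => (k l).bind f

instance : Monad R where
  pure := ret
  bind := R.bind

/-- the run on a tape -/
def run : R α → List Bool → Out α
  | ret a, τ => ⟨a, τ, 0, 0⟩
  | tk t p k, τ => { k.run τ with cost := t + (k.run τ).cost, pk := max p (k.run τ).pk }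
  | smp n _ k, τ => { (k (tkb n τ)).run (τ.drop n) with
      cost := n + 1 + ((k (tkb n τ)).run (τ.drop n)).cost }

/-- all samples of the run are good -/
def good : R α → List Bool → Prop
  | ret _, _ => True
  | tk _ _ k, τ => k.good τ
  | smp n G k, τ => G (tkb n τ) ∧ (k (tkb n τ)).good (τ.drop n)

theorem run_pure (a : α) (τ : List Bool) : (pure a : R α).run τ = ⟨a, τ, 0, 0⟩ := rfl

theorem run_bind (m : R α) (f : α → R β) (τ : List Bool) : (m >>= f).run τ =
    ⟨((f (m.run τ).val).run (m.run τ).tape).val, ((f (m.run τ).val).run (m.run τ).tape).tape,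
      (m.run τ).cost + ((f (m.run τ).val).run (m.run τ).tape).cost,
      max (m.run τ).pk ((f (m.run τ).val).run (m.run τ).tape).pk⟩ := by
  change (m.bind f).run τ = _
  induction m generalizing τ with
  | ret a => simp [R.bind, run]
  | tk t p k ih => simp only [R.bind, run, ih, add_assoc, max_assoc]
  | smp n G k ih => simp only [R.bind, run, ih, add_assoc]

theorem pure_bind' (a : α) (f : α → R β) : (pure a >>= f : R β) = f a := rfl

end R

/-- one tick -/
def tick : R Unit := .tk 1 0 (.ret ())
/-- the guard for a new natural number -/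
def nat (e : ℕ) : R ℕ := .tk 0 e (.ret e)
/-- the guard for a new integer -/
def int (e : ℤ) : R ℤ := .tk 0 e.natAbs (.ret e)
/-- `n` fair bits, `G` = good samples -/
def smp (n : ℕ) (G : List Bool → Prop) : R (List Bool) := .smp n G .ret
/-- a call of a closure (recursive calls go through `call`) -/
def call {α β : Type} (g : α → R β) (a : α) : R β := .tk 1 0 (g a)

/-- arrays: total functions (represented by tries; `get`, `set` are straight-line) -/
structure Arr (α : Type) where
  get : ℕ → α

namespace Arr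
variable {α : Type}
/-- the constant array -/
def cst (d : α) : Arr α := ⟨fun _ => d⟩
/-- update -/
def set (a : Arr α) (i : ℕ) (x : α) : Arr α := ⟨fun j => if j = i then x else a.get j⟩
@[simp] theorem get_cst (d : α) (i : ℕ) : (cst d).get i = d := rfl
theorem get_set (a : Arr α) (i j : ℕ) (x : α) : (a.set i x).get j = if j = i then x else a.get j := rfl
@[simp] theorem get_set_self (a : Arr α) (i : ℕ) (x : α) : (a.set i x).get i = x := if_pos rfl
theorem get_set_ne (a : Arr α) {i j : ℕ} (h : j ≠ i) (x : α) : (a.set i x).get j = a.get j := if_neg h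
theorem set_get (a : Arr α) (i : ℕ) (x : α) : (a.set i x).get = Function.update a.get i x :=
  funext fun j => by rw [get_set, Function.update_apply]
@[ext] theorem ext' {a b : Arr α} (h : ∀ i, a.get i = b.get i) : a = b := by
  cases a; cases b; exact congrArg _ (funext h)
end Arr

/-- bound on the numbers, bound on the failure of one sample -/
structure Gl where
  X : ℕ
  d : ℝ

open Classical in
/-- the fraction of the samples outside `G` -/
noncomputable def bad (n : ℕ) (G : List Bool → Prop) : ℝ :=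
  ((Finset.univ.filter fun v : Fin n → Bool => ¬G (List.ofFn v)).card : ℝ) / 2 ^ n

/-- **specifications** -/
def Sp {α : Type} (g : Gl) : R α → (α → ℕ → Prop) → Prop
  | .ret a, Q => Q a 0
  | .tk t p k, Q => p ≤ g.X ∧ Sp g k fun a s => Q a (t + s)
  | .smp n G k, Q => bad n G ≤ g.d ∧ ∀ l, l.length = n → G l → Sp g (k l) fun a s => Q a (n + 1 + s)

section rules

variable {α β σ : Type} {g : Gl} {Q Q' : α → ℕ → Prop}

theorem Sp.mono {m : R α} (h : Sp g m Q) (k : ∀ a t, Q a t → Q' a t) : Sp g m Q' := by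
  induction m generalizing Q Q' with
  | ret a => exact k _ _ h
  | tk t p m ih => exact ⟨h.1, ih h.2 fun a s => k a _⟩
  | smp n G m ih => exact ⟨h.1, fun l e gl => ih l (h.2 l e gl) fun a s => k a _⟩

theorem Sp.and {m : R α} (h : Sp g m Q) (h' : Sp g m Q') : Sp g m fun a t => Q a t ∧ Q' a t := by
  induction m generalizing Q Q' with
  | ret a => exact ⟨h, h'⟩
  | tk t p m ih => exact ⟨h.1, ih h.2 h'.2⟩
  | smp n G m ih => exact ⟨h.1, fun l e gl => ih l (h.2 l e gl) (h'.2 l e gl)⟩

theorem Sp.gl {g' : Gl} {m : R α} (h : Sp g m Q) (hX : g.X ≤ g'.X) (hd : g.d ≤ g'.d) :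
    Sp g' m Q := by
  induction m generalizing Q with
  | ret a => exact h
  | tk t p m ih => exact ⟨h.1.trans hX, ih h.2⟩
  | smp n G m ih => exact ⟨h.1.trans hd, fun l e gl => ih l (h.2 l e gl)⟩

@[simp] theorem sp_pure {a : α} : Sp g (pure a) Q ↔ Q a 0 := Iff.rfl

theorem sp_bind {m : R α} {f : α → R β} {P : β → ℕ → Prop} :
    Sp g (m >>= f) P ↔ Sp g m fun a t => Sp g (f a) fun b s => P b (t + s) := by
  change Sp g (m.bind f) P ↔ _
  induction m generalizing P with
  | ret a => simp only [R.bind, Sp, zero_add]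
  | tk t p m ih => simp only [R.bind, Sp, ih, add_assoc]
  | smp n G m ih => simp only [R.bind, Sp, ih, add_assoc]

/-- the usual way to use a specification of the first command -/
theorem Sp.bind {m : R α} {f : α → R β} {P : β → ℕ → Prop} (h : Sp g m Q)
    (k : ∀ a t, Q a t → Sp g (f a) fun b s => P b (t + s)) : Sp g (m >>= f) P :=
  sp_bind.2 (h.mono k)

theorem sp_map {m : R α} {f : α → β} {P : β → ℕ → Prop} :
    Sp g (f <$> m) P ↔ Sp g m fun a t => P (f a) t := by
  change Sp g (m >>= fun a => pure (f a)) P ↔ _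
  simp only [sp_bind, sp_pure, add_zero]

@[simp] theorem sp_tick {P : Unit → ℕ → Prop} : Sp g tick P ↔ P () 1 := by simp [tick, Sp]
@[simp] theorem sp_nat {e : ℕ} {P : ℕ → ℕ → Prop} : Sp g (nat e) P ↔ e ≤ g.X ∧ P e 0 := Iff.rfl
@[simp] theorem sp_int {e : ℤ} {P : ℤ → ℕ → Prop} : Sp g (int e) P ↔ e.natAbs ≤ g.X ∧ P e 0 :=
  Iff.rfl
theorem sp_smp {n : ℕ} {G : List Bool → Prop} {P : List Bool → ℕ → Prop} :
    Sp g (smp n G) P ↔ bad n G ≤ g.d ∧ ∀ l, l.length = n → G l → P l (n + 1) := Iff.rfl
theorem sp_call {f : β → R α} {b : β} : Sp g (call f b) Q ↔ Sp g (f b) fun a s => Q a (1 + s) := by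
  simp [call, Sp]
theorem sp_ite {c : Prop} [Decidable c] {m m' : R α} :
    Sp g (if c then m else m') Q ↔ (c → Sp g m Q) ∧ (¬c → Sp g m' Q) := by
  split_ifs with h <;> simp [h]

/-- soundness along good samples -/
theorem Sp.run {m : R α} (h : Sp g m Q) {τ : List Bool} (hg : m.good τ) :
    Q (m.run τ).val (m.run τ).cost ∧ (m.run τ).pk ≤ g.X := by
  induction m generalizing Q τ with
  | ret a => exact ⟨h, Nat.zero_le _⟩
  | tk t p m ih => exact ⟨(ih h.2 hg).1, max_le h.1 (ih h.2 hg).2⟩
  | smp n G m ih => exact ih _ (h.2 _ (length_tkb n τ) hg.1) hg.2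

end rules

/-! ## loops (every turn costs one tick, the end costs one tick) -/

section loops

variable {α σ : Type}

/-- fold over a list -/
def foldL (f : α → σ → R σ) : List α → σ → R σ
  | [], s => .tk 1 0 (.ret s)
  | a :: l, s => .tk 1 0 (f a s >>= foldL f l)

/-- `f i` for `i = lo, …, lo + n - 1` -/
def forN (f : ℕ → σ → R σ) : ℕ → ℕ → σ → R σ
  | 0, _, s => .tk 1 0 (.ret s)
  | n + 1, i, s => .tk 1 0 (f i s >>= forN f n (i + 1))

/-- at most `n` turns while `c` holds -/
def whileF (c : σ → Bool) (f : σ → R σ) : ℕ → σ → R σ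
  | 0, s => .tk 1 0 (.ret s)
  | n + 1, s => .tk 1 0 (if c s then f s >>= whileF c f n else .ret s)

variable {g : Gl}

/-- invariant `I rest state elapsed` -/
theorem sp_foldL {f : α → σ → R σ} (I : List α → σ → ℕ → Prop)
    (h : ∀ a l s t, I (a :: l) s t → Sp g (f a s) fun s' u => I l s' (t + 1 + u))
    {l : List α} {s : σ} {t : ℕ} (h0 : I l s t) :
    Sp g (foldL f l s) fun s' u => ∃ u', u = u' + 1 ∧ I [] s' (t + u') := by
  induction l generalizing s t with
  | nil => exact ⟨Nat.zero_le _, 0, rfl, h0⟩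
  | cons a l ih =>
    refine ⟨Nat.zero_le _, (h a l s t h0).bind fun s' u k => (ih k).mono ?_⟩
    rintro s'' _ ⟨u', rfl, k'⟩
    exact ⟨1 + u + u', by omega, by convert k' using 1; omega⟩

/-- invariant `I index state elapsed` -/
theorem sp_forN {f : ℕ → σ → R σ} (I : ℕ → σ → ℕ → Prop) {n i : ℕ}
    (h : ∀ j s t, i ≤ j → j < i + n → I j s t → Sp g (f j s) fun s' u => I (j + 1) s' (t + 1 + u))
    {s : σ} {t : ℕ} (h0 : I i s t) :
    Sp g (forN f n i s) fun s' u => ∃ u', u = u' + 1 ∧ I (i + n) s' (t + u') := by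
  induction n generalizing i s t with
  | zero => exact ⟨Nat.zero_le _, 0, rfl, h0⟩
  | succ n ih =>
    refine ⟨Nat.zero_le _, (h i s t le_rfl (by omega) h0).bind fun s' u k =>
      (ih (fun j s t a b => h j s t (by omega) (by omega)) k).mono ?_⟩
    rintro s'' _ ⟨u', rfl, k'⟩
    exact ⟨1 + u + u', by omega, by convert k' using 1 <;> omega⟩

/-- invariant `I state elapsed`; `μ` bounds the number of remaining turns -/
theorem sp_whileF {c : σ → Bool} {f : σ → R σ} (I : σ → ℕ → Prop) (μ : σ → ℕ)
    (h : ∀ s t, I s t → c s = true → Sp g (f s) fun s' u => I s' (t + 1 + u) ∧ μ s' < μ s)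
    {n : ℕ} {s : σ} {t : ℕ} (h0 : I s t) (hn : μ s < n) :
    Sp g (whileF c f n s) fun s' u => c s' = false ∧ ∃ u', u = u' + 1 ∧ I s' (t + u') := by
  induction n generalizing s t with
  | zero => exact absurd hn (Nat.not_lt_zero _)
  | succ n ih =>
    refine ⟨Nat.zero_le _, ?_⟩
    by_cases e : c s = true
    · rw [if_pos e]
      refine (h s t h0 e).bind fun s' u k => (ih k.1 (by omega)).mono ?_
      rintro s'' _ ⟨a, u', rfl, k'⟩
      exact ⟨a, 1 + u + u', by omega, by convert k' using 1; omega⟩
    · rw [if_neg e]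
      exact ⟨Bool.eq_false_iff.2 e, 0, rfl, h0⟩

/-- a fold with uniform cost -/
theorem sp_foldL' {f : α → σ → R σ} (I : List α → σ → Prop) (c : α → ℕ)
    (h : ∀ a l s, I (a :: l) s → Sp g (f a s) fun s' u => I l s' ∧ u ≤ c a)
    {l : List α} {s : σ} (h0 : I l s) :
    Sp g (foldL f l s) fun s' u => I [] s' ∧ u ≤ (l.map fun a => c a + 1).sum + 1 :=
  (sp_foldL (fun l' s t => I l' s ∧ t + (l'.map fun a => c a + 1).sum ≤
      (l.map fun a => c a + 1).sum)
    (fun a l' s t k => (h a l' s k.1).mono fun s' u k' => ⟨k'.1, by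
      have := k.2; rw [List.map_cons, List.sum_cons] at this; omega⟩)
    (t := 0) ⟨h0, (zero_add _).le⟩).mono fun s' u ⟨u', e, k⟩ => ⟨k.1, by
      have := k.2; simp only [List.map_nil, List.sum_nil] at this; omega⟩

/-- a counted loop with uniform cost -/
theorem sp_forN' {f : ℕ → σ → R σ} (I : ℕ → σ → Prop) {n i : ℕ} (c : ℕ)
    (h : ∀ j s, i ≤ j → j < i + n → I j s → Sp g (f j s) fun s' u => I (j + 1) s' ∧ u ≤ c)
    {s : σ} (h0 : I i s) :
    Sp g (forN f n i s) fun s' u => I (i + n) s' ∧ u ≤ n * (c + 1) + 1 :=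
  (sp_forN (fun j s t => I j s ∧ t ≤ (j - i) * (c + 1))
    (fun j s t a b k => (h j s a b k.1).mono fun s' u k' => ⟨k'.1, by
      rw [show j + 1 - i = j - i + 1 by omega, add_mul]; omega⟩)
    (t := 0) ⟨h0, Nat.zero_le _⟩).mono fun s' u ⟨u', e, k⟩ => ⟨k.1, by
      have := k.2; rw [Nat.add_sub_cancel_left] at this; omega⟩

/-- a while loop with a potential: every turn costs at most the drop of `Φ` -/
theorem sp_whileF' {c : σ → Bool} {f : σ → R σ} (I : σ → Prop) (Φ : σ → ℕ)
    (h : ∀ s, I s → c s = true → Sp g (f s) fun s' u => I s' ∧ u + 1 + Φ s' ≤ Φ s)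
    {n : ℕ} {s : σ} (h0 : I s) (hn : Φ s < n) :
    Sp g (whileF c f n s) fun s' u => c s' = false ∧ I s' ∧ u + Φ s' ≤ Φ s + 1 :=
  (sp_whileF (fun s' t => I s' ∧ t + Φ s' ≤ Φ s) Φ
    (fun s' t k e => (h s' k.1 e).mono fun s'' u k' => ⟨⟨k'.1, by omega⟩, by omega⟩)
    (t := 0) ⟨h0, (zero_add _).le⟩ hn).mono fun s' u ⟨a, u', e, k⟩ => ⟨a, k.1, by omega⟩

end loops

end Crest.Agent.N325
private theorem rz_fd95b0b881 : type_of% @_root_.Crest.Agent.N325.R.bind.eq_def := @_root_.Crest.Agent.N325.R.bind.eq_def -- L40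
private theorem rz_d974ce9932 : type_of% @_root_.Crest.Agent.N325.R.bind.eq_1 := @_root_.Crest.Agent.N325.R.bind.eq_1 -- L40
private theorem rz_ab7307a28b : type_of% @_root_.Crest.Agent.N325.R.good.eq_def := @_root_.Crest.Agent.N325.R.good.eq_def -- L57
private theorem rz_85053751d4 : type_of% @_root_.Crest.Agent.N325.R.good.eq_1 := @_root_.Crest.Agent.N325.R.good.eq_1 -- L57
private theorem rz_1179ed4c98 : type_of% @_root_.Crest.Agent.N325.R.run.eq_def := @_root_.Crest.Agent.N325.R.run.eq_def -- L50
private theorem rz_371a6404b0 : type_of% @_root_.Crest.Agent.N325.R.run.eq_1 := @_root_.Crest.Agent.N325.R.run.eq_1 -- L50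
private theorem rz_c1bc51cf65 : type_of% @_root_.Crest.Agent.N325.Sp.eq_def := @_root_.Crest.Agent.N325.Sp.eq_def -- L120
private theorem rz_b286a7e601 : type_of% @_root_.Crest.Agent.N325.Sp.eq_1 := @_root_.Crest.Agent.N325.Sp.eq_1 -- L120
private theorem rz_4956cd2c62 : type_of% @_root_.Crest.Agent.N325.whileF.eq_def := @_root_.Crest.Agent.N325.whileF.eq_def -- L207
private theorem rz_3a4fc28a61 : type_of% @_root_.Crest.Agent.N325.whileF.eq_1 := @_root_.Crest.Agent.N325.whileF.eq_1 -- L207
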