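import Crest.Agent.N325.M0.Impl

-- ▼ part N325/M0/Rules
section

/-!
# N325 / M0: the core rules of `Pu` and `Impl` (helper68)
-/

set_option autoImplicit false

namespace Crest.Agent.N325

variable {α β γ δ ε : Type} [Rp α] [Rp β] [Rp γ] [Rp δ] [Rp ε] {σ : Bool}

/-! ### pure code -/

theorem Pu.of_eq {f g : α → β} (h : Pu σ f) (e : ∀ a, f a = g a) : Pu σ g := (funext e : f = g) ▸ h

theorem Pu.of_iff {p q : α → Prop} (h : Pu σ p) (e : ∀ a, p a ↔ q a) : Pu σ q :=
  h.of_eq fun a => propext (e a)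

/-- `Sel` implies `Ar` -/
@[fun_prop] theorem Pu.weak {f : α → β} (h : Pu true f) : Pu σ f := by
  obtain ⟨t, d, c, hd, h⟩ := h
  refine ⟨t, d, c, hd, fun P s B a v h1 h2 h3 h4 h5 h6 => ?_⟩
  obtain ⟨r, r1, r2, r3, r4⟩ := h P s B a v h1 h2 h3 h4 h5 h6
  exact ⟨r, r1, r2, fun _ => r3 rfl, r4⟩

theorem Pu.ar {f : α → β} (h : Pu σ f) : Pu false f := by
  cases σ
  · exact h
  · exact h.weak

/-- a primitive with constant growth -/
theorem Pu.prim {f : α → β} (t : Tm) (d c : ℕ)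
    (h : ∀ (P : Par) (s B : ℕ) (a : α) (v : V), 1 ≤ s → d * s ≤ P.w → rp P B a v → v.mx < 2 ^ s →
      ∃ r, rp P B (f a) r ∧ r.mx ≤ v.mx + c ∧ Ev (2 ^ P.w) t v r c) : Pu σ f := by
  refine ⟨t, d + c + 1, c, by omega, fun P s B a v h1 h2 h3 _ h5 h6 => ?_⟩
  rw [add_assoc, add_mul] at h3 ⊢
  obtain ⟨r, r1, r2, r3⟩ := h P s B a v (h1.trans h2) (by omega) h5 h6
  exact ⟨r, r1, lt_up (r2.trans_lt (lt_grow c (h1.trans h2) h6)) (by omega), fun _ => r2,
    r3.le (le_U _ _)⟩

/-- a map that keeps the representation -/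
theorem Pu.of_rp {f : α → β} (h : ∀ P B a v, rp P B a v → rp P B (f a) v) : Pu σ f :=
  Pu.prim .id 0 1 fun P _ B a v _ _ h1 _ => ⟨v, h P B a v h1, Nat.le_succ _, Ev.id v⟩

@[fun_prop] theorem Pu.id : Pu σ fun a : α => a := Pu.of_rp fun _ _ _ _ h => h

theorem Pu.fst' : Pu σ fun p : α × β => p.1 :=
  Pu.prim .fst 0 1 fun _ _ _ _ _ _ _ ⟨x, y, e, h1, _⟩ _ =>
    ⟨x, h1, by rw [e, V.mx_node]; omega, e ▸ Ev.fst x y⟩

theorem Pu.snd' : Pu σ fun p : α × β => p.2 :=
  Pu.prim .snd 0 1 fun _ _ _ _ _ _ _ ⟨x, y, e, _, h1⟩ _ =>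
    ⟨y, h1, by rw [e, V.mx_node]; omega, e ▸ Ev.snd x y⟩

@[fun_prop] theorem Pu.comp {g : β → γ} {f : α → β} (hg : Pu σ g) (hf : Pu σ f) :
    Pu σ fun a => g (f a) := by
  obtain ⟨t1, d1, c1, hd1, hf⟩ := hf
  obtain ⟨t2, d2, c2, hd2, hg⟩ := hg
  refine ⟨.comp t2 t1, d2 * d1, c1 + c2 + 1, Nat.mul_pos hd2 hd1,
    fun P s B a v h1 h2 h3 h4 h5 h6 => ?_⟩
  have e1 : s ≤ d1 * s := Nat.le_mul_of_pos_left _ hd1
  have e2 : d1 * s ≤ d2 * (d1 * s) := Nat.le_mul_of_pos_left _ hd2
  rw [mul_assoc] at h3 ⊢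
  have e3 := U_add3 P.w c1 c2 1
  obtain ⟨r, r1, r2, r3, r4⟩ := hf P s B a v h1 h2 (by omega) (by omega) h5 h6
  obtain ⟨q, q1, q2, q3, q4⟩ := hg P (d1 * s) B (f a) r h1 (by omega) h3 (by omega) r1 r2
  exact ⟨q, q1, q2, fun h => by have := r3 h; have := q3 h; omega, (r4.comp q4).le (by omega)⟩

@[fun_prop] theorem Pu.fst {f : α → β × γ} (hf : Pu σ f) : Pu σ fun a => (f a).1 := Pu.fst'.comp hf
@[fun_prop] theorem Pu.snd {f : α → β × γ} (hf : Pu σ f) : Pu σ fun a => (f a).2 := Pu.snd'.comp hf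

/-- a function of two arguments whose growth is measured in the first argument -/
def Pu1 (f : β → γ → δ) : Prop :=
  ∃ t d c, ∀ (P : Par) (s B : ℕ) (b : β) (e : γ) (x y : V), 1 ≤ P.m → P.m ≤ s → d * s ≤ P.w →
    U P.w c ≤ P.K → rp P B b x → rp P B e y → x.mx < 2 ^ s → y.mx < 2 ^ s →
    ∃ r, rp P B (f b e) r ∧ r.mx ≤ x.mx + c ∧ Ev (2 ^ P.w) t (.node x y) r (U P.w c)

@[fun_prop] theorem Pu.pair {f : α → β} {g : α → γ} (hf : Pu σ f) (hg : Pu σ g) :
    Pu σ fun a => (f a, g a) := by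
  obtain ⟨t1, d1, c1, hd1, hf⟩ := hf
  obtain ⟨t2, d2, c2, hd2, hg⟩ := hg
  refine ⟨.pair t1 t2, d1 + d2, c1 + c2 + 1, by omega, fun P s B a v h1 h2 h3 h4 h5 h6 => ?_⟩
  rw [add_mul] at h3 ⊢
  have e3 := U_add3 P.w c1 c2 1
  obtain ⟨r, r1, r2, r3, r4⟩ := hf P s B a v h1 h2 (by omega) (by omega) h5 h6
  obtain ⟨q, q1, q2, q3, q4⟩ := hg P s B a v h1 h2 (by omega) (by omega) h5 h6
  refine ⟨.node r q, ⟨r, q, rfl, r1, q1⟩, max_lt (lt_up r2 (by omega)) (lt_up q2 (by omega)),
    fun h => ?_, (r4.pair q4).le e3⟩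
  have := r3 h; have := q3 h; rw [V.mx_node]; omega

theorem Pu1.app {f : β → γ → δ} (h : Pu1 f) {u : α → β} {e : α → γ} (hu : Pu σ u)
    (he : Pu false e) : Pu σ fun a => f (u a) (e a) := by
  obtain ⟨t1, d1, c1, hd1, hu⟩ := hu
  obtain ⟨t2, d2, c2, hd2, he⟩ := he
  obtain ⟨t, d, c, h⟩ := h
  refine ⟨.comp t (.pair t1 t2), (d + c + 1) * (d1 + d2), c1 + c2 + 2 + c, Nat.mul_pos (by omega)
    (by omega), fun P s B a v h1 h2 h3 h4 h5 h6 => ?_⟩
  have e1 : s ≤ d1 * s := Nat.le_mul_of_pos_left _ hd1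
  rw [mul_assoc, add_assoc d, add_mul] at h3 ⊢
  have e2 : (d1 + d2) * s ≤ (c + 1) * ((d1 + d2) * s) := Nat.le_mul_of_pos_left _ (by omega)
  have e0 : (d1 + d2) * s = d1 * s + d2 * s := add_mul _ _ _
  have e3 := U_add3 P.w c1 c2 2
  have e4 := U_add P.w (c1 + c2 + 2) c
  obtain ⟨r, r1, r2, r3, r4⟩ := hu P s B a v h1 h2 (by omega) (by omega) h5 h6
  obtain ⟨q, q1, q2, -, q4⟩ := he P s B a v h1 h2 (by omega) (by omega) h5 h6
  have r2' : r.mx < 2 ^ ((d1 + d2) * s) := lt_up r2 (by omega)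
  obtain ⟨z, z1, z2, z3⟩ := h P ((d1 + d2) * s) B _ _ r q h1 (by omega) (by omega) (by omega) r1 q1
    r2' (lt_up q2 (by omega))
  exact ⟨z, z1, lt_up (z2.trans_lt (lt_grow c (by omega) r2')) (by omega),
    fun h => by have := r3 h; omega, ((r4.pair q4).comp z3).le (by omega)⟩

/-- an `Ar` function of two arguments whose result is bounded through the first argument -/
theorem Pu1.of_ar {f : β → γ → δ} (h : Pu false fun p : β × γ => f p.1 p.2) (k : ℕ)
    (hk : ∀ P B b e x r, rp P B b x → rp P B (f b e) r → r.mx ≤ x.mx + k) : Pu1 f := by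
  obtain ⟨t, d, c, -, h⟩ := h
  refine ⟨t, d, c + k, fun P s B b e x y h1 h2 h3 h4 h5 h6 h7 h8 => ?_⟩
  have := U_mono P.w (Nat.le_add_right c k)
  obtain ⟨r, r1, -, -, r4⟩ := h P s B (b, e) (.node x y) h1 h2 h3 (by omega)
    ⟨x, y, rfl, h5, h6⟩ (max_lt h7 h8)
  exact ⟨r, r1, (hk P B b e x r h5 r1).trans (by omega), r4.le this⟩

/-- an `Ar` function with small values is `Sel` -/
theorem Pu.small {f : α → β} (h : Pu false f) (k : ℕ)
    (hk : ∀ P B a r, rp P B (f a) r → r.mx ≤ k) : Pu σ f := by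
  obtain ⟨t, d, c, hd, h⟩ := h
  refine ⟨t, d, c + k, hd, fun P s B a v h1 h2 h3 h4 h5 h6 => ?_⟩
  have := U_mono P.w (Nat.le_add_right c k)
  obtain ⟨r, r1, r2, -, r4⟩ := h P s B a v h1 h2 h3 (by omega) h5 h6
  exact ⟨r, r1, r2, fun _ => (hk P B a r r1).trans (by omega), r4.le this⟩

@[fun_prop] theorem Pu.prop {p : α → Prop} (h : Pu false p) : Pu σ p :=
  h.small 1 fun _ _ a r e => by
    rw [show r = .leaf (open Classical in if p a then 1 else 0) from e, V.mx_leaf]
    split_ifs <;> omega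

@[fun_prop] theorem Pu.bool {p : α → Bool} (h : Pu false p) : Pu σ p :=
  h.small 1 fun _ _ a r e => by rw [show r = .leaf (p a).toNat from e]; exact Bool.toNat_le _

/-- types all of whose values are constants of the language -/
class Cst (β : Type) [Rp β] : Prop where
  ex : ∀ b : β, ∃ v, ∀ P B, rp P B b v

theorem Pu.const' {b : β} (v : V) (h : ∀ P B, rp P B b v) : Pu σ fun _ : α => b :=
  Pu.prim (.const v) 0 (v.mx + 1) fun P _ B _ x _ _ _ _ =>
    ⟨v, h P B, by omega, (Ev.const v x).le (by omega)⟩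

@[fun_prop] theorem Pu.const [Cst β] (b : β) : Pu σ fun _ : α => b :=
  (Cst.ex b).elim fun v h => Pu.const' v h

instance : Cst ℕ := ⟨fun _ => ⟨_, fun _ _ => rfl⟩⟩
instance : Cst Unit := ⟨fun _ => ⟨.leaf 0, fun _ _ => trivial⟩⟩
instance : Cst Prop := ⟨fun _ => ⟨_, fun _ _ => rfl⟩⟩
instance : Cst Bool := ⟨fun _ => ⟨_, fun _ _ => rfl⟩⟩
instance : Cst V := ⟨fun _ => ⟨_, fun _ _ => rfl⟩⟩
instance : Cst ℤ := ⟨fun _ => ⟨_, fun _ _ => rfl⟩⟩
instance [Cst α] [Cst β] : Cst (α × β) := ⟨fun p => by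
  obtain ⟨x, h1⟩ := Cst.ex p.1
  obtain ⟨y, h3⟩ := Cst.ex p.2
  exact ⟨.node x y, fun P B => ⟨x, y, rfl, h1 P B, h3 P B⟩⟩⟩
instance [Cst α] : Cst (List α) := ⟨fun l => by
  induction l with
  | nil => exact ⟨.leaf 0, fun _ _ => rp_nil.2 rfl⟩
  | cons a l ih =>
    obtain ⟨x, h1⟩ := Cst.ex a
    obtain ⟨y, h3⟩ := ih
    exact ⟨.node x y, fun P B => rp_cons.2 ⟨x, y, rfl, h1 P B, h3 P B⟩⟩⟩
theorem Cst.via {σ τ : Type} [Rp τ] [Cst τ] (e : σ → τ) : @Cst σ (Rp.via e) :=
  @Cst.mk σ (Rp.via e) fun b => Cst.ex (e b)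
instance [Cst α] : Cst (Option α) := Cst.via _
instance [Cst α] [Cst β] : Cst (α ⊕ β) := Cst.via _
instance [Cst α] {p : α → Prop} : Cst (Subtype p) := Cst.via _
instance {n : ℕ} : Cst (Fin n) := Cst.via _
instance {σ : Type} : Cst (Gh σ) := Cst.via _

@[fun_prop] theorem Pu.nil : Pu σ fun _ : α => ([] : List β) :=
  Pu.const' (.leaf 0) fun _ _ => rp_nil.2 rfl

theorem Pu.unit (f : α → Unit) : Pu σ f := Pu.of_rp fun _ _ _ _ _ => trivial

@[fun_prop] theorem Pu.gh {τ : Type} (f : α → τ) : Pu σ fun a => Gh.mk (f a) :=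
  Pu.of_rp fun _ _ _ _ _ => trivial

/-- the coding map of `Rp.via` -/
theorem Pu.via_out {ρ τ : Type} [Rp τ] (e : ρ → τ) : @Pu ρ τ (Rp.via e) _ σ e :=
  @Pu.of_rp ρ τ (Rp.via e) _ σ e fun _ _ _ _ h => h

/-- a map into a type with `Rp.via` -/
theorem Pu.via_in {ρ τ : Type} [Rp τ] (e : ρ → τ) {f : α → ρ} (h : Pu σ fun a => e (f a)) :
    @Pu α ρ _ (Rp.via e) σ f := h

@[fun_prop] theorem Pu.val {p : β → Prop} {f : α → Subtype p} (hf : Pu σ f) :
    Pu σ fun a => (f a).1 := hf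
@[fun_prop] theorem Pu.subtype_mk {p : β → Prop} {f : α → β} (hf : Pu σ f) (h : ∀ a, p (f a)) :
    Pu σ fun a => (⟨f a, h a⟩ : Subtype p) := hf
@[fun_prop] theorem Pu.fin_val {n : ℕ} {f : α → Fin n} (hf : Pu σ f) : Pu σ fun a => (f a).1 := hf
@[fun_prop] theorem Pu.fin_mk {n : ℕ} {f : α → ℕ} (hf : Pu σ f) (h : ∀ a, f a < n) :
    Pu σ fun a => (⟨f a, h a⟩ : Fin n) := hf

theorem ev_cond {W : ℕ} {p : Prop} {b x y : V} {s t : Tm} {n : ℕ}
    (hb : b = .leaf (open Classical in if p then 1 else 0)) (h1 : p → Ev W s x y n)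
    (h2 : ¬p → Ev W t x y n) : Ev W (.cond s t) (.node b x) y (n + 1) := by
  by_cases h : p
  · exact Ev.cond_ne (by rw [hb, if_pos h]; simp) (h1 h)
  · rw [hb, if_neg h]; exact Ev.cond_zero (h2 h)

/-- case distinction; the branches are only needed on their part of the domain -/
theorem Pu.by_cases {p : α → Prop} {f : α → β} (hp : Pu false p)
    (h1 : Pu σ fun a : {a // p a} => f a.1) (h2 : Pu σ fun a : {a // ¬p a} => f a.1) : Pu σ f := by
  obtain ⟨t0, d0, c0, hd0, hp⟩ := hp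
  obtain ⟨t1, d1, c1, hd1, h1⟩ := h1
  obtain ⟨t2, d2, c2, hd2, h2⟩ := h2
  refine ⟨.comp (.cond t1 t2) (.pair t0 .id), d0 + d1 + d2, c0 + (c1 + c2) + 4, by omega,
    fun P s B a v k1 k2 k3 k4 k5 k6 => ?_⟩
  rw [add_mul, add_mul] at k3 ⊢
  have e3 := U_add3 P.w c0 (c1 + c2) 4
  have e4 := U_add P.w c1 c2
  obtain ⟨r, r1, -, -, r3⟩ := hp P s B a v k1 k2 (by omega) (by omega) k5 k6
  by_cases h : p a
  · obtain ⟨q, q1, q2, q3, q4⟩ := h1 P s B ⟨a, h⟩ v k1 k2 (by omega) (by omega) k5 k6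
    exact ⟨q, q1, lt_up q2 (by omega), fun k => (q3 k).trans (by omega), ((r3.pair (Ev.id v)).comp
      (ev_cond r1 (fun _ => q4) fun k => absurd h k)).le (by omega)⟩
  · obtain ⟨q, q1, q2, q3, q4⟩ := h2 P s B ⟨a, h⟩ v k1 k2 (by omega) (by omega) k5 k6
    exact ⟨q, q1, lt_up q2 (by omega), fun k => (q3 k).trans (by omega), ((r3.pair (Ev.id v)).comp
      (ev_cond r1 (fun k => absurd k h) fun _ => q4)).le (by omega)⟩

@[fun_prop] theorem Pu.ite {p : α → Prop} [DecidablePred p] {f g : α → β} (hp : Pu false p)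
    (hf : Pu σ f) (hg : Pu σ g) : Pu σ fun a => if p a then f a else g a :=
  Pu.by_cases hp ((hf.comp Pu.id.val).of_eq fun a => by rw [if_pos a.2])
    ((hg.comp Pu.id.val).of_eq fun a => by rw [if_neg a.2])

@[fun_prop] theorem Pu.dite {p : α → Prop} [DecidablePred p] {f : ∀ a, p a → β}
    {g : ∀ a, ¬p a → β} (hp : Pu false p) (hf : Pu σ fun a : {a // p a} => f a.1 a.2)
    (hg : Pu σ fun a : {a // ¬p a} => g a.1 a.2) :
    Pu σ fun a => if h : p a then f a h else g a h :=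
  Pu.by_cases hp (hf.of_eq fun a => by rw [dif_pos a.2]) (hg.of_eq fun a => by rw [dif_neg a.2])

end Crest.Agent.N325
end

-- ▼ part N325/M0/RulesR
section

/-!
# N325 / M0: the rules of `Impl`, closures and recursion (helper68)
-/

set_option autoImplicit false

namespace Crest.Agent.N325

variable {α β γ δ ε : Type} [Rp α] [Rp β] [Rp γ] [Rp δ] [Rp ε] {σ : Bool}

theorem Impl.of_eq {f g : α → R β} (h : Impl f) (e : ∀ a, f a = g a) : Impl g :=
  (funext e : f = g) ▸ h

/-- weakening: same value and tape, more cost, more declared -/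
theorem Res.of_run {P : Par} {B M k k' : ℕ} {t : Tm} {v : V} {m m' : R β} {τ : List Bool}
    (h : Res P B M t v m τ k) (e1 : (m.run τ).val = (m'.run τ).val)
    (e2 : (m.run τ).tape = (m'.run τ).tape) (e3 : (m.run τ).cost ≤ (m'.run τ).cost)
    (e4 : (m.run τ).pk ≤ (m'.run τ).pk) (hk : k ≤ k') : Res P B M t v m' τ k' := by
  intro h1 h2 h3
  have := Nat.mul_le_mul_left P.K e3
  obtain ⟨r, r1, r2, r3⟩ := h (by omega) (by omega) (by omega)
  rw [e1] at r1
  rw [e2] at r3
  exact ⟨r, Rp.anti r1 (by omega), by omega, r3.le (by omega)⟩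

theorem Impl.of_run {f g : α → R β} (h : Impl f) (e : ∀ a τ, ((f a).run τ).val = ((g a).run τ).val ∧
    ((f a).run τ).tape = ((g a).run τ).tape ∧ ((f a).run τ).cost ≤ ((g a).run τ).cost ∧
    ((f a).run τ).pk ≤ ((g a).run τ).pk) : Impl g := by
  obtain ⟨t, d, c, h⟩ := h
  exact ⟨t, d, c, fun P B M a v τ h1 h2 h3 h4 h5 => (h P B M a v τ h1 h2 h3 h4 h5).of_run
    (e a τ).1 (e a τ).2.1 (e a τ).2.2.1 (e a τ).2.2.2 le_rfl⟩

/-- the general composition: straight-line code first; `hM` bounds its result -/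
theorem Impl.comp' {g : β → R γ} {f : α → β} (hg : Impl g) (hf : Pu σ f)
    (hM : σ = true ∨ ∀ P B a r τ, rp P B (f a) r → r.mx ≤ ((g (f a)).run τ).pk) :
    Impl fun a => g (f a) := by
  obtain ⟨t1, d1, c1, hd1, hf⟩ := hf
  obtain ⟨t2, d2, c2, hg⟩ := hg
  refine ⟨.comp t2 (.pair (.comp t1 .fst) .snd), d1 + d2, c1 + c2 + 5,
    fun P B M a v τ h1 h2 h3 h4 h5 k1 k2 k3 => ?_⟩
  rw [add_mul] at h2
  have e3 := U_add3 P.w c1 c2 5
  have e4 := le_U P.w c1
  obtain ⟨r, r1, -, r3, r4⟩ := hf P P.m B a v h1 le_rfl (by omega) (by omega) h4 (by omega)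
  have r3 : r.mx ≤ M + c1 := by
    rcases hM with h | h
    · exact (r3 h).trans (by omega)
    · exact (h P B a r τ r1).trans (k1.trans (by omega))
  dsimp only at k1 k2 k3 ⊢
  obtain ⟨q, q1, q2, q3⟩ := hg P B (M + c1) (f a) r τ h1 (by omega) (by omega) r1 r3 (by omega) k2
    (by omega)
  exact ⟨q, q1, by omega, ((((Ev.fst _ _).comp r4).pair (Ev.snd _ _)).comp q3).le (by omega)⟩

@[fun_prop] theorem Impl.comp {g : β → R γ} {f : α → β} (hg : Impl g) (hf : Pu true f) :
    Impl fun a => g (f a) := hg.comp' hf (.inl rfl)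

theorem Impl.ret' : Impl fun a : α => R.ret a :=
  ⟨.id, 0, 1, fun _ _ _ _ v _ _ _ _ h4 h5 _ _ _ =>
    ⟨v, h4, h5.trans (Nat.le_add_right _ _), (Ev.id _).le ((le_U _ _).trans (Nat.le_add_left _ _))⟩⟩

@[fun_prop] theorem Impl.ret {f : α → β} (h : Pu true f) : Impl fun a => R.ret (f a) :=
  Impl.ret'.comp h

@[fun_prop] theorem Impl.pure {f : α → β} (h : Pu true f) : Impl fun a => (pure (f a) : R β) :=
  Impl.ret h

@[fun_prop] theorem Impl.tk {k : α → R β} (t p : α → ℕ) (h : Impl k) :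
    Impl fun a => R.tk (t a) (p a) (k a) :=
  h.of_run fun _ _ => ⟨rfl, rfl, Nat.le_add_left _ _, le_max_right _ _⟩

@[fun_prop] theorem Impl.tick : Impl fun _ : α => tick :=
  Impl.tk (fun _ => 1) (fun _ => 0) (Impl.ret (Pu.unit _))

@[fun_prop] theorem Impl.nat {e : α → ℕ} (h : Pu false e) : Impl fun a => nat (e a) :=
  Impl.comp' (g := N325.nat) (Impl.tk (fun _ => 0) (fun a => a) Impl.ret') h
    (.inr fun _ _ a r _ k => by rw [show r = .leaf (e a) from k]; exact le_max_left _ _)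

@[fun_prop] theorem Impl.int {e : α → ℤ} (h : Pu false e) : Impl fun a => int (e a) :=
  Impl.comp' (g := N325.int) (Impl.tk (fun _ => 0) (fun a : ℤ => a.natAbs) Impl.ret') h
    (.inr fun _ _ a r _ k => by
      rw [show r = .node (.leaf (e a).toNat) (.leaf (-(e a)).toNat) from k]
      refine le_trans ?_ (le_max_left _ _)
      simp only [V.mx_node, V.mx_leaf]
      omega)

@[fun_prop] theorem Impl.bind {f : α → R β} {g : α → β → R γ} (hf : Impl f)
    (hg : Impl fun p : α × β => g p.1 p.2) : Impl fun a => f a >>= g a := by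
  obtain ⟨t1, d1, c1, hf⟩ := hf
  obtain ⟨t2, d2, c2, hg⟩ := hg
  refine ⟨.comp t2 (.comp (.pair (.pair .fst (.comp .fst .snd)) (.comp .snd .snd)) (.pair .fst t1)),
    d1 + d2, c1 + c2 + 13, fun P B M a v τ h1 h2 h3 h4 h5 => ?_⟩
  rw [add_mul] at h2
  have e3 := U_add3 P.w c1 c2 13
  have hf := hf P B M a v τ h1 (by omega) (by omega) h4 h5
  intro k1 k2 k3
  simp only [R.run_bind, mul_add, max_le_iff] at k1 k2 k3 ⊢
  obtain ⟨r, r1, r2, r3⟩ := hf k1.1 (by omega) (by omega)
  obtain ⟨q, q1, q2, q3⟩ := hg P (B - ((f a).run τ).cost) _ (a, ((f a).run τ).val) (.node v r)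
    ((f a).run τ).tape h1 (by omega) (by omega) ⟨v, r, rfl, Rp.anti h4 (Nat.sub_le _ _), r1⟩
    (max_le (h5.trans (Nat.le_add_right _ _)) r2) (k1.2.trans (Nat.le_add_right _ _))
    (by dsimp only; omega) (by dsimp only; omega)
  dsimp only at q1 q2 q3
  refine ⟨q, by rw [Nat.sub_add_eq]; exact q1, by omega, (((((Ev.fst _ _).pair r3)).comp
    (((Ev.fst _ _).pair ((Ev.snd _ _).comp (Ev.fst _ _))).pair
      ((Ev.snd _ _).comp (Ev.snd _ _)))).comp q3).le (by omega)⟩

@[fun_prop] theorem Impl.rbind {f : α → R β} {g : α → β → R γ} (hf : Impl f)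
    (hg : Impl fun p : α × β => g p.1 p.2) : Impl fun a => (f a).bind (g a) := Impl.bind hf hg

@[fun_prop] theorem Impl.map {f : α → R β} {g : α → β → γ} (hf : Impl f)
    (hg : Pu true fun p : α × β => g p.1 p.2) : Impl fun a => g a <$> f a :=
  Impl.bind hf (Impl.pure hg)

@[fun_prop] theorem Impl.seqRight {f : α → R β} {g : α → R γ} (hf : Impl f) (hg : Impl g) :
    Impl fun a => SeqRight.seqRight (f a) fun _ => g a :=
  Impl.bind (g := fun a _ => g a) hf (hg.comp Pu.fst')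

/-- case distinction; the branches are only needed on their part of the domain -/
theorem Impl.by_cases {p : α → Prop} {f : α → R β} (hp : Pu false p)
    (h1 : Impl fun a : {a // p a} => f a.1) (h2 : Impl fun a : {a // ¬p a} => f a.1) : Impl f := by
  obtain ⟨t0, d0, c0, hd0, hp⟩ := hp
  obtain ⟨t1, d1, c1, h1⟩ := h1
  obtain ⟨t2, d2, c2, h2⟩ := h2
  refine ⟨.comp (.cond t1 t2) (.pair (.comp t0 .fst) .id), d0 + d1 + d2, c0 + (c1 + c2) + 6,
    fun P B M a v τ k1 k2 k3 k4 k5 k6 k7 k8 => ?_⟩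
  rw [add_mul, add_mul] at k2
  have e3 := U_add3 P.w c0 (c1 + c2) 6
  have e4 := U_add P.w c1 c2
  obtain ⟨r, r1, -, -, r3⟩ := hp P P.m B a v k1 le_rfl (by omega) (by omega) k4 (by omega)
  by_cases h : p a
  · obtain ⟨q, q1, q2, q3⟩ := h1 P B M ⟨a, h⟩ v τ k1 (by omega) (by omega) k4 k5 k6 k7
      (by dsimp only; omega)
    dsimp only at q1 q2 q3
    exact ⟨q, q1, by omega, ((((Ev.fst _ _).comp r3).pair (Ev.id _)).comp
      (ev_cond r1 (fun _ => q3) fun k => absurd h k)).le (by omega)⟩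
  · obtain ⟨q, q1, q2, q3⟩ := h2 P B M ⟨a, h⟩ v τ k1 (by omega) (by omega) k4 k5 k6 k7
      (by dsimp only; omega)
    dsimp only at q1 q2 q3
    exact ⟨q, q1, by omega, ((((Ev.fst _ _).comp r3).pair (Ev.id _)).comp
      (ev_cond r1 (fun k => absurd k h) fun _ => q3)).le (by omega)⟩

@[fun_prop] theorem Impl.ite {p : α → Prop} [DecidablePred p] {f g : α → R β} (hp : Pu false p)
    (hf : Impl f) (hg : Impl g) : Impl fun a => if p a then f a else g a :=
  Impl.by_cases hp ((hf.comp Pu.id.val).of_eq fun a => by rw [if_pos a.2])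
    ((hg.comp Pu.id.val).of_eq fun a => by rw [if_neg a.2])

@[fun_prop] theorem Impl.dite {p : α → Prop} [DecidablePred p] {f : ∀ a, p a → R β}
    {g : ∀ a, ¬p a → R β} (hp : Pu false p) (hf : Impl fun a : {a // p a} => f a.1 a.2)
    (hg : Impl fun a : {a // ¬p a} => g a.1 a.2) :
    Impl fun a => if h : p a then f a h else g a h :=
  Impl.by_cases hp (hf.of_eq fun a => by rw [dif_pos a.2]) (hg.of_eq fun a => by rw [dif_neg a.2])

/-! ### closures -/

theorem Impl.call' : Impl fun p : (γ → R δ) × γ => call p.1 p.2 := by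
  refine ⟨.comp .app (.pair (.comp .fst (.comp .fst .fst)) .id), 0, 9,
    fun P B M ⟨g, c⟩ v τ _ _ _ ⟨u, x, e, ⟨t, e', e1, h⟩, hx⟩ h5 k1 k2 k3 => ?_⟩
  have k1 : max 0 ((g c).run τ).pk ≤ M := k1
  have k2 : 1 + ((g c).run τ).cost ≤ B := k2
  have k3 : M + (P.K * (1 + ((g c).run τ).cost) + U P.w 9) < 2 ^ P.m := k3
  show ∃ r, rp P (B - (1 + ((g c).run τ).cost)) ((g c).run τ).val r ∧
    r.mx ≤ M + (P.K * (1 + ((g c).run τ).cost) + U P.w 9) ∧ Ev _ _ _
      (.node r (tp ((g c).run τ).tape)) (P.K * (1 + ((g c).run τ).cost) + U P.w 9)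
  rw [mul_add, mul_one] at k3 ⊢
  rw [e, V.mx_node] at h5
  dsimp only at h hx
  obtain ⟨r, r1, r2, r3⟩ := h (B - 1) (by omega) M c x τ (Rp.anti hx (by omega)) (by omega)
    (by omega) (by omega) (by omega) (by omega)
  have := le_U P.w 9
  refine ⟨r, Rp.anti r1 (by omega), by omega, ?_⟩
  subst e e1
  exact ((((((Ev.fst _ _).comp (Ev.fst _ _)).comp (Ev.fst _ _))).pair (Ev.id _)).comp
    (Ev.app r3)).le (by omega)

@[fun_prop] theorem Impl.call {g : α → γ → R δ} {x : α → γ} (hg : Pu true g) (hx : Pu true x) :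
    Impl fun a => call (g a) (x a) := Impl.call'.comp (hg.pair hx)

/-- **recursion**: `g a` satisfies the equation `g a = F a (g a)`; `F` uses its argument through
`call` -/
theorem Pu.fix {g : α → γ → R δ} (F : α → (γ → R δ) → γ → R δ) (e : ∀ a c, g a c = F a (g a) c)
    (hF : Impl fun p : α × (γ → R δ) × γ => F p.1 p.2.1 p.2.2) : Pu σ g := by
  obtain ⟨t, d, c, hF⟩ := hF
  let t' : Tm := .comp t (.pair (.pair (.comp .snd (.comp .fst .fst)) .fst) .snd)
  refine ⟨.pair (.const t'.enc) .id, d + (t'.enc.mx + 1), c + 10 + t'.enc.mx, by omega,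
    fun P s B a v k1 k2 k3 k4 k5 k6 => ?_⟩
  have e0 := U_mono P.w (Nat.le_add_right (c + 10) t'.enc.mx)
  have e1 := U_add2 P.w c 10
  have e2 := Nat.mul_le_mul_left d k2
  have e3 : (V.node t'.enc v).mx ≤ v.mx + t'.enc.mx := by rw [V.mx_node]; omega
  rw [add_mul] at k3 ⊢
  refine ⟨.node t'.enc v, ?_, lt_up (e3.trans_lt (lt_grow _ (k1.trans k2) k6)) (by omega),
    fun _ => by omega, ((Ev.const _ _).pair (Ev.id v)).le (by omega)⟩
  induction B with
  | zero => exact ⟨t', v, rfl, fun _ h => absurd h (Nat.not_lt_zero _)⟩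
  | succ B ih =>
    have ih := ih (Rp.anti k5 (Nat.le_succ B))
    refine ⟨t', v, rfl, fun B' hB M x y τ h1 h2 h3 => ?_⟩
    rw [e]
    intro h4 h5 h6
    obtain ⟨r, r1, r2, r3⟩ := hF P B' M (a, g a, x) (.node v (.node (.node t'.enc v) y)) τ k1
      (by omega) (by omega) ⟨_, _, rfl, Rp.anti k5 (by omega), _, _, rfl, Rp.anti ih (by omega), h1⟩
      (by simp only [V.mx_node] at h2 ⊢; omega) h4 h5 (by dsimp only; omega)
    dsimp only at r1 r2 r3
    exact ⟨r, r1, by omega, (((((((Ev.fst _ _).comp (Ev.fst _ _)).comp (Ev.snd _ _)).pair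
      (Ev.fst _ _)).pair (Ev.snd _ _))).comp r3).le (by omega)⟩

/-- abstraction -/
theorem Pu.lam {g : α → γ → R δ} (h : Impl fun p : α × γ => g p.1 p.2) : Pu σ g :=
  Pu.fix (fun a _ c => g a c) (fun _ _ => rfl)
    (h.comp (f := fun p : α × (γ → R δ) × γ => (p.1, p.2.2)) (Pu.fst'.pair Pu.snd'.snd))

/-- recursion, as a program -/
theorem Impl.fix {g : α → γ → R δ} (F : α → (γ → R δ) → γ → R δ) (e : ∀ a c, g a c = F a (g a) c)
    (hF : Impl fun p : α × (γ → R δ) × γ => F p.1 p.2.1 p.2.2) :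
    Impl fun p : α × γ => g p.1 p.2 :=
  (hF.comp (f := fun p : α × γ => (p.1, g p.1, p.2))
    (Pu.fst'.pair (((Pu.fix F e hF).comp Pu.fst').pair Pu.snd'))).of_eq fun p => (e p.1 p.2).symm

/-- recursion without parameter -/
theorem Impl.fix0 {g : γ → R δ} (F : (γ → R δ) → γ → R δ) (e : ∀ c, g c = F g c)
    (hF : Impl fun p : (γ → R δ) × γ => F p.1 p.2) : Impl g :=
  (Impl.fix (α := Unit) (g := fun _ => g) (fun _ => F) (fun _ => e) (hF.comp Pu.snd')).comp
    (f := fun c => ((), c)) ((Pu.unit _).pair Pu.id)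

/-- a fixed program as a closure -/
theorem Pu.clo {g : γ → R δ} (h : Impl g) : Pu σ fun _ : α => g := Pu.lam (h.comp Pu.snd')

/-- a call of a known program -/
theorem Impl.call_known {τ : Type} {g : α → τ → R δ} {x : α → τ} (h : Impl fun a => g a (x a)) :
    Impl fun a => N325.call (g a) (x a) := Impl.tk (fun _ => 1) (fun _ => 0) h

end Crest.Agent.N325
end

-- ▼ part N325/M0/Data
section

/-!
# N325 / M0: numbers and logic are straight-line (helper68)
-/

set_option autoImplicit false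

namespace Crest.Agent.N325

variable {α β γ δ : Type} [Rp α] [Rp β] [Rp γ] [Rp δ] {σ : Bool}

/-! ### natural numbers -/

section nat
variable {f g : α → ℕ}

theorem Pu.op (o : BOp) (hf : Pu false f) (hg : Pu false g) : Pu false fun a => o.ap (f a) (g a) := by
  refine Pu.comp (g := fun p : ℕ × ℕ => o.ap p.1 p.2) ⟨.op o, 2, 1, one_le_two,
    fun P s B p v h1 h2 h3 _ ⟨x, y, e, hx, hy⟩ h6 => ?_⟩ (hf.pair hg)
  obtain rfl : x = .leaf p.1 := hx
  obtain rfl : y = .leaf p.2 := hy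
  subst e
  simp only [V.mx_node, V.mx_leaf, max_lt_iff] at h6
  have h2s : 2 ≤ 2 ^ s := Nat.le_self_pow (by omega) 2
  have : o.ap p.1 p.2 < 2 ^ (2 * s) := by
    rw [two_mul, pow_add]
    have := Nat.sub_le p.1 p.2
    have := Nat.div_le_self p.1 p.2
    have := Nat.mod_le p.1 p.2
    have := Nat.mul_lt_mul'' h6.1 h6.2
    cases o <;> simp only [BOp.ap] <;> nlinarith [h6.1, h6.2]
  exact ⟨_, rfl, this, fun h => by simp at h, (Ev.op o _ _ (lt_up this h3)).le (le_U _ _)⟩

/-- an `Ar` function of two numbers that is bounded through the first one -/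
theorem Pu.op1 (F : ℕ → β → ℕ) (k : ℕ) (hF : Pu false fun p : ℕ × β => F p.1 p.2)
    (hk : ∀ a b, F a b ≤ a + k) {e : α → β} (hf : Pu σ f) (he : Pu false e) :
    Pu σ fun a => F (f a) (e a) :=
  (Pu1.of_ar hF k fun _ _ b e x r h1 h2 => by
    rw [show x = .leaf b from h1, show r = .leaf (F b e) from h2]; exact hk b e).app hf he

/-- a number bounded by a `Sel` number is `Sel` -/
theorem Pu.clamp (hf : Pu false f) (hg : Pu σ g) (h : ∀ a, f a ≤ g a) : Pu σ f :=
  (Pu1.of_ar (f := fun (x : ℕ) (y : ℕ) => x - (x - y))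
    (Pu.op .sub Pu.fst' (Pu.op .sub Pu.fst' Pu.snd')) 0 fun _ _ b e x r h1 h2 => by
      rw [show x = .leaf b from h1, show r = .leaf (b - (b - e)) from h2]
      exact Nat.sub_le _ _).app hg hf |>.of_eq fun a => by have := h a; omega

@[fun_prop] theorem Pu.add (hf : Pu false f) (hg : Pu false g) : Pu false fun a => f a + g a :=
  Pu.op .add hf hg
@[fun_prop] theorem Pu.mul (hf : Pu false f) (hg : Pu false g) : Pu false fun a => f a * g a :=
  Pu.op .mul hf hg
@[fun_prop] theorem Pu.add_const (c : ℕ) (hf : Pu σ f) : Pu σ fun a => f a + c :=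
  Pu.op1 (fun x (_ : Unit) => x + c) c (Pu.fst'.add (Pu.const c)) (fun _ _ => le_rfl) hf
    (Pu.unit fun _ => ())
@[fun_prop] theorem Pu.const_add (c : ℕ) (hf : Pu σ f) : Pu σ fun a => c + f a :=
  (hf.add_const c).of_eq fun _ => add_comm _ _
@[fun_prop] theorem Pu.succ (hf : Pu σ f) : Pu σ fun a => Nat.succ (f a) := hf.add_const 1
@[fun_prop] theorem Pu.sub (hf : Pu σ f) (hg : Pu false g) : Pu σ fun a => f a - g a :=
  Pu.op1 (· - ·) 0 (Pu.op .sub Pu.fst' Pu.snd') Nat.sub_le hf hg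
@[fun_prop] theorem Pu.pred (hf : Pu σ f) : Pu σ fun a => Nat.pred (f a) := hf.sub (Pu.const 1)
@[fun_prop] theorem Pu.div (hf : Pu σ f) (hg : Pu false g) : Pu σ fun a => f a / g a :=
  Pu.op1 (· / ·) 0 (Pu.op .div Pu.fst' Pu.snd') Nat.div_le_self hf hg
@[fun_prop] theorem Pu.mod (hf : Pu σ f) (hg : Pu false g) : Pu σ fun a => f a % g a :=
  Pu.op1 (· % ·) 0 (Pu.op .mod Pu.fst' Pu.snd') Nat.mod_le hf hg
@[fun_prop] theorem Pu.mod_succ (hf : Pu false f) (hg : Pu σ g) : Pu σ fun a => f a % (g a + 1) :=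
  (hf.mod (hg.ar.add_const 1)).clamp hg fun _ => Nat.le_of_lt_succ (Nat.mod_lt _ (Nat.succ_pos _))
@[fun_prop] theorem Pu.min_r (hf : Pu false f) (hg : Pu σ g) : Pu σ fun a => min (f a) (g a) :=
  ((hg.ar.sub (hg.ar.sub hf)).of_eq fun _ => by omega).clamp hg fun _ => min_le_right _ _
@[fun_prop] theorem Pu.min_l (hf : Pu σ f) (hg : Pu false g) : Pu σ fun a => min (f a) (g a) :=
  (hg.min_r hf).of_eq fun _ => min_comm _ _
@[fun_prop] theorem Pu.pow_const (k : ℕ) (hf : Pu false f) : Pu false fun a => f a ^ k := by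
  induction k with
  | zero => exact (Pu.const 1).of_eq fun _ => (pow_zero _).symm
  | succ k ih => exact (ih.mul hf).of_eq fun _ => (pow_succ _ _).symm

theorem Pu.eq_zero (hf : Pu false f) : Pu false fun a => f a = 0 :=
  Pu.comp (g := fun n : ℕ => n = 0) (Pu.prim (.comp (.cond (.const (.leaf 0)) (.const (.leaf 1)))
    (.pair .id .id)) 0 6 fun _ _ _ n v _ _ h _ => by
      obtain rfl : v = .leaf n := h
      refine ⟨_, rfl, by rw [V.mx_leaf]; split_ifs <;> omega, ?_⟩
      by_cases e : n = 0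
      · rw [if_pos e, e]
        exact ((Ev.id _).pair (Ev.id _)).comp (Ev.cond_zero (Ev.const _ _))
      · rw [if_neg e]
        exact ((Ev.id _).pair (Ev.id _)).comp (Ev.cond_ne (by simpa using e) (Ev.const _ _))) hf

end nat

/-! ### logic -/

section logic
variable {p q : α → Prop} {b c : α → Bool} {f g : α → ℕ}

open Classical in
@[fun_prop] theorem Pu.not (hp : Pu false p) : Pu σ fun a => ¬p a :=
  (hp.ite (Pu.const False) (Pu.const True)).of_iff fun a => by split_ifs with h <;> simp [h]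
open Classical in
@[fun_prop] theorem Pu.and (hp : Pu false p) (hq : Pu false q) : Pu σ fun a => p a ∧ q a :=
  (hp.ite hq.prop (Pu.const False)).of_iff fun a => by split_ifs with h <;> simp [h]
open Classical in
@[fun_prop] theorem Pu.or (hp : Pu false p) (hq : Pu false q) : Pu σ fun a => p a ∨ q a :=
  (hp.ite (Pu.const True) hq.prop).of_iff fun a => by split_ifs with h <;> simp [h]
theorem Pu.imp (hp : Pu false p) (hq : Pu false q) : Pu σ fun a => p a → q a :=
  (hp.not.or hq).of_iff fun _ => imp_iff_not_or.symm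
@[fun_prop] theorem Pu.iff (hp : Pu false p) (hq : Pu false q) : Pu σ fun a => (p a ↔ q a) :=
  ((hp.imp hq).and (hq.imp hp)).of_iff fun _ => iff_iff_implies_and_implies.symm

@[fun_prop] theorem Pu.le (hf : Pu false f) (hg : Pu false g) : Pu σ fun a => f a ≤ g a :=
  (hf.sub hg).eq_zero.prop.of_iff fun _ => Nat.sub_eq_zero_iff_le
@[fun_prop] theorem Pu.lt (hf : Pu false f) (hg : Pu false g) : Pu σ fun a => f a < g a :=
  (hg.le hf).not.of_iff fun _ => not_le
theorem Pu.ge (hf : Pu false f) (hg : Pu false g) : Pu σ fun a => f a ≥ g a := hg.le hf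
theorem Pu.gt (hf : Pu false f) (hg : Pu false g) : Pu σ fun a => f a > g a := hg.lt hf
@[fun_prop] theorem Pu.max (hf : Pu σ f) (hg : Pu σ g) : Pu σ fun a => max (f a) (g a) :=
  ((hf.ar.le hg.ar).ite hg hf).of_eq fun _ => (max_def _ _).symm
@[fun_prop] theorem Pu.dvd (hf : Pu false f) (hg : Pu false g) : Pu σ fun a => f a ∣ g a :=
  (hg.mod hf).eq_zero.prop.of_iff fun _ => (Nat.dvd_iff_mod_eq_zero ..).symm

@[fun_prop] theorem Pu.decide [DecidablePred p] (hp : Pu false p) : Pu σ fun a => decide (p a) :=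
  ((open Classical in Pu.of_rp (σ := σ) (f := fun x : Prop => Decidable.decide x)
    fun _ _ x _ h => by
      by_cases e : x <;> simpa [e, rp] using h).comp hp.prop).of_eq fun _ => by simp
@[fun_prop] theorem Pu.eq_true (hb : Pu false b) : Pu σ fun a => b a = true :=
  (Pu.of_rp (σ := σ) (f := fun x : Bool => x = true) fun _ _ x _ h => by
    rw [show _ = V.leaf x.toNat from h]
    cases x <;> simp [rp]).comp hb.bool
@[fun_prop] theorem Pu.toNat (hb : Pu false b) : Pu σ fun a => (b a).toNat :=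
  (Pu.of_rp (σ := σ) (f := Bool.toNat) fun _ _ _ _ h => h).comp hb.bool
@[fun_prop] theorem Pu.bnot (hb : Pu false b) : Pu σ fun a => !b a :=
  hb.eq_true.not.decide.of_eq fun a => by cases b a <;> rfl
@[fun_prop] theorem Pu.band (hb : Pu false b) (hc : Pu false c) : Pu σ fun a => b a && c a :=
  (hb.eq_true.and hc.eq_true).decide.of_eq fun a => by cases b a <;> cases c a <;> rfl
@[fun_prop] theorem Pu.bor (hb : Pu false b) (hc : Pu false c) : Pu σ fun a => b a || c a :=
  (hb.eq_true.or hc.eq_true).decide.of_eq fun a => by cases b a <;> cases c a <;> rfl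
@[fun_prop] theorem Pu.bxor (hb : Pu false b) (hc : Pu false c) : Pu σ fun a => xor (b a) (c a) :=
  (hb.eq_true.iff hc.eq_true).not.decide.of_eq fun a => by cases b a <;> cases c a <;> rfl
@[fun_prop] theorem Pu.cond {x y : α → β} (hb : Pu false b) (hx : Pu σ x) (hy : Pu σ y) :
    Pu σ fun a => cond (b a) (x a) (y a) :=
  (hb.eq_true.ite hx hy).of_eq fun a => by cases b a <;> rfl
@[fun_prop] theorem Impl.cond {x y : α → R β} (hb : Pu false b) (hx : Impl x) (hy : Impl y) :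
    Impl fun a => cond (b a) (x a) (y a) :=
  (Impl.ite hb.eq_true hx hy).of_eq fun a => by cases b a <;> rfl
@[fun_prop] theorem Pu.bool_casesOn {x y : α → β} (hb : Pu false b) (hx : Pu σ x) (hy : Pu σ y) :
    Pu σ fun a => Bool.casesOn (motive := fun _ => β) (b a) (x a) (y a) :=
  (hb.cond hy hx).of_eq fun a => by cases b a <;> rfl
@[fun_prop] theorem Impl.bool_casesOn {x y : α → R β} (hb : Pu false b) (hx : Impl x)
    (hy : Impl y) : Impl fun a => Bool.casesOn (motive := fun _ => R β) (b a) (x a) (y a) :=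
  (Impl.cond hb hy hx).of_eq fun a => by cases b a <;> rfl
@[fun_prop] theorem Pu.nat_casesOn {x : α → β} {y : α → ℕ → β} (hf : Pu σ f) (hx : Pu σ x)
    (hy : Pu σ fun p : α × ℕ => y p.1 p.2) :
    Pu σ fun a => Nat.casesOn (motive := fun _ => β) (f a) (x a) (y a) :=
  (hf.ar.eq_zero.ite hx (hy.comp (Pu.id.pair (hf.sub (Pu.const 1))))).of_eq fun a => by
    cases f a <;> simp
@[fun_prop] theorem Impl.nat_casesOn {x : α → R β} {y : α → ℕ → R β} (hf : Pu true f) (hx : Impl x)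
    (hy : Impl fun p : α × ℕ => y p.1 p.2) :
    Impl fun a => Nat.casesOn (motive := fun _ => R β) (f a) (x a) (y a) :=
  (Impl.ite hf.ar.eq_zero hx (hy.comp (Pu.id.pair (hf.sub (Pu.const 1))))).of_eq fun a => by
    cases f a <;> simp

end logic

/-! ### integers -/

section int
variable {x y : α → ℤ} {f : α → ℕ}

theorem Pu.int_out : Pu σ fun z : ℤ => (z.toNat, (-z).toNat) :=
  Pu.of_rp fun _ _ _ _ h => ⟨_, _, h, rfl, rfl⟩
theorem Pu.int_in : Pu σ fun p : {p : ℕ × ℕ // p.1 = 0 ∨ p.2 = 0} => (p.1.1 : ℤ) - p.1.2 :=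
  Pu.of_rp fun _ _ p _ ⟨u, v, e, hu, hv⟩ => by
    rw [e, show u = .leaf p.1.1 from hu, show v = .leaf p.1.2 from hv]
    have := p.2
    show _ = V.node (.leaf _) (.leaf _)
    congr 2 <;> omega
@[fun_prop] theorem Pu.int_toNat (hx : Pu σ x) : Pu σ fun a => (x a).toNat :=
  (Pu.int_out.comp hx).fst
theorem Pu.int_neg_toNat (hx : Pu σ x) : Pu σ fun a => (-x a).toNat := (Pu.int_out.comp hx).snd
theorem Pu.int_sub_nat {g : α → ℕ} (hf : Pu σ f) (hg : Pu σ g) : Pu σ fun a => (f a : ℤ) - g a :=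
  (Pu.int_in.comp (((hf.sub hg.ar).pair (hg.sub hf.ar)).subtype_mk fun a => by
    dsimp only; omega)).of_eq fun a => by dsimp only; omega
@[fun_prop] theorem Pu.natCast (hf : Pu σ f) : Pu σ fun a => (f a : ℤ) :=
  (hf.int_sub_nat (Pu.const 0)).of_eq fun _ => by simp
@[fun_prop] theorem Pu.int_ofNat (hf : Pu σ f) : Pu σ fun a => Int.ofNat (f a) := hf.natCast
@[fun_prop] theorem Pu.int_neg (hx : Pu σ x) : Pu σ fun a => -x a :=
  (hx.int_neg_toNat.int_sub_nat hx.int_toNat).of_eq fun _ => by omega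
@[fun_prop] theorem Pu.natAbs (hx : Pu σ x) : Pu σ fun a => (x a).natAbs :=
  (hx.int_toNat.max hx.int_neg_toNat).of_eq fun _ => by omega
@[fun_prop] theorem Pu.abs (hx : Pu σ x) : Pu σ fun a => |x a| :=
  hx.natAbs.natCast.of_eq fun _ => Int.natCast_natAbs _
/-- an integer bounded by a `Sel` number is `Sel` -/
theorem Pu.clampZ (hx : Pu false x) (hf : Pu σ f) (h : ∀ a, (x a).natAbs ≤ f a) : Pu σ x :=
  ((hx.int_toNat.clamp hf fun a => by have := h a; omega).int_sub_nat
    (hx.int_neg_toNat.clamp hf fun a => by have := h a; omega)).of_eq fun _ => by omega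
@[fun_prop] theorem Pu.int_add (hx : Pu false x) (hy : Pu false y) : Pu false fun a => x a + y a :=
  ((hx.int_toNat.add hy.int_toNat).int_sub_nat (hx.int_neg_toNat.add hy.int_neg_toNat)).of_eq
    fun _ => by omega
@[fun_prop] theorem Pu.int_sub (hx : Pu false x) (hy : Pu false y) : Pu false fun a => x a - y a :=
  (hx.int_add hy.int_neg).of_eq fun _ => (sub_eq_add_neg _ _).symm
@[fun_prop] theorem Pu.int_add_const (c : ℤ) (hx : Pu σ x) : Pu σ fun a => x a + c :=
  (hx.ar.int_add (Pu.const c)).clampZ (hx.natAbs.add_const c.natAbs) fun _ => Int.natAbs_add_le _ _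
@[fun_prop] theorem Pu.int_const_add (c : ℤ) (hx : Pu σ x) : Pu σ fun a => c + x a :=
  (hx.int_add_const c).of_eq fun _ => add_comm _ _
@[fun_prop] theorem Pu.int_sub_const (c : ℤ) (hx : Pu σ x) : Pu σ fun a => x a - c :=
  (hx.int_add_const (-c)).of_eq fun _ => (sub_eq_add_neg _ _).symm
@[fun_prop] theorem Pu.int_const_sub (c : ℤ) (hx : Pu σ x) : Pu σ fun a => c - x a :=
  (hx.int_neg.int_const_add c).of_eq fun _ => (sub_eq_add_neg _ _).symm
@[fun_prop] theorem Pu.int_mul (hx : Pu false x) (hy : Pu false y) : Pu false fun a => x a * y a :=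
  (((hx.int_toNat.mul hy.int_toNat).add (hx.int_neg_toNat.mul hy.int_neg_toNat)).int_sub_nat
    ((hx.int_toNat.mul hy.int_neg_toNat).add (hx.int_neg_toNat.mul hy.int_toNat))).of_eq fun a => by
      have h1 := Int.toNat_sub_toNat_neg (x a)
      have h2 := Int.toNat_sub_toNat_neg (y a)
      push_cast
      conv_rhs => rw [← h1, ← h2]
      ring
@[fun_prop] theorem Pu.int_le (hx : Pu false x) (hy : Pu false y) : Pu σ fun a => x a ≤ y a :=
  (hx.int_sub hy).int_toNat.eq_zero.prop.of_iff fun _ => by omega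
@[fun_prop] theorem Pu.int_lt (hx : Pu false x) (hy : Pu false y) : Pu σ fun a => x a < y a :=
  (hy.int_le hx).not.of_iff fun _ => not_le
theorem Pu.int_ge (hx : Pu false x) (hy : Pu false y) : Pu σ fun a => x a ≥ y a :=
  hy.int_le hx
theorem Pu.int_gt (hx : Pu false x) (hy : Pu false y) : Pu σ fun a => x a > y a :=
  hy.int_lt hx
@[fun_prop] theorem Pu.int_max (hx : Pu σ x) (hy : Pu σ y) : Pu σ fun a => Max.max (x a) (y a) :=
  ((hx.ar.int_le hy.ar).ite hy hx).of_eq fun _ => (max_def _ _).symm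
@[fun_prop] theorem Pu.int_min (hx : Pu σ x) (hy : Pu σ y) : Pu σ fun a => Min.min (x a) (y a) :=
  ((hx.ar.int_le hy.ar).ite hx hy).of_eq fun _ => (min_def _ _).symm
@[fun_prop] theorem Pu.int_sign (hx : Pu false x) : Pu σ fun a => (x a).sign :=
  (((Pu.const 0).int_lt hx).ite (Pu.const (1 : ℤ))
    ((hx.int_lt (Pu.const 0)).ite (Pu.const (-1)) (Pu.const 0))).of_eq fun a => by
      rcases x a with (_ | n) | n <;> simp [Int.sign]
theorem Pu.int_div_nat (hx : Pu false x) (hf : Pu false f) : Pu false fun a => x a / (f a : ℤ) :=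
  (hf.eq_zero.ite (Pu.const (0 : ℤ)) (((Pu.const 0).int_le hx).ite (hx.int_toNat.div hf).natCast
    (((hx.int_neg_toNat.sub (Pu.const 1)).div hf).add_const 1).natCast.int_neg)).of_eq fun a => by
      rcases f a with _ | n
      · simp
      · rcases x a with k | k
        · simp
        · rw [if_neg (by omega), if_neg (by simp), Int.negSucc_ediv _ (by omega)]
          simp [Int.negSucc_eq, Int.ediv]
@[fun_prop] theorem Pu.int_div (hx : Pu σ x) (hy : Pu false y) : Pu σ fun a => x a / y a :=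
  ((((Pu.const 0).int_le hy).ite (hx.ar.int_div_nat hy.natAbs)
    (hx.ar.int_div_nat hy.natAbs).int_neg).of_eq fun a => by
      split_ifs with h
      · rw [Int.natAbs_of_nonneg h]
      · rw [← Int.ediv_neg]; congr 1; omega).clampZ hx.natAbs fun _ => Int.natAbs_ediv_le_natAbs _ _
@[fun_prop] theorem Pu.int_mod (hx : Pu false x) (hy : Pu false y) : Pu false fun a => x a % y a :=
  (hx.int_sub (hy.int_mul (hx.int_div hy))).of_eq fun _ => (Int.emod_def _ _).symm

/-- the clamp for integers -/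
def clampZ (e : ℤ) (b : ℕ) : ℤ := max (-(b : ℤ)) (min e b)

theorem clampZ_eq {e : ℤ} {b : ℕ} (h : e.natAbs ≤ b) : clampZ e b = e := by unfold clampZ; omega
theorem natAbs_clampZ (e : ℤ) (b : ℕ) : (clampZ e b).natAbs ≤ b := by unfold clampZ; omega

@[fun_prop] theorem Pu.clampZ' (hx : Pu false x) (hf : Pu σ f) :
    Pu σ fun a => N325.clampZ (x a) (f a) :=
  (hf.ar.natCast.int_neg.int_max (hx.int_min hf.ar.natCast)).clampZ hf fun _ => natAbs_clampZ _ _

end int

end Crest.Agent.N325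
end

-- ▼ part N325/M0/Data2

/-!
# N325 / M0: lists, options, sums, products, equality tests (helper68)
-/

set_option autoImplicit false

namespace Crest.Agent.N325

variable {α β γ δ : Type} [Rp α] [Rp β] [Rp γ] [Rp δ] {σ : Bool}

/-! ### lists -/

section list
variable {l : α → List β}

theorem Pu.cons' : Pu σ fun p : α × List α => p.1 :: p.2 :=
  Pu.of_rp fun _ _ _ _ h => rp_cons.2 h

theorem Pu.uncons : Pu σ fun l : {l : List α // l ≠ []} => (l.1.head l.2, l.1.tail) :=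
  Pu.of_rp fun _ _ ⟨l, hl⟩ _ h => by
    cases l with
    | nil => exact absurd rfl hl
    | cons a l => exact rp_cons.1 h

@[fun_prop] theorem Pu.cons {x : α → β} (hx : Pu σ x) (hl : Pu σ l) : Pu σ fun a => x a :: l a :=
  Pu.cons'.comp (hx.pair hl)

theorem Pu.eq_nil' : Pu σ fun l : List α => l = [] :=
  Pu.prim (.comp (.cond (.const (.leaf 0)) (.const (.leaf 1))) (.pair .id .id)) 0 6
    fun _ _ _ l v _ _ h _ => by
      refine ⟨_, rfl, by rw [V.mx_leaf]; split_ifs <;> omega, ?_⟩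
      cases l with
      | nil =>
        rw [if_pos rfl, rp_nil.1 h]
        exact ((Ev.id _).pair (Ev.id _)).comp (Ev.cond_zero (Ev.const _ _))
      | cons a l =>
        obtain ⟨x, y, rfl, -⟩ := rp_cons.1 h
        rw [if_neg (List.cons_ne_nil a l)]
        exact ((Ev.id _).pair (Ev.id _)).comp (Ev.cond_ne (by simp) (Ev.const _ _))

@[fun_prop] theorem Pu.eq_nil (hl : Pu false l) : Pu σ fun a => l a = [] :=
  (Pu.eq_nil'.comp hl).prop
@[fun_prop] theorem Pu.ne_nil (hl : Pu false l) : Pu σ fun a => l a ≠ [] := hl.eq_nil.not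
@[fun_prop] theorem Pu.isEmpty (hl : Pu false l) : Pu σ fun a => (l a).isEmpty :=
  (open Classical in hl.eq_nil.decide).of_eq fun a => by cases l a <;> simp

theorem Pu.split (hl : Pu σ l) :
    Pu σ fun a : {a // ¬l a = []} => (a.1, (l a.1).head a.2, (l a.1).tail) :=
  Pu.id.val.pair (Pu.uncons.comp ((hl.comp Pu.id.val).subtype_mk fun a => a.2))

@[fun_prop] theorem Pu.list_casesOn {n : α → γ} {c : α → β → List β → γ} (hl : Pu σ l)
    (hn : Pu σ n) (hc : Pu σ fun p : α × β × List β => c p.1 p.2.1 p.2.2) :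
    Pu σ fun a => List.casesOn (motive := fun _ => γ) (l a) (n a) (c a) :=
  Pu.by_cases hl.ar.eq_nil ((hn.comp Pu.id.val).of_eq fun a => by rw [a.2])
    ((hc.comp hl.split).of_eq fun ⟨a, h⟩ => by
      dsimp only
      generalize_proofs h1
      generalize l a = k at *
      cases k with
      | nil => exact absurd rfl h
      | cons => rfl)

@[fun_prop] theorem Impl.list_casesOn {n : α → R γ} {c : α → β → List β → R γ} (hl : Pu true l)
    (hn : Impl n) (hc : Impl fun p : α × β × List β => c p.1 p.2.1 p.2.2) :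
    Impl fun a => List.casesOn (motive := fun _ => R γ) (l a) (n a) (c a) :=
  Impl.by_cases hl.ar.eq_nil ((hn.comp Pu.id.val).of_eq fun a => by rw [a.2])
    ((hc.comp hl.split).of_eq fun ⟨a, h⟩ => by
      dsimp only
      generalize_proofs h1
      generalize l a = k at *
      cases k with
      | nil => exact absurd rfl h
      | cons => rfl)

@[fun_prop] theorem Pu.tail (hl : Pu σ l) : Pu σ fun a => (l a).tail :=
  (hl.list_casesOn Pu.nil (c := fun _ _ t => t) Pu.snd'.snd).of_eq fun a => by cases l a <;> rfl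
@[fun_prop] theorem Pu.headD {d : α → β} (hl : Pu σ l) (hd : Pu σ d) :
    Pu σ fun a => (l a).headD (d a) :=
  (hl.list_casesOn hd (c := fun _ h _ => h) Pu.snd'.fst).of_eq fun a => by cases l a <;> rfl
@[fun_prop] theorem Pu.headI [Inhabited β] [Cst β] (hl : Pu σ l) : Pu σ fun a => (l a).headI :=
  (hl.headD (Pu.const default)).of_eq fun a => by cases l a <;> rfl
@[fun_prop] theorem Pu.head! [Inhabited β] [Cst β] (hl : Pu σ l) : Pu σ fun a => (l a).head! :=
  (hl.headD (Pu.const default)).of_eq fun a => by cases l a <;> rfl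

end list

/-! ### options -/

section option
variable {o : α → Option β}

@[fun_prop] theorem Pu.toList (ho : Pu σ o) : Pu σ fun a => (o a).toList := ho
@[fun_prop] theorem Pu.none : Pu σ fun _ : α => (none : Option β) := Pu.nil
@[fun_prop] theorem Pu.some {x : α → β} (hx : Pu σ x) : Pu σ fun a => some (x a) := hx.cons Pu.nil

@[fun_prop] theorem Pu.option_casesOn {n : α → γ} {c : α → β → γ} (ho : Pu σ o) (hn : Pu σ n)
    (hc : Pu σ fun p : α × β => c p.1 p.2) :
    Pu σ fun a => Option.casesOn (motive := fun _ => γ) (o a) (n a) (c a) :=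
  (ho.toList.list_casesOn hn (c := fun a x _ => c a x)
    (hc.comp (Pu.fst'.pair Pu.snd'.fst))).of_eq fun a => by cases o a <;> rfl

@[fun_prop] theorem Impl.option_casesOn {n : α → R γ} {c : α → β → R γ} (ho : Pu true o)
    (hn : Impl n) (hc : Impl fun p : α × β => c p.1 p.2) :
    Impl fun a => Option.casesOn (motive := fun _ => R γ) (o a) (n a) (c a) :=
  (Impl.list_casesOn ho.toList hn (c := fun a x _ => c a x)
    (hc.comp (Pu.fst'.pair Pu.snd'.fst))).of_eq fun a => by cases o a <;> rfl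

@[fun_prop] theorem Pu.option_elim {n : α → γ} {c : α → β → γ} (ho : Pu σ o) (hn : Pu σ n)
    (hc : Pu σ fun p : α × β => c p.1 p.2) : Pu σ fun a => (o a).elim (n a) (c a) :=
  (ho.option_casesOn hn hc).of_eq fun a => by cases o a <;> rfl
@[fun_prop] theorem Impl.option_elim {n : α → R γ} {c : α → β → R γ} (ho : Pu true o)
    (hn : Impl n) (hc : Impl fun p : α × β => c p.1 p.2) : Impl fun a => (o a).elim (n a) (c a) :=
  (Impl.option_casesOn ho hn hc).of_eq fun a => by cases o a <;> rfl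
@[fun_prop] theorem Pu.getD {d : α → β} (ho : Pu σ o) (hd : Pu σ d) :
    Pu σ fun a => (o a).getD (d a) :=
  (ho.option_casesOn hd (c := fun _ x => x) Pu.snd').of_eq fun a => by cases o a <;> rfl
@[fun_prop] theorem Pu.option_map {c : α → β → γ} (ho : Pu σ o)
    (hc : Pu σ fun p : α × β => c p.1 p.2) : Pu σ fun a => (o a).map (c a) :=
  (ho.option_casesOn Pu.none hc.some).of_eq fun a => by cases o a <;> rfl
@[fun_prop] theorem Pu.option_bind {c : α → β → Option γ} (ho : Pu σ o)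
    (hc : Pu σ fun p : α × β => c p.1 p.2) : Pu σ fun a => (o a).bind (c a) :=
  (ho.option_casesOn Pu.none hc).of_eq fun a => by cases o a <;> rfl
@[fun_prop] theorem Pu.eq_none (ho : Pu false o) : Pu σ fun a => o a = Option.none :=
  ho.toList.eq_nil.of_iff fun a => by cases o a <;> simp
@[fun_prop] theorem Pu.ne_none (ho : Pu false o) : Pu σ fun a => o a ≠ Option.none := ho.eq_none.not
@[fun_prop] theorem Pu.isNone (ho : Pu false o) : Pu σ fun a => (o a).isNone :=
  ho.toList.isEmpty.of_eq fun a => by cases o a <;> rfl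
@[fun_prop] theorem Pu.isSome (ho : Pu false o) : Pu σ fun a => (o a).isSome :=
  ho.isNone.bnot.of_eq fun a => by cases o a <;> rfl
@[fun_prop] theorem Pu.head? {l : α → List β} (hl : Pu σ l) : Pu σ fun a => (l a).head? :=
  (hl.list_casesOn Pu.none (c := fun _ h _ => Option.some h) Pu.snd'.fst.some).of_eq fun a => by
    cases l a <;> rfl

end option

/-! ### sums and products -/

section sum
variable {x : α → β ⊕ γ}

@[fun_prop] theorem Pu.inl {y : α → β} (h : Pu σ y) : Pu σ fun a => (Sum.inl (y a) : β ⊕ γ) :=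
  h.some.pair (Pu.none (β := γ))
@[fun_prop] theorem Pu.inr {y : α → γ} (h : Pu σ y) : Pu σ fun a => (Sum.inr (y a) : β ⊕ γ) :=
  (Pu.none (β := β)).pair h.some
@[fun_prop] theorem Pu.getLeft? (h : Pu σ x) : Pu σ fun a => (x a).getLeft? :=
  Pu.fst (f := fun a => ((x a).getLeft?, (x a).getRight?)) h
@[fun_prop] theorem Pu.getRight? (h : Pu σ x) : Pu σ fun a => (x a).getRight? :=
  Pu.snd (f := fun a => ((x a).getLeft?, (x a).getRight?)) h

theorem Pu.right_of (h : Pu σ x) : Pu σ fun a : {a // (x a).getLeft? = Option.none} =>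
    (a.1, (x a.1).getRight (by have := a.2; cases e : x a.1 <;> simp_all)) :=
  Pu.id.val.pair ((Pu.uncons.comp (((h.comp Pu.id.val).getRight?.toList).subtype_mk
    fun a : {a // (x a).getLeft? = Option.none} => by
      have := a.2; cases e : x a.1 <;> simp_all)).fst.of_eq fun ⟨a, h⟩ => by
        dsimp only
        generalize_proofs h1 h2
        generalize x a = k at *
        cases k <;> simp_all)

theorem Pu.left_of (h : Pu σ x) : Pu σ fun a : {a // ¬(x a).getLeft? = Option.none} =>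
    (a.1, (x a.1).getLeft (by have := a.2; cases e : x a.1 <;> simp_all)) :=
  Pu.id.val.pair ((Pu.uncons.comp (((h.comp Pu.id.val).getLeft?.toList).subtype_mk
    fun a : {a // ¬(x a).getLeft? = Option.none} => by
      have := a.2; cases e : x a.1 <;> simp_all)).fst.of_eq fun ⟨a, h⟩ => by
        dsimp only
        generalize_proofs h1 h2
        generalize x a = k at *
        cases k <;> simp_all)

@[fun_prop] theorem Pu.sum_casesOn {f : α → β → δ} {g : α → γ → δ} (hx : Pu σ x)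
    (hf : Pu σ fun p : α × β => f p.1 p.2) (hg : Pu σ fun p : α × γ => g p.1 p.2) :
    Pu σ fun a => Sum.casesOn (motive := fun _ => δ) (x a) (f a) (g a) :=
  Pu.by_cases hx.ar.getLeft?.eq_none
    ((hg.comp hx.right_of).of_eq fun ⟨a, h⟩ => by
      dsimp only
      generalize_proofs h1
      generalize x a = k at *
      cases k <;> simp_all)
    ((hf.comp hx.left_of).of_eq fun ⟨a, h⟩ => by
      dsimp only
      generalize_proofs h1
      generalize x a = k at *
      cases k <;> simp_all)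

@[fun_prop] theorem Impl.sum_casesOn {f : α → β → R δ} {g : α → γ → R δ} (hx : Pu true x)
    (hf : Impl fun p : α × β => f p.1 p.2) (hg : Impl fun p : α × γ => g p.1 p.2) :
    Impl fun a => Sum.casesOn (motive := fun _ => R δ) (x a) (f a) (g a) :=
  Impl.by_cases hx.ar.getLeft?.eq_none
    ((hg.comp hx.right_of).of_eq fun ⟨a, h⟩ => by
      dsimp only
      generalize_proofs h1
      generalize x a = k at *
      cases k <;> simp_all)
    ((hf.comp hx.left_of).of_eq fun ⟨a, h⟩ => by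
      dsimp only
      generalize_proofs h1
      generalize x a = k at *
      cases k <;> simp_all)

theorem Pu.prod_casesOn {y : α → β × γ} {f : α → β → γ → δ} (hy : Pu σ y)
    (hf : Pu σ fun p : α × β × γ => f p.1 p.2.1 p.2.2) :
    Pu σ fun a => Prod.casesOn (motive := fun _ => δ) (y a) (f a) := hf.comp (Pu.id.pair hy)
theorem Impl.prod_casesOn {y : α → β × γ} {f : α → β → γ → R δ} (hy : Pu true y)
    (hf : Impl fun p : α × β × γ => f p.1 p.2.1 p.2.2) :
    Impl fun a => Prod.casesOn (motive := fun _ => R δ) (y a) (f a) := hf.comp (Pu.id.pair hy)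
@[fun_prop] theorem Pu.swap {y : α → β × γ} (hy : Pu σ y) : Pu σ fun a => (y a).swap :=
  hy.snd.pair hy.fst

end sum

/-! ### the same eliminators after unfolding `casesOn` -/

section recs

@[fun_prop] theorem Pu.list_rec {l : α → List β} {n : α → γ} {c : α → β → List β → γ} (hl : Pu σ l)
    (hn : Pu σ n) (hc : Pu σ fun p : α × β × List β => c p.1 p.2.1 p.2.2) :
    Pu σ fun a => List.rec (motive := fun _ => γ) (n a) (fun h t _ => c a h t) (l a) :=
  hl.list_casesOn hn hc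
@[fun_prop] theorem Impl.list_rec {l : α → List β} {n : α → R γ} {c : α → β → List β → R γ}
    (hl : Pu true l) (hn : Impl n) (hc : Impl fun p : α × β × List β => c p.1 p.2.1 p.2.2) :
    Impl fun a => List.rec (motive := fun _ => R γ) (n a) (fun h t _ => c a h t) (l a) :=
  Impl.list_casesOn hl hn hc
@[fun_prop] theorem Pu.option_rec {o : α → Option β} {n : α → γ} {c : α → β → γ} (ho : Pu σ o)
    (hn : Pu σ n) (hc : Pu σ fun p : α × β => c p.1 p.2) :
    Pu σ fun a => Option.rec (motive := fun _ => γ) (n a) (c a) (o a) := ho.option_casesOn hn hc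
@[fun_prop] theorem Impl.option_rec {o : α → Option β} {n : α → R γ} {c : α → β → R γ}
    (ho : Pu true o) (hn : Impl n) (hc : Impl fun p : α × β => c p.1 p.2) :
    Impl fun a => Option.rec (motive := fun _ => R γ) (n a) (c a) (o a) :=
  Impl.option_casesOn ho hn hc
@[fun_prop] theorem Pu.sum_rec {x : α → β ⊕ γ} {f : α → β → δ} {g : α → γ → δ} (hx : Pu σ x)
    (hf : Pu σ fun p : α × β => f p.1 p.2) (hg : Pu σ fun p : α × γ => g p.1 p.2) :
    Pu σ fun a => Sum.rec (motive := fun _ => δ) (f a) (g a) (x a) := hx.sum_casesOn hf hg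
@[fun_prop] theorem Impl.sum_rec {x : α → β ⊕ γ} {f : α → β → R δ} {g : α → γ → R δ}
    (hx : Pu true x) (hf : Impl fun p : α × β => f p.1 p.2) (hg : Impl fun p : α × γ => g p.1 p.2) :
    Impl fun a => Sum.rec (motive := fun _ => R δ) (f a) (g a) (x a) := Impl.sum_casesOn hx hf hg
@[fun_prop] theorem Pu.nat_rec {f : α → ℕ} {x : α → β} {y : α → ℕ → β} (hf : Pu σ f) (hx : Pu σ x)
    (hy : Pu σ fun p : α × ℕ => y p.1 p.2) :
    Pu σ fun a => Nat.rec (motive := fun _ => β) (x a) (fun k _ => y a k) (f a) :=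
  hf.nat_casesOn hx hy
@[fun_prop] theorem Impl.nat_rec {f : α → ℕ} {x : α → R β} {y : α → ℕ → R β} (hf : Pu true f)
    (hx : Impl x) (hy : Impl fun p : α × ℕ => y p.1 p.2) :
    Impl fun a => Nat.rec (motive := fun _ => R β) (x a) (fun k _ => y a k) (f a) :=
  Impl.nat_casesOn hf hx hy
@[fun_prop] theorem Pu.bool_rec {b : α → Bool} {x y : α → β} (hb : Pu false b) (hx : Pu σ x)
    (hy : Pu σ y) : Pu σ fun a => Bool.rec (motive := fun _ => β) (x a) (y a) (b a) :=
  hb.bool_casesOn hx hy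
@[fun_prop] theorem Impl.bool_rec {b : α → Bool} {x y : α → R β} (hb : Pu false b) (hx : Impl x)
    (hy : Impl y) : Impl fun a => Bool.rec (motive := fun _ => R β) (x a) (y a) (b a) :=
  Impl.bool_casesOn hb hx hy

end recs

/-! ### equality -/

/-- types with a straight-line equality test -/
class EqP (β : Type) [Rp β] : Prop where
  eq : Pu false fun p : β × β => p.1 = p.2

@[fun_prop] theorem Pu.eq [EqP β] {x y : α → β} (hx : Pu false x) (hy : Pu false y) :
    Pu σ fun a => x a = y a := (EqP.eq.comp (hx.pair hy)).prop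
@[fun_prop] theorem Pu.ne [EqP β] {x y : α → β} (hx : Pu false x) (hy : Pu false y) :
    Pu σ fun a => x a ≠ y a := (hx.eq hy).not
@[fun_prop] theorem Pu.beq [EqP β] [BEq β] [LawfulBEq β] {x y : α → β} (hx : Pu false x)
    (hy : Pu false y) : Pu σ fun a => x a == y a :=
  (open Classical in (hx.eq hy).decide).of_eq fun a => by
    by_cases h : x a = y a <;> simp [h]
@[fun_prop] theorem Pu.bne [EqP β] [BEq β] [LawfulBEq β] {x y : α → β} (hx : Pu false x)
    (hy : Pu false y) : Pu σ fun a => x a != y a := (hx.beq hy).bnot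

instance : EqP ℕ := ⟨((Pu.fst'.le Pu.snd').and (Pu.snd'.le Pu.fst')).of_iff
  fun _ => le_antisymm_iff.symm⟩
instance : EqP ℤ := ⟨((Pu.fst'.int_le Pu.snd').and (Pu.snd'.int_le Pu.fst')).of_iff
  fun _ => le_antisymm_iff.symm⟩
instance : EqP Bool := ⟨(Pu.fst'.eq_true.iff Pu.snd'.eq_true).of_iff fun _ => Bool.eq_iff_iff.symm⟩
instance : EqP Unit := ⟨(Pu.const True).of_iff fun _ => by simp⟩
instance [EqP α] [EqP β] : EqP (α × β) :=
  ⟨((Pu.fst'.fst.eq Pu.snd'.fst).and (Pu.fst'.snd.eq Pu.snd'.snd)).of_iff fun _ => Prod.ext_iff.symm⟩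
instance [EqP α] : EqP (Option α) :=
  ⟨(Pu.fst'.option_casesOn Pu.snd'.eq_none (c := fun p x => Option.casesOn (motive := fun _ => Prop)
    p.2 False fun y => x = y) (Pu.fst'.snd.option_casesOn (Pu.const False)
      (Pu.fst'.snd.eq Pu.snd'))).of_iff fun ⟨a, b⟩ => by cases a <;> cases b <;> simp⟩
theorem EqP.via {ρ τ : Type} [Rp τ] [EqP τ] (e : ρ → τ) (he : Function.Injective e) :
    @EqP ρ (Rp.via e) :=
  letI := Rp.via e
  ⟨(((Pu.via_out e).comp Pu.fst').eq ((Pu.via_out e).comp Pu.snd')).of_iff fun _ => he.eq_iff⟩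
instance [EqP α] {p : α → Prop} : EqP (Subtype p) := EqP.via _ Subtype.val_injective
instance {n : ℕ} : EqP (Fin n) := EqP.via _ Fin.val_injective
instance [EqP α] [EqP β] : EqP (α ⊕ β) := EqP.via _ fun a b h => by
  cases a <;> cases b <;> simp_all

end Crest.Agent.N325
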