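import Mathlib

/-!
# N325 / M0: the deep language

Point-free terms over binary trees with natural-number leaves, big-step semantics with a step
count.  Code is data (`Tm.enc`), so a closure is `node (enc body) env`-like data and `app` runs it.
-/

set_option autoImplicit false

namespace Crest.Agent.N325

/-- values: binary trees with natural-number leaves -/
inductive V : Type
  | leaf (n : ℕ)
  | node (a b : V)

instance : Inhabited V := ⟨V.leaf 0⟩

/-- binary arithmetic on leaves -/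
inductive BOp : Type
  | add | sub | mul | div | mod

/-- the function of an operation -/
def BOp.ap : BOp → ℕ → ℕ → ℕ
  | .add, a, b => a + b
  | .sub, a, b => a - b
  | .mul, a, b => a * b
  | .div, a, b => a / b
  | .mod, a, b => a % b

/-- the tag of an operation -/
def BOp.tag : BOp → ℕ
  | .add => 8
  | .sub => 9
  | .mul => 10
  | .div => 11
  | .mod => 12

/-- terms -/
inductive Tm : Type
  | id
  | fst
  | snd
  | const (v : V)
  | pair (s t : Tm)
  | comp (s t : Tm)
  | cond (s t : Tm)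
  | app
  | op (o : BOp)

/-- code as data -/
def Tm.enc : Tm → V
  | .id => .node (.leaf 0) (.leaf 0)
  | .fst => .node (.leaf 1) (.leaf 0)
  | .snd => .node (.leaf 2) (.leaf 0)
  | .const v => .node (.leaf 3) v
  | .pair s t => .node (.leaf 4) (.node s.enc t.enc)
  | .comp s t => .node (.leaf 5) (.node s.enc t.enc)
  | .cond s t => .node (.leaf 6) (.node s.enc t.enc)
  | .app => .node (.leaf 7) (.leaf 0)
  | .op o => .node (.leaf o.tag) (.leaf 0)

/-- `Eval W t x y n`: the term `t` maps `x` to `y` in `n` steps, all arithmetic results below `W`.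
`comp s t` is `s ∘ t`; `cond s t` on `node b x` runs `t` on `x` if `b = leaf 0` and `s` on `x`
otherwise; `app` on `node (enc t) x` runs `t` on `x`. -/
inductive Eval (W : ℕ) : Tm → V → V → ℕ → Prop
  | id (x : V) : Eval W .id x x 1
  | fst (a b : V) : Eval W .fst (.node a b) a 1
  | snd (a b : V) : Eval W .snd (.node a b) b 1
  | const (v x : V) : Eval W (.const v) x v 1
  | pair {s t : Tm} {x y z : V} {m n : ℕ} : Eval W s x y m → Eval W t x z n →
      Eval W (.pair s t) x (.node y z) (m + n + 1)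
  | comp {s t : Tm} {x y z : V} {m n : ℕ} : Eval W t x y m → Eval W s y z n →
      Eval W (.comp s t) x z (m + n + 1)
  | cond_zero {s t : Tm} {x y : V} {n : ℕ} : Eval W t x y n →
      Eval W (.cond s t) (.node (.leaf 0) x) y (n + 1)
  | cond_ne {s t : Tm} {b x y : V} {n : ℕ} : b ≠ .leaf 0 → Eval W s x y n →
      Eval W (.cond s t) (.node b x) y (n + 1)
  | app {t : Tm} {x y : V} {n : ℕ} : Eval W t x y n → Eval W .app (.node t.enc x) y (n + 1)
  | op (o : BOp) (a b : ℕ) : o.ap a b < W →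
      Eval W (.op o) (.node (.leaf a) (.leaf b)) (.leaf (o.ap a b)) 1

theorem Eval.mono {W W' : ℕ} {t : Tm} {x y : V} {n : ℕ} (h : Eval W t x y n) (hW : W ≤ W') :
    Eval W' t x y n := by
  induction h with
  | id x => exact .id x
  | fst a b => exact .fst a b
  | snd a b => exact .snd a b
  | const v x => exact .const v x
  | pair _ _ ih1 ih2 => exact .pair ih1 ih2
  | comp _ _ ih1 ih2 => exact .comp ih1 ih2
  | cond_zero _ ih => exact .cond_zero ih
  | cond_ne hb _ ih => exact .cond_ne hb ih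
  | app _ ih => exact .app ih
  | op o a b h => exact .op o a b (h.trans_le hW)

theorem Eval.pos {W : ℕ} {t : Tm} {x y : V} {n : ℕ} (h : Eval W t x y n) : 0 < n := by
  cases h <;> omega

/-- `Ev W t x y n`: evaluation in at most `n` steps -/
def Ev (W : ℕ) (t : Tm) (x y : V) (n : ℕ) : Prop := ∃ k ≤ n, Eval W t x y k

theorem Ev.mono {W W' : ℕ} {t : Tm} {x y : V} {n n' : ℕ} (h : Ev W t x y n) (hW : W ≤ W')
    (hn : n ≤ n') : Ev W' t x y n' := by
  obtain ⟨k, hk, h⟩ := h
  exact ⟨k, hk.trans hn, h.mono hW⟩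

theorem Ev.le {W : ℕ} {t : Tm} {x y : V} {n n' : ℕ} (h : Ev W t x y n) (hn : n ≤ n') :
    Ev W t x y n' := h.mono le_rfl hn

theorem Ev.id {W : ℕ} (x : V) : Ev W .id x x 1 := ⟨1, le_rfl, .id x⟩
theorem Ev.fst {W : ℕ} (a b : V) : Ev W .fst (.node a b) a 1 := ⟨1, le_rfl, .fst a b⟩
theorem Ev.snd {W : ℕ} (a b : V) : Ev W .snd (.node a b) b 1 := ⟨1, le_rfl, .snd a b⟩
theorem Ev.const {W : ℕ} (v x : V) : Ev W (.const v) x v 1 := ⟨1, le_rfl, .const v x⟩

theorem Ev.pair {W : ℕ} {s t : Tm} {x y z : V} {m n : ℕ} (h1 : Ev W s x y m) (h2 : Ev W t x z n) :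
    Ev W (.pair s t) x (.node y z) (m + n + 1) := by
  obtain ⟨k, hk, h1⟩ := h1
  obtain ⟨l, hl, h2⟩ := h2
  exact ⟨_, by omega, .pair h1 h2⟩

theorem Ev.comp {W : ℕ} {s t : Tm} {x y z : V} {m n : ℕ} (h1 : Ev W t x y m) (h2 : Ev W s y z n) :
    Ev W (.comp s t) x z (m + n + 1) := by
  obtain ⟨k, hk, h1⟩ := h1
  obtain ⟨l, hl, h2⟩ := h2
  exact ⟨_, by omega, .comp h1 h2⟩

theorem Ev.cond_zero {W : ℕ} {s t : Tm} {x y : V} {n : ℕ} (h : Ev W t x y n) :
    Ev W (.cond s t) (.node (.leaf 0) x) y (n + 1) := by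
  obtain ⟨k, hk, h⟩ := h
  exact ⟨_, by omega, .cond_zero h⟩

theorem Ev.cond_ne {W : ℕ} {s t : Tm} {b x y : V} {n : ℕ} (hb : b ≠ .leaf 0) (h : Ev W s x y n) :
    Ev W (.cond s t) (.node b x) y (n + 1) := by
  obtain ⟨k, hk, h⟩ := h
  exact ⟨_, by omega, .cond_ne hb h⟩

theorem Ev.app {W : ℕ} {t : Tm} {x y : V} {n : ℕ} (h : Ev W t x y n) :
    Ev W .app (.node t.enc x) y (n + 1) := by
  obtain ⟨k, hk, h⟩ := h
  exact ⟨_, by omega, .app h⟩

theorem Ev.op {W : ℕ} (o : BOp) (a b : ℕ) (h : o.ap a b < W) :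
    Ev W (.op o) (.node (.leaf a) (.leaf b)) (.leaf (o.ap a b)) 1 := ⟨1, le_rfl, .op o a b h⟩

/-- a list of values: `nil = leaf 0`, `cons = node` -/
def V.ofList : List V → V
  | [] => .leaf 0
  | a :: l => .node a (V.ofList l)

/-- a list of numbers -/
def V.nats (l : List ℕ) : V := V.ofList (l.map V.leaf)

@[simp] theorem V.ofList_nil : V.ofList [] = .leaf 0 := rfl
@[simp] theorem V.ofList_cons (a : V) (l : List V) : V.ofList (a :: l) = .node a (V.ofList l) := rfl
@[simp] theorem V.nats_nil : V.nats [] = .leaf 0 := rfl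
@[simp] theorem V.nats_cons (a : ℕ) (l : List ℕ) : V.nats (a :: l) = .node (.leaf a) (V.nats l) := rfl

/-- the first `F` random bits, as numbers `0`/`1`, of the stream `ρ` -/
def tapeBits (ρ : ℕ → ℕ) (F : ℕ) : List ℕ := (List.range F).map fun i => ρ i % 2

end Crest.Agent.N325
private theorem rz_e941ebb1f1 : type_of% @_root_.Crest.Agent.N325.BOp.ap.eq_1 := @_root_.Crest.Agent.N325.BOp.ap.eq_1 -- L26
private theorem rz_76c2eddc1e : type_of% @_root_.Crest.Agent.N325.BOp.tag.eq_1 := @_root_.Crest.Agent.N325.BOp.tag.eq_1 -- L34
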