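import Crest.Agent.N325.M0.Top0
import Crest.Agent.N325.M0.Prob
import Crest.Agent.R309.RAMProb
import Crest.Agent.R309.RAMCmd
import Crest.Agent.N325.M0.Lang
import Crest.Agent.N325.M0.Data2
import Crest.Agent.N325.M0.Std0

-- ▼ part N325/M0/Top1
section

/-!
# N325 / M0 (helper34): from implementable programs to the statement on the word RAM
-/

set_option autoImplicit false

namespace Crest.Agent.N325

open Crest.GraphRAM Crest.WordRAM

/-- the machine theorem for the deep language -/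
def MachineThm : Prop := ∀ e fu : Tm, ∃ (P : Program) (c : ℕ), ∀ (w : ℕ) (inp : List ℕ) (F n0 : ℕ),
  Ev (2 ^ w) fu (V.nats inp) (.leaf F) n0 → c * (inp.length + n0 + F + 1) < 2 ^ w →
  (∀ a ∈ inp, a < 2 ^ w) → ∀ ρ : ℕ → ℕ,
    (WordRAM.run P w ρ inp (c * (inp.length + n0 + F + 1))).halted = true ∧
    ∀ out, Ev (2 ^ w) e (.node (V.nats inp) (V.nats (tapeBits ρ F))) (V.nats out) F →
      out.length ≤ F → (WordRAM.run P w ρ inp (c * (inp.length + n0 + F + 1))).output = out

/-- the statement of the row -/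
def Goal : Prop :=
  ∃ (P : Crest.WordRAM.Program) (c₀ C : ℕ) (η : ℕ → ℝ), Antitone η ∧
    Filter.Tendsto η Filter.atTop (nhds 0) ∧
    ∀ (n : ℕ) (G : SimpleGraph (Fin n)) (adj : Fin n → List (Fin n)), 1 ≤ n →
      (∀ v, (adj v).Nodup ∧ ∀ u, u ∈ adj v ↔ G.Adj v u) →
      (∀ ρ : ℕ → ℕ, (Crest.WordRAM.run P (c₀ * Nat.clog 2 (n + 2)) ρ (adjInput n adj)
          ⌈(C : ℝ) * ((n + (∑ v, (adj v).length) / 2 : ℕ) : ℝ) ^
            (1 + η (n + (∑ v, (adj v).length) / 2))⌉₊).halted = true) ∧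
      2 / 3 ≤ Crest.WordRAM.probAfter P (c₀ * Nat.clog 2 (n + 2)) (adjInput n adj)
          ⌈(C : ℝ) * ((n + (∑ v, (adj v).length) / 2 : ℕ) : ℝ) ^
            (1 + η (n + (∑ v, (adj v).length) / 2))⌉₊
          (fun c => IsMaxMatchingOutput G c.output)

/-- an implementable program run with words of `O(L)` bits -/
theorem Impl.exec {β : Type} [Rp β] {f : List ℕ → R β} (h : Impl f) (k : ℕ) :
    ∃ (t : Tm) (a c : ℕ), ∀ (L : ℕ) (inp : List ℕ) (τ : List Bool) (M T : ℕ), 1 ≤ L →
      M < 2 ^ (k * L) → T < 2 ^ (k * L) → (∀ x ∈ inp, x ≤ M) → ((f inp).run τ).pk ≤ M →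
      ((f inp).run τ).cost ≤ T → ∃ P B r, rp P B ((f inp).run τ).val r ∧
        Ev (2 ^ (a * L)) t (.node (V.nats inp) (tp τ)) r ((T + 1) * U (a * L) c + 2) := by
  obtain ⟨t, d, c, h⟩ := h
  obtain ⟨a, ha, hb⟩ := exists_bits d c k
  refine ⟨.comp .fst t, d * a, c, fun L inp τ M T hL hM hT hi hp hc => ?_⟩
  obtain ⟨r, r1, _, r3⟩ := h ⟨U (d * (a * L)) c, a * L, d * (a * L)⟩ _ M inp (V.nats inp) τ
    (Nat.mul_pos ha hL) le_rfl le_rfl (rp_nats.2 rfl) (mx_nats.2 hi) hp le_rfl
    (hb L M _ hL hM (hc.trans_lt hT))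
  refine ⟨_, _, r, r1, ?_⟩
  rw [mul_assoc]
  refine (r3.comp (Ev.fst _ _)).le ?_
  dsimp only
  nlinarith [Nat.mul_le_mul_left (U (d * (a * L)) c) hc]

theorem pow_lt_of_le {x N k k' : ℕ} (h : x < (N + 2) ^ k) (hk : k ≤ k') : x < (N + 2) ^ k' :=
  h.trans_le (Nat.pow_le_pow_right (by omega) hk)

/-- **the wrapper**, modulo the machine theorem and the implementation of the fuel program -/
theorem goal_of_aux (hM : MachineThm) (alg : List ℕ → R (List ℕ)) (fu : List ℕ → R ℕ)
    (Fu Fu' : ℕ → ℕ) (c : ℕ) (ha : Impl alg) (hf : ∀ a b, Impl (fuel fu a b)) (hF : AL Fu')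
    (h : ∀ (n : ℕ) (G : SimpleGraph (Fin n)) (adj : Fin n → List (Fin n)), 1 ≤ n →
      (∀ v, (adj v).Nodup ∧ ∀ u, u ∈ adj v ↔ G.Adj v u) →
      (Sp ⟨(sizeN n adj + 2) ^ c, -1⟩ (fu (adjInput n adj)) fun F t =>
        Fu (sizeN n adj) ≤ F ∧ F ≤ Fu' (sizeN n adj) ∧ t ≤ Fu' (sizeN n adj)) ∧
      Sp ⟨(sizeN n adj + 2) ^ c, 1 / (3 * ((Fu (sizeN n adj) : ℝ) + 1))⟩ (alg (adjInput n adj))
        fun out t => IsMaxMatchingOutput G out ∧ t ≤ Fu (sizeN n adj)) : Goal := by
  obtain ⟨k1, hk1⟩ := hF.lt_pow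
  obtain ⟨te, ae, ce, he⟩ := ha.exec (2 * (c + k1 + 3))
  have hV := hF.fuelV ae ce
  have hC : AL fun N => Fu' N + (N + 3) := hF.add (AL.id.add (AL.const 3))
  obtain ⟨k2, hk2⟩ := (hV.add hC).lt_pow
  obtain ⟨tf, af, cf, hfu⟩ := (hf ae ce).exec (2 * (c + k2 + 3))
  obtain ⟨P, cm, hP⟩ := hM te (.comp tf (.pair .id (.const (.leaf 0))))
  let n0 : ℕ → ℕ := fun N => (Fu' N + (N + 3) + 1) * U (af * Nat.clog 2 (N + 2)) cf + 6
  have hn0 : AL n0 :=
    ((hC.add (AL.const 1)).mul (((SubP.const af).mul SubP.clog).U cf)).add (AL.const 6)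
  have hT : AL fun N => (cm + 1) * (2 * N + 3 + n0 N + fuelV ae ce (Fu' N) N + 1) :=
    AL.mul_left (SubP.const _) (((((AL.mul_left (SubP.const 2) AL.id).add (AL.const 3)).add
      hn0).add hV).add (AL.const 1))
  obtain ⟨k3, hk3⟩ := hT.lt_pow
  obtain ⟨C, η, η1, η2, η3⟩ := hT.exists_eta
  refine ⟨P, ae + af + 2 * k3 + 1, C, η, η1, η2, fun n G adj hn hadj => ?_⟩
  obtain ⟨s1, s2⟩ := h n G adj hn hadj
  have hN := le_sizeN n adj
  have hsz := sizeN_le fun v => (hadj v).1
  have hlen := length_adjInput_le n adj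
  have hmem := fun a => @mem_adjInput_le n adj a
  have hhd := headD_adjInput n adj
  change (∀ ρ, (WordRAM.run P _ ρ _ ⌈(C : ℝ) * (sizeN n adj : ℝ) ^ (1 + η (sizeN n adj))⌉₊).halted
    = true) ∧ 2 / 3 ≤ probAfter P _ _ ⌈(C : ℝ) * (sizeN n adj : ℝ) ^ (1 + η (sizeN n adj))⌉₊ _
  generalize sizeN n adj = N at *
  generalize adjInput n adj = inp at *
  have hN1 : 1 ≤ N := hn.trans hN
  have hL : 1 ≤ Nat.clog 2 (n + 2) := Nat.clog_pos one_lt_two (by omega)
  have hLN : Nat.clog 2 (n + 2) ≤ Nat.clog 2 (N + 2) := Nat.clog_mono_right _ (by omega)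
  have hLl := clog_le_log_add (n + 2)
  have pw := pow_le_two_pow_clog hsz
  generalize Nat.clog 2 (n + 2) = L at *
  have hT' := η3 N hN1
  generalize ⌈(C : ℝ) * (N : ℝ) ^ (1 + η N)⌉₊ = T at *
  have hX : ∀ k, (N + 2) ^ c + (N + 2) ^ k + (N + 2) ^ 2 < (N + 2) ^ (c + k + 3) := fun k => by
    have e1 : (N + 2) ^ c ≤ (N + 2) ^ (c + k + 2) := Nat.pow_le_pow_right (by omega) (by omega)
    have e2 : (N + 2) ^ k ≤ (N + 2) ^ (c + k + 1) := Nat.pow_le_pow_right (by omega) (by omega)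
    have e3 : (N + 2) ^ 2 ≤ (N + 2) ^ (c + k + 2) := Nat.pow_le_pow_right (by omega) (by omega)
    have e4 : 0 < (N + 2) ^ (c + k + 1) := by positivity
    rw [pow_succ _ (c + k + 2)]
    rw [pow_succ _ (c + k + 1)] at *
    nlinarith
  have hi : ∀ k, ∀ x ∈ inp, x ≤ (N + 2) ^ c + (N + 2) ^ k + (N + 2) ^ 2 := fun k x hx =>
    (hmem x hx).trans (le_trans (by nlinarith) (Nat.le_add_left _ _))
  -- the fuel
  have v1 := fuelV_mono ae ce (le_refl (Fu' N)) hN
  have k2' := hk2 N hN1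
  have sf := sp_fuel (a := ae) (b := ce) (s1.gl (g' := ⟨(N + 2) ^ c + (N + 2) ^ k2 + (N + 2) ^ 2, -1⟩)
    (by dsimp only; omega) le_rfl) (by rw [hhd]; dsimp only at *; omega)
  obtain ⟨⟨f1, f2, f3⟩, f4⟩ := sf.run (sf.good_of_neg (by norm_num) [])
  rw [hhd] at f1 f2 f3
  obtain ⟨_, _, _, rfl, f5⟩ := hfu L inp [] _ (Fu' N + (N + 3)) hL ((hX k2).trans_le (pw _))
    ((pow_lt_of_le (k := k2) (by dsimp only at *; omega) (by omega)).trans_le (pw _)) (hi k2) f4
    (by omega)
  generalize ((fuel fu ae ce inp).run []).val = F at *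
  have w1 : ∀ a, a ≤ ae + af + 2 * k3 + 1 → 2 ^ (a * L) ≤ 2 ^ ((ae + af + 2 * k3 + 1) * L) :=
    fun a ha => Nat.pow_le_pow_right two_pos (Nat.mul_le_mul_right _ ha)
  have u1 : U (af * L) cf ≤ U (af * Nat.clog 2 (N + 2)) cf := by unfold U; gcongr
  have f6 : Ev (2 ^ ((ae + af + 2 * k3 + 1) * L)) (.comp tf (.pair .id (.const (.leaf 0))))
      (V.nats inp) (.leaf F) (n0 N) :=
    (((Ev.id _).pair (Ev.const _ _)).comp f5).mono (w1 _ (by omega))
      (by have := Nat.mul_le_mul_left (Fu' N + (N + 3) + 1) u1; dsimp only [n0]; omega)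
  have t1 : (cm + 1) * (inp.length + n0 N + F + 1) ≤
      (cm + 1) * (2 * N + 3 + n0 N + fuelV ae ce (Fu' N) N + 1) := by gcongr; omega
  have t2 : (cm + 1) * (inp.length + n0 N + F + 1) < 2 ^ ((ae + af + 2 * k3 + 1) * L) :=
    ((t1.trans_lt (hk3 N hN1)).trans_le (pw _)).trans_le (w1 _ (by omega))
  have t3 := t1.trans hT'
  rw [add_mul, one_mul] at t2 t3
  have t4 : 2 * N + 1 < 2 ^ ((ae + af + 2 * k3 + 1) * L) := by
    refine lt_of_le_of_lt ?_ (((hk3 N hN1).trans_le (pw _)).trans_le (w1 _ (by omega)))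
    rw [add_mul, one_mul]; omega
  have hP' := hP _ inp F (n0 N) f6 (by omega) fun a ha => (hmem a ha).trans_lt t4
  have hr : ∀ ρ, WordRAM.run P ((ae + af + 2 * k3 + 1) * L) ρ inp T =
      WordRAM.run P ((ae + af + 2 * k3 + 1) * L) ρ inp (cm * (inp.length + n0 N + F + 1)) :=
    fun ρ => R309.RAM.iterate_of_halted (by omega) (hP' ρ).1
  refine ⟨fun ρ => by rw [hr]; exact (hP' ρ).1, ?_⟩
  have f7 : (Fu N + 1) * (U (ae * L) ce + 1) + (n + 2) ≤ F := by
    refine le_trans ?_ f1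
    unfold fuelV U
    gcongr
  rw [mul_add, mul_one] at f7
  obtain ⟨_, _, q1, q2, _⟩ := s1.exists (by norm_num)
  have p0 : (0 : ℝ) < 3 * ((Fu N : ℝ) + 1) := by positivity
  refine le_trans ?_ ((s2.mono fun _ _ k => k.2).probAfter_ge (F := F) (by positivity)
    (by rw [div_lt_one p0]; linarith [Nat.cast_nonneg (α := ℝ) (Fu N)]) (by omega) (by omega)
    (Nat.mul_pos (by omega) hL) fun ρ hg => ?_)
  · dsimp only
    rw [le_sub_comm, div_mul_eq_mul_div, div_le_iff₀ p0]
    linarith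
  · obtain ⟨⟨g1, g2⟩, g3⟩ := s2.run hg
    obtain ⟨_, _, r, g4, g5⟩ := he L inp (tapeB ρ F) _ (Fu N) hL ((hX k1).trans_le (pw _))
      ((pow_lt_of_le ((q1.trans q2).trans_lt (hk1 N hN1)) (by omega)).trans_le (pw _)) (hi k1)
      (g3.trans (by dsimp only; omega)) g2
    rw [rp_nats.1 g4, tp, tapeB_toNat] at g5
    have := length_le_of_isMax g1
    rw [hr, (hP' ρ).2 _ (g5.mono (w1 _ (by omega)) (by omega)) (by omega)]
    exact g1

end Crest.Agent.N325
end

-- ▼ part N325/M0/Interp1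
section

/-!
# N325 / M0: the interpreter, one step

`den` is the denotation of loop-free structured programs; `core` is one step of the abstract
machine (registers: 2 code pointer, 3 value pointer, 4 continuation, 5 heap top, 8/9/10 the
constants 0/1/2, 14–18 scratch).
-/

set_option autoImplicit false

namespace Crest.Agent.N325.Mach

open Crest.Agent.R309.RAM

/-- loop-free programs -/
def lf : Prog → Prop
  | .blk _ => True
  | .seq p q => lf p ∧ lf q
  | .ite _ p q => lf p ∧ lf q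
  | .loop _ _ => False

/-- denotation of loop-free programs -/
def den (w : ℕ) (ρ : ℕ → ℕ) : Prog → St → St
  | .blk l, σ => effs w ρ l σ
  | .seq p q, σ => den w ρ q (den w ρ p σ)
  | .ite c p q, σ => if c.eval σ then den w ρ p σ else den w ρ q σ
  | .loop _ _, σ => σ

theorem runs_den (w : ℕ) (ρ : ℕ → ℕ) {p : Prog} (h : lf p) :
    ∀ σ, Runs w ρ p σ p.len fun σ' => σ' = den w ρ p σ := by
  induction p with
  | blk l => intro σ; exact Runs.blk l rfl
  | seq p q ihp ihq =>
    intro σ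
    refine (ihp h.1 σ).seq fun σ' hσ' => ?_
    subst hσ'
    exact ihq h.2 _
  | ite c p q ihp ihq =>
    intro σ
    refine (Runs.ite (n := p.len + q.len) (fun hc => ?_) (fun hc => ?_)).mono
      (by simp only [Prog.len]; omega) fun _ h => h
    · exact (ihp h.1 σ).mono (by omega) fun σ' h' => by rw [h']; simp only [den, if_pos hc]
    · exact (ihq h.2 σ).mono (by omega) fun σ' h' => by rw [h']; simp only [den, if_neg hc]
  | loop c p _ => exact h.elim

/-- the instruction does not write register `r` -/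
def opKeep (r : ℕ) : Op → Prop
  | .const d _ => d ≠ r
  | .copy d _ => d ≠ r
  | .add d _ _ => d ≠ r
  | .sub d _ _ => d ≠ r
  | .mul d _ _ => d ≠ r
  | .quot d _ _ => d ≠ r
  | .rem d _ _ => d ≠ r
  | .load d _ => d ≠ r
  | .store _ _ => True
  | .rand d => d ≠ r

instance (r : ℕ) (i : Op) : Decidable (opKeep r i) := by
  cases i <;> unfold opKeep <;> infer_instance

/-- the program does not write register `r` -/
def keep (r : ℕ) : Prog → Prop
  | .blk l => ∀ i ∈ l, opKeep r i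
  | .seq p q => keep r p ∧ keep r q
  | .ite _ p q => keep r p ∧ keep r q
  | .loop _ p => keep r p

instance keepDec (r : ℕ) : (p : Prog) → Decidable (keep r p)
  | .blk l => by unfold keep; infer_instance
  | .seq p q => by unfold keep; exact @instDecidableAnd _ _ (keepDec r p) (keepDec r q)
  | .ite _ p q => by unfold keep; exact @instDecidableAnd _ _ (keepDec r p) (keepDec r q)
  | .loop _ p => by unfold keep; exact keepDec r p

instance okDec (r : ℕ) : (p : Prog) → Decidable (p.ok r)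
  | .blk l => by unfold Prog.ok; infer_instance
  | .seq p q => by unfold Prog.ok; exact @instDecidableAnd _ _ (okDec r p) (okDec r q)
  | .ite _ p q => by
      unfold Prog.ok
      exact @instDecidableAnd _ _ inferInstance (@instDecidableAnd _ _ (okDec r p) (okDec r q))
  | .loop _ p => by unfold Prog.ok; exact @instDecidableAnd _ _ inferInstance (okDec r p)

theorem eff_keep {w : ℕ} {ρ : ℕ → ℕ} {r : ℕ} {i : Op} (h : opKeep r i) (σ : St) :
    (i.eff w ρ σ).regs r = σ.regs r := by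
  cases i <;> simp only [Op.eff] <;>
    first
      | rfl
      | exact Function.update_of_ne (Ne.symm h) _ _

theorem effs_keep {w : ℕ} {ρ : ℕ → ℕ} {r : ℕ} {l : List Op} (h : ∀ i ∈ l, opKeep r i) :
    ∀ σ : St, (effs w ρ l σ).regs r = σ.regs r := by
  induction l with
  | nil => intro σ; rfl
  | cons i l ih =>
    intro σ
    rw [effs_cons, ih fun j hj => h j (List.mem_cons_of_mem _ hj), eff_keep (h i List.mem_cons_self)]

theorem Ex_keep {w : ℕ} {ρ : ℕ → ℕ} {r : ℕ} {p : Prog} {σ σ' : St} {t : ℕ} (h : Ex w ρ p σ σ' t) :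
    keep r p → σ'.regs r = σ.regs r := by
  induction h with
  | blk l s => exact fun hk => effs_keep hk s
  | seq _ _ ih1 ih2 => exact fun hk => (ih2 hk.2).trans (ih1 hk.1)
  | ite_true _ _ ih => exact fun hk => ih hk.1
  | ite_false _ _ ih => exact fun hk => ih hk.2
  | loop_done _ => exact fun _ => rfl
  | loop_step _ _ _ ih1 ih2 => exact fun hk => (ih2 hk).trans (ih1 hk)

theorem den_keep {w : ℕ} {ρ : ℕ → ℕ} {r : ℕ} {p : Prog} (hl : lf p) (hk : keep r p) (σ : St) :
    (den w ρ p σ).regs r = σ.regs r := by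
  obtain ⟨σ', t, h, _, rfl⟩ := runs_den w ρ hl σ
  exact Ex_keep h hk

theorem Runs.keep {w : ℕ} {ρ : ℕ → ℕ} {p : Prog} {σ : St} {n : ℕ} {Q : St → Prop}
    (h : Runs w ρ p σ n Q) :
    Runs w ρ p σ n fun σ' => Q σ' ∧ ∀ r, keep r p → σ'.regs r = σ.regs r := by
  obtain ⟨σ', t, h1, h2, h3⟩ := h
  exact ⟨σ', t, h1, h2, h3, fun r hr => Ex_keep h1 hr⟩

/-- return mode: pop a frame -/
def retP : Prog :=
  .seq (.blk [.load 14 4, .add 15 4 9, .load 16 15, .add 15 15 9, .load 17 15, .add 15 15 9,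
      .load 18 15])
    (.ite (.zero 14) (.blk [.copy 2 16, .copy 4 18])
      (.ite (.eq 14 9)
        (.blk [.store 10 5, .add 15 5 9, .store 3 15, .add 15 15 9, .add 15 15 9, .store 18 15,
          .copy 4 5, .add 5 15 9, .copy 2 16, .copy 3 17])
        (.blk [.store 16 5, .add 15 5 9, .store 3 15, .copy 3 5, .add 5 15 9, .copy 4 18])))

/-- decrement the tag and go on -/
def dsp (p q : Prog) : Prog := .ite (.zero 14) p (.seq (.blk [.sub 14 14 9]) q)

/-- arithmetic -/
def opP : Prog :=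
  .seq (.blk [.add 16 16 9, .load 16 16, .add 17 17 9, .load 17 17])
    (.seq (dsp (.blk [.add 16 16 17]) (dsp (.blk [.sub 16 16 17]) (dsp (.blk [.mul 16 16 17])
        (dsp (.blk [.quot 16 16 17]) (.blk [.rem 16 16 17])))))
      (.blk [.store 8 5, .add 17 5 9, .store 16 17, .copy 3 5, .add 5 17 9, .copy 2 8]))

/-- the conditional -/
def condP : Prog :=
  .seq (.blk [.copy 3 17, .load 17 16, .add 16 16 9, .load 16 16])
    (.ite (.zero 17) (.ite (.zero 16) (.blk [.add 15 15 9, .load 2 15]) (.blk [.load 2 15]))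
      (.blk [.load 2 15]))

/-- evaluation mode -/
def evP : Prog :=
  .seq (.blk [.load 14 2, .add 14 14 9, .load 14 14, .add 15 2 9, .load 15 15, .load 16 3,
      .add 17 3 9, .load 17 17])
    (dsp (.blk [.copy 2 8])
    (dsp (.blk [.copy 2 8, .copy 3 16])
    (dsp (.blk [.copy 2 8, .copy 3 17])
    (dsp (.blk [.copy 2 8, .copy 3 15])
    (dsp (.blk [.load 16 15, .add 15 15 9, .load 15 15, .store 9 5, .add 17 5 9, .store 15 17,
        .add 17 17 9, .store 3 17, .add 17 17 9, .store 4 17, .copy 4 5, .add 5 17 9, .copy 2 16])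
    (dsp (.blk [.load 16 15, .add 15 15 9, .load 15 15, .store 8 5, .add 17 5 9, .store 16 17,
        .add 17 17 9, .add 17 17 9, .store 4 17, .copy 4 5, .add 5 17 9, .copy 2 15])
    (dsp condP
    (dsp (.blk [.copy 2 16, .copy 3 17]) opP))))))))

/-- pay one unit of fuel (register 6, by register 7) -/
def decP : Prog := .blk [.sub 6 6 7]

/-- one step of the abstract machine; a finished machine clears the fuel -/
def core : Prog :=
  .ite (.zero 2) (.ite (.zero 4) (.blk [.copy 6 8]) (.seq retP decP)) (.seq evP decP)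

theorem lf_retP : lf retP := by
  simp only [retP, lf, and_self]

theorem lf_evP : lf evP := by
  simp only [evP, dsp, condP, opP, lf, and_self]

theorem lf_core : lf core := by
  simp only [core, decP, lf, lf_retP, lf_evP, and_self]

/-- the constant registers -/
structure Good (σ : St) : Prop where
  zero : σ.regs 8 = 0
  one : σ.regs 9 = 1
  two : σ.regs 10 = 2

/-- the abstract part of a state -/
structure Is (σ : St) (c x k h : ℕ) (m : ℕ → ℕ) : Prop where
  c : σ.regs 2 = c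
  x : σ.regs 3 = x
  k : σ.regs 4 = k
  h : σ.regs 5 = h
  m : σ.mem = m

end Crest.Agent.N325.Mach
private theorem rz_8c79d03fdf : type_of% @_root_.Crest.Agent.N325.Mach.den.eq_def := @_root_.Crest.Agent.N325.Mach.den.eq_def -- L26
private theorem rz_a950fa1c3d : type_of% @_root_.Crest.Agent.N325.Mach.den.eq_1 := @_root_.Crest.Agent.N325.Mach.den.eq_1 -- L26
private theorem rz_c7a4a0cdfe : type_of% @_root_.Crest.Agent.N325.Mach.keep.eq_def := @_root_.Crest.Agent.N325.Mach.keep.eq_def -- L66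
private theorem rz_494a80f902 : type_of% @_root_.Crest.Agent.N325.Mach.lf.eq_def := @_root_.Crest.Agent.N325.Mach.lf.eq_def -- L19
private theorem rz_cf174827f5 : type_of% @_root_.Crest.Agent.N325.Mach.lf.eq_1 := @_root_.Crest.Agent.N325.Mach.lf.eq_1 -- L19
private theorem rz_d25fde31f6 : type_of% @_root_.Crest.Agent.N325.Mach.opKeep.eq_1 := @_root_.Crest.Agent.N325.Mach.opKeep.eq_1 -- L50
end

-- ▼ part N325/M0/Interp2
section

/-!
# N325 / M0: the interpreter, the cases of one step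
-/

set_option autoImplicit false

namespace Crest.Agent.N325.Mach

open Crest.Agent.R309.RAM

section steps

variable {w : ℕ} {ρ : ℕ → ℕ} {σ : St} {c x k h : ℕ} {m : ℕ → ℕ}

set_option hygiene false in
/-- unfold one step -/
local macro "stp" "[" l:Lean.Parser.Tactic.simpLemma,* "]" : tactic => `(tactic| (
  obtain ⟨regs, mem, dr⟩ := σ
  obtain ⟨g0, g1, g2⟩ := hG
  obtain ⟨e1, e2, e3, e4, e5⟩ := hI
  simp only at g0 g1 g2 e1 e2 e3 e4 e5
  subst e5
  simp (disch := omega) only [core, decP, retP, evP, dsp, condP, opP, den, Cond.eval, effs_cons,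
      effs_nil, Op.eff, Function.update_apply, g0, g1, g2, e1, e2, e3, e4,
      Nat.mod_eq_of_lt, Nat.reduceSub, Nat.reduceEqDiff, ↓reduceIte, $l,*]
  constructor <;>
    simp only [Function.update_apply, Nat.reduceEqDiff, ↓reduceIte, e1, e2, e3, e4]))

theorem step_done (hG : Good σ) (hI : Is σ 0 x 0 h m) : Is (den w ρ core σ) 0 x 0 h m := by
  stp []

theorem step_cmp (hG : Good σ) (hI : Is σ 0 x k h m) (hk0 : k ≠ 0) (hk : k + 3 < 2 ^ w)
    (ht : m k = 0) :
    Is (den w ρ core σ) (m (k + 1)) x (m (k + 1 + 1 + 1)) h m := by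
  stp [ht, hk0]

theorem step_p1 (hG : Good σ) (hI : Is σ 0 x k h m) (hk0 : k ≠ 0) (hk : k + 3 < 2 ^ w)
    (hh : h + 4 < 2 ^ w) (ht : m k = 1) :
    Is (den w ρ core σ) (m (k + 1)) (m (k + 1 + 1)) h (h + 1 + 1 + 1 + 1)
      (Function.update (Function.update (Function.update m h 2) (h + 1) x) (h + 1 + 1 + 1)
        (m (k + 1 + 1 + 1))) := by
  stp [ht, hk0]

theorem step_p2 (hG : Good σ) (hI : Is σ 0 x k h m) (hk0 : k ≠ 0) (hk : k + 3 < 2 ^ w)
    (hh : h + 4 < 2 ^ w) (ht : m k = 2) :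
    Is (den w ρ core σ) 0 h (m (k + 1 + 1 + 1)) (h + 1 + 1)
      (Function.update (Function.update m h (m (k + 1))) (h + 1) x) := by
  stp [ht, hk0]

theorem step_id (hG : Good σ) (hI : Is σ c x k h m) (hc0 : c ≠ 0) (hc : c + 1 < 2 ^ w)
    (hc' : m c + 1 < 2 ^ w) (ht : m (m c + 1) = 0) :
    Is (den w ρ core σ) 0 x k h m := by
  stp [ht, hc0]

theorem step_fst (hG : Good σ) (hI : Is σ c x k h m) (hc0 : c ≠ 0) (hc : c + 1 < 2 ^ w)
    (hc' : m c + 1 < 2 ^ w) (ht : m (m c + 1) = 1) :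
    Is (den w ρ core σ) 0 (m x) k h m := by
  stp [ht, hc0]

theorem step_snd (hG : Good σ) (hI : Is σ c x k h m) (hc0 : c ≠ 0) (hc : c + 1 < 2 ^ w)
    (hc' : m c + 1 < 2 ^ w) (hx : x + 1 < 2 ^ w) (ht : m (m c + 1) = 2) :
    Is (den w ρ core σ) 0 (m (x + 1)) k h m := by
  stp [ht, hc0]

theorem step_const (hG : Good σ) (hI : Is σ c x k h m) (hc0 : c ≠ 0) (hc : c + 1 < 2 ^ w)
    (hc' : m c + 1 < 2 ^ w) (ht : m (m c + 1) = 3) :
    Is (den w ρ core σ) 0 (m (c + 1)) k h m := by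
  stp [ht, hc0]

theorem step_pair (hG : Good σ) (hI : Is σ c x k h m) (hc0 : c ≠ 0) (hc : c + 1 < 2 ^ w)
    (hc' : m c + 1 < 2 ^ w) (hp : m (c + 1) + 1 < 2 ^ w) (hh : h + 4 < 2 ^ w)
    (ht : m (m c + 1) = 4) :
    Is (den w ρ core σ) (m (m (c + 1))) x h (h + 1 + 1 + 1 + 1)
      (Function.update (Function.update (Function.update (Function.update m h 1) (h + 1)
        (m (m (c + 1) + 1))) (h + 1 + 1) x) (h + 1 + 1 + 1) k) := by
  stp [ht, hc0]

theorem step_comp (hG : Good σ) (hI : Is σ c x k h m) (hc0 : c ≠ 0) (hc : c + 1 < 2 ^ w)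
    (hc' : m c + 1 < 2 ^ w) (hp : m (c + 1) + 1 < 2 ^ w) (hh : h + 4 < 2 ^ w)
    (ht : m (m c + 1) = 5) :
    Is (den w ρ core σ) (m (m (c + 1) + 1)) x h (h + 1 + 1 + 1 + 1)
      (Function.update (Function.update (Function.update m h 0) (h + 1)
        (m (m (c + 1)))) (h + 1 + 1 + 1) k) := by
  stp [ht, hc0]

theorem step_cond0 (hG : Good σ) (hI : Is σ c x k h m) (hc0 : c ≠ 0) (hc : c + 1 < 2 ^ w)
    (hc' : m c + 1 < 2 ^ w) (hp : m (c + 1) + 1 < 2 ^ w) (hx : x + 1 < 2 ^ w)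
    (hb : m x + 1 < 2 ^ w) (ht : m (m c + 1) = 6) (h1 : m (m x) = 0) (h2 : m (m x + 1) = 0) :
    Is (den w ρ core σ) (m (m (c + 1) + 1)) (m (x + 1)) k h m := by
  stp [ht, hc0, h1, h2]

theorem step_cond1 (hG : Good σ) (hI : Is σ c x k h m) (hc0 : c ≠ 0) (hc : c + 1 < 2 ^ w)
    (hc' : m c + 1 < 2 ^ w) (hx : x + 1 < 2 ^ w)
    (hb : m x + 1 < 2 ^ w) (ht : m (m c + 1) = 6) (h1 : m (m x) = 0) (h2 : m (m x + 1) ≠ 0) :
    Is (den w ρ core σ) (m (m (c + 1))) (m (x + 1)) k h m := by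
  stp [ht, hc0, h1, h2]

theorem step_cond2 (hG : Good σ) (hI : Is σ c x k h m) (hc0 : c ≠ 0) (hc : c + 1 < 2 ^ w)
    (hc' : m c + 1 < 2 ^ w) (hx : x + 1 < 2 ^ w)
    (ht : m (m c + 1) = 6) (h1 : m (m x) ≠ 0) :
    Is (den w ρ core σ) (m (m (c + 1))) (m (x + 1)) k h m := by
  stp [ht, hc0, h1]

theorem step_app (hG : Good σ) (hI : Is σ c x k h m) (hc0 : c ≠ 0) (hc : c + 1 < 2 ^ w)
    (hc' : m c + 1 < 2 ^ w) (hx : x + 1 < 2 ^ w) (ht : m (m c + 1) = 7) :
    Is (den w ρ core σ) (m x) (m (x + 1)) k h m := by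
  stp [ht, hc0]

theorem step_op (o : BOp) (hG : Good σ) (hI : Is σ c x k h m) (hc0 : c ≠ 0) (hc : c + 1 < 2 ^ w)
    (hc' : m c + 1 < 2 ^ w) (hx : x + 1 < 2 ^ w) (ha : m x + 1 < 2 ^ w)
    (hb : m (x + 1) + 1 < 2 ^ w) (hh : h + 4 < 2 ^ w) (ht : m (m c + 1) = o.tag)
    (hv : o.ap (m (m x + 1)) (m (m (x + 1) + 1)) < 2 ^ w) :
    Is (den w ρ core σ) 0 h k (h + 1 + 1)
      (Function.update (Function.update m h 0) (h + 1)
        (o.ap (m (m x + 1)) (m (m (x + 1) + 1)))) := by
  cases o <;> simp only [BOp.tag, BOp.ap] at ht hv ⊢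
  · stp [ht, hc0]
  · stp [ht, hc0]
  · stp [ht, hc0, Nat.mod_eq_of_lt hv]
  · stp [ht, hc0]
  · stp [ht, hc0]

theorem fuel_done (hG : Good σ) (h2 : σ.regs 2 = 0) (h4 : σ.regs 4 = 0) :
    (den w ρ core σ).regs 6 = 0 := by
  simp only [core, den, Cond.eval, h2, h4, ↓reduceIte, effs_cons, effs_nil, Op.eff,
    Function.update_self, hG.zero]

theorem fuel_dec {p : Prog} (hl : lf p) (h6 : keep 6 p) (h7 : keep 7 p) :
    (den w ρ (.seq p decP) σ).regs 6 = σ.regs 6 - σ.regs 7 := by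
  simp only [decP, den, effs_cons, effs_nil, Op.eff, Function.update_self, den_keep hl h6,
    den_keep hl h7]

theorem fuel_run (h : ¬(σ.regs 2 = 0 ∧ σ.regs 4 = 0)) :
    (den w ρ core σ).regs 6 = σ.regs 6 - σ.regs 7 := by
  by_cases h2 : σ.regs 2 = 0
  · have h4 : ¬σ.regs 4 = 0 := fun h4 => h ⟨h2, h4⟩
    rw [← fuel_dec (w := w) (ρ := ρ) lf_retP (by decide) (by decide)]
    simp only [core, den, Cond.eval, h2, h4, ↓reduceIte]
  · rw [← fuel_dec (w := w) (ρ := ρ) lf_evP (by decide) (by decide)]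
    simp only [core, den, Cond.eval, h2, ↓reduceIte]

theorem Good.step (hG : Good σ) : Good (den w ρ core σ) :=
  ⟨(den_keep lf_core (by decide) σ).trans hG.zero, (den_keep lf_core (by decide) σ).trans hG.one,
    (den_keep lf_core (by decide) σ).trans hG.two⟩

end steps

end Crest.Agent.N325.Mach
end

-- ▼ part N325/M0/Interp3
section

/-!
# N325 / M0: heap representation and the simulation of `Eval`
-/

set_option autoImplicit false

namespace Crest.Agent.N325.Mach

open Crest.Agent.R309.RAM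

/-- the address `p` represents the value in the memory `m` below `h` -/
def RV (m : ℕ → ℕ) (h : ℕ) : V → ℕ → Prop
  | .leaf n, p => 0 < p ∧ p + 2 ≤ h ∧ m p = 0 ∧ m (p + 1) = n
  | .node a b, p => 0 < p ∧ p + 2 ≤ h ∧ RV m h a (m p) ∧ RV m h b (m (p + 1))

/-- heap extension -/
def Ext (m : ℕ → ℕ) (h : ℕ) (m' : ℕ → ℕ) (h' : ℕ) : Prop := h ≤ h' ∧ ∀ i < h, m' i = m i

theorem Ext.refl (m : ℕ → ℕ) (h : ℕ) : Ext m h m h := ⟨le_rfl, fun _ _ => rfl⟩

theorem Ext.trans {m m' m'' : ℕ → ℕ} {h h' h'' : ℕ} (a : Ext m h m' h') (b : Ext m' h' m'' h'') :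
    Ext m h m'' h'' :=
  ⟨a.1.trans b.1, fun i hi => (b.2 i (hi.trans_le a.1)).trans (a.2 i hi)⟩

theorem RV.pos {m : ℕ → ℕ} {h : ℕ} {v : V} {p : ℕ} (r : RV m h v p) : 0 < p := by
  cases v <;> exact r.1

theorem RV.lt {m : ℕ → ℕ} {h : ℕ} {v : V} {p : ℕ} (r : RV m h v p) : p + 2 ≤ h := by
  cases v <;> exact r.2.1

theorem RV.ext {m m' : ℕ → ℕ} {h h' : ℕ} (e : Ext m h m' h') :
    ∀ {v : V} {p : ℕ}, RV m h v p → RV m' h' v p := by
  intro v
  induction v with
  | leaf n =>
    intro p ⟨h1, h2, h3, h4⟩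
    exact ⟨h1, h2.trans e.1, (e.2 p (by omega)).trans h3, (e.2 _ (by omega)).trans h4⟩
  | node a b iha ihb =>
    intro p ⟨h1, h2, h3, h4⟩
    refine ⟨h1, h2.trans e.1, ?_, ?_⟩
    · rw [e.2 p (by omega)]; exact iha h3
    · rw [e.2 _ (by omega)]; exact ihb h4

theorem Good.iter {w : ℕ} {ρ : ℕ → ℕ} {σ : St} (hG : Good σ) (j : ℕ) :
    Good ((den w ρ core)^[j] σ) := by
  induction j with
  | zero => exact hG
  | succ j ih => rw [Function.iterate_succ_apply']; exact ih.step

/-- what a finished evaluation leaves -/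
def Done (w : ℕ) (ρ : ℕ → ℕ) (σ : St) (k hp : ℕ) (m : ℕ → ℕ) (yv : V) (n : ℕ) : Prop :=
  ∃ j ≤ 3 * n, ∃ y hp' m', Is ((den w ρ core)^[j] σ) 0 y k hp' m' ∧ RV m' hp' yv y ∧
    hp' ≤ hp + 4 * j ∧ Ext m hp m' hp'

theorem Done.one {w : ℕ} {ρ : ℕ → ℕ} {σ : St} {k hp : ℕ} {m : ℕ → ℕ} {yv : V} {y hp' : ℕ}
    {m' : ℕ → ℕ} (h : Is (den w ρ core σ) 0 y k hp' m') (r : RV m' hp' yv y) (h1 : hp' ≤ hp + 4)
    (e : Ext m hp m' hp') : Done w ρ σ k hp m yv 1 :=
  ⟨1, by omega, y, hp', m', h, r, by omega, e⟩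

theorem Done.tail {w : ℕ} {ρ : ℕ → ℕ} {σ : St} {k hp : ℕ} {m : ℕ → ℕ} {yv : V} {n : ℕ}
    (h : Done w ρ (den w ρ core σ) k hp m yv n) : Done w ρ σ k hp m yv (n + 1) := by
  obtain ⟨j, hj, y, hp', m', h1, h2, h3, h4⟩ := h
  exact ⟨j + 1, by omega, y, hp', m', by rw [Function.iterate_succ_apply]; exact h1, h2,
    by omega, h4⟩

theorem sim {w : ℕ} {ρ : ℕ → ℕ} {t : Tm} {xv yv : V} {n : ℕ} (h : Eval (2 ^ w) t xv yv n) :
    ∀ (σ : St) (c x k hp : ℕ) (m : ℕ → ℕ), Good σ → Is σ c x k hp m → RV m hp t.enc c →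
      RV m hp xv x → hp + 12 * n < 2 ^ w → Done w ρ σ k hp m yv n := by
  induction h with
  | id xv =>
    intro σ c x k hp m hG hI ⟨c1, c2, ⟨c3, c4, c5, c6⟩, _⟩ hx hw
    exact Done.one (step_id hG hI (by omega) (by omega) (by omega) c6) hx (by omega) (Ext.refl _ _)
  | fst a b =>
    intro σ c x k hp m hG hI ⟨c1, c2, ⟨c3, c4, c5, c6⟩, _⟩ ⟨_, _, hx, _⟩ hw
    exact Done.one (step_fst hG hI (by omega) (by omega) (by omega) c6) hx (by omega)
      (Ext.refl _ _)
  | snd a b =>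
    intro σ c x k hp m hG hI ⟨c1, c2, ⟨c3, c4, c5, c6⟩, _⟩ ⟨_, _, _, hx⟩ hw
    exact Done.one (step_snd hG hI (by omega) (by omega) (by omega) (by omega) c6) hx (by omega)
      (Ext.refl _ _)
  | const v xv =>
    intro σ c x k hp m hG hI ⟨c1, c2, ⟨c3, c4, c5, c6⟩, c7⟩ hx hw
    exact Done.one (step_const hG hI (by omega) (by omega) (by omega) c6) c7 (by omega)
      (Ext.refl _ _)
  | @pair s t xv yv zv n1 n2 _ _ ih1 ih2 =>
    intro σ c x k hp m hG hI ⟨c1, c2, ⟨c3, c4, c5, c6⟩, p1, p2, ps, pt⟩ hx hw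
    have I1 := step_pair (w := w) (ρ := ρ) hG hI (by omega) (by omega) (by omega) (by omega)
      (by omega) c6
    generalize hm1 : Function.update (Function.update (Function.update (Function.update m hp 1)
      (hp + 1) (m (m (c + 1) + 1))) (hp + 1 + 1) x) (hp + 1 + 1 + 1) k = m1 at I1
    have f0 : m1 hp = 1 := by
      subst hm1; simp (disch := omega) only [Function.update_of_ne, Function.update_self]
    have f1 : m1 (hp + 1) = m (m (c + 1) + 1) := by
      subst hm1; simp (disch := omega) only [Function.update_of_ne, Function.update_self]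
    have f2 : m1 (hp + 1 + 1) = x := by
      subst hm1; simp (disch := omega) only [Function.update_of_ne, Function.update_self]
    have f3 : m1 (hp + 1 + 1 + 1) = k := by subst hm1; simp
    have E1 : Ext m hp m1 (hp + 1 + 1 + 1 + 1) := by
      subst hm1
      refine ⟨by omega, fun i hi => ?_⟩
      simp (disch := omega) only [Function.update_of_ne]
    obtain ⟨j1, hj1, y, hp2, m2, I2, ry, b2, E2⟩ := ih1 _ _ _ _ _ _ hG.step I1 (RV.ext E1 ps)
      (RV.ext E1 hx) (by omega)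
    have G2 := (hG.step (w := w) (ρ := ρ)).iter (w := w) (ρ := ρ) j1
    have := E2.1
    have I3 := step_p1 (w := w) (ρ := ρ) G2 I2 (by omega) (by omega) (by omega)
      ((E2.2 _ (by omega)).trans f0)
    rw [E2.2 (hp + 1) (by omega), E2.2 (hp + 1 + 1) (by omega), E2.2 (hp + 1 + 1 + 1) (by omega),
      f1, f2, f3] at I3
    generalize hm3 : Function.update (Function.update (Function.update m2 hp2 2) (hp2 + 1) y)
      (hp2 + 1 + 1 + 1) k = m3 at I3
    have g0 : m3 hp2 = 2 := by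
      subst hm3; simp (disch := omega) only [Function.update_of_ne, Function.update_self]
    have g1 : m3 (hp2 + 1) = y := by
      subst hm3; simp (disch := omega) only [Function.update_of_ne, Function.update_self]
    have g3 : m3 (hp2 + 1 + 1 + 1) = k := by subst hm3; simp
    have E3 : Ext m2 hp2 m3 (hp2 + 1 + 1 + 1 + 1) := by
      subst hm3
      refine ⟨by omega, fun i hi => ?_⟩
      simp (disch := omega) only [Function.update_of_ne]
    have E13 := (E1.trans E2).trans E3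
    obtain ⟨j2, hj2, z, hp4, m4, I4, rz, b4, E4⟩ := ih2 _ _ _ _ _ _ G2.step I3 (RV.ext E13 pt)
      (RV.ext E13 hx) (by omega)
    have G4 := (G2.step (w := w) (ρ := ρ)).iter (w := w) (ρ := ρ) j2
    have := E4.1
    have I5 := step_p2 (w := w) (ρ := ρ) G4 I4 (by omega) (by omega) (by omega)
      ((E4.2 _ (by omega)).trans g0)
    rw [E4.2 (hp2 + 1) (by omega), E4.2 (hp2 + 1 + 1 + 1) (by omega), g1, g3] at I5
    generalize hm5 : Function.update (Function.update m4 hp4 y) (hp4 + 1) z = m5 at I5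
    have k0 : m5 hp4 = y := by
      subst hm5; simp (disch := omega) only [Function.update_of_ne, Function.update_self]
    have k1 : m5 (hp4 + 1) = z := by subst hm5; simp
    have E5 : Ext m4 hp4 m5 (hp4 + 1 + 1) := by
      subst hm5
      refine ⟨by omega, fun i hi => ?_⟩
      simp (disch := omega) only [Function.update_of_ne]
    refine ⟨1 + (j2 + (1 + (j1 + 1))), by omega, hp4, hp4 + 1 + 1, m5, ?_, ⟨by omega, by omega, ?_, ?_⟩,
      by omega, (E13.trans E4).trans E5⟩
    · simp only [Function.iterate_add_apply, Function.iterate_one]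
      exact I5
    · rw [k0]; exact RV.ext ((E3.trans E4).trans E5) ry
    · rw [k1]; exact RV.ext E5 rz
  | @comp s t xv yv zv n1 n2 _ _ ih1 ih2 =>
    intro σ c x k hp m hG hI ⟨c1, c2, ⟨c3, c4, c5, c6⟩, p1, p2, ps, pt⟩ hx hw
    have I1 := step_comp (w := w) (ρ := ρ) hG hI (by omega) (by omega) (by omega) (by omega)
      (by omega) c6
    generalize hm1 : Function.update (Function.update (Function.update m hp 0)
      (hp + 1) (m (m (c + 1)))) (hp + 1 + 1 + 1) k = m1 at I1
    have f0 : m1 hp = 0 := by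
      subst hm1; simp (disch := omega) only [Function.update_of_ne, Function.update_self]
    have f1 : m1 (hp + 1) = m (m (c + 1)) := by
      subst hm1; simp (disch := omega) only [Function.update_of_ne, Function.update_self]
    have f3 : m1 (hp + 1 + 1 + 1) = k := by subst hm1; simp
    have E1 : Ext m hp m1 (hp + 1 + 1 + 1 + 1) := by
      subst hm1
      refine ⟨by omega, fun i hi => ?_⟩
      simp (disch := omega) only [Function.update_of_ne]
    obtain ⟨j1, hj1, y, hp2, m2, I2, ry, b2, E2⟩ := ih1 _ _ _ _ _ _ hG.step I1 (RV.ext E1 pt)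
      (RV.ext E1 hx) (by omega)
    have G2 := (hG.step (w := w) (ρ := ρ)).iter (w := w) (ρ := ρ) j1
    have := E2.1
    have I3 := step_cmp (w := w) (ρ := ρ) G2 I2 (by omega) (by omega) ((E2.2 _ (by omega)).trans f0)
    rw [E2.2 (hp + 1) (by omega), E2.2 (hp + 1 + 1 + 1) (by omega), f1, f3] at I3
    have E12 := E1.trans E2
    obtain ⟨j2, hj2, z, hp4, m4, I4, rz, b4, E4⟩ := ih2 _ _ _ _ _ _ G2.step I3 (RV.ext E12 ps)
      ry (by omega)
    refine ⟨j2 + (1 + (j1 + 1)), by omega, z, hp4, m4, ?_, rz, by omega, E12.trans E4⟩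
    simp only [Function.iterate_add_apply, Function.iterate_one]
    exact I4
  | @cond_zero s t xv yv n _ ih =>
    intro σ c x k hp m hG hI ⟨c1, c2, ⟨c3, c4, c5, c6⟩, p1, p2, ps, pt⟩
      ⟨x1, x2, ⟨b1, b2, b3, b4⟩, hx⟩ hw
    have I1 := step_cond0 (w := w) (ρ := ρ) hG hI (by omega) (by omega) (by omega) (by omega)
      (by omega) (by omega) c6 b3 b4
    exact Done.tail (ih _ _ _ _ _ _ hG.step I1 pt hx (by omega))
  | @cond_ne s t b xv yv n hb _ ih =>
    intro σ c x k hp m hG hI ⟨c1, c2, ⟨c3, c4, c5, c6⟩, p1, p2, ps, pt⟩ ⟨x1, x2, rb, hx⟩ hw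
    have I1 : Is (den w ρ core σ) (m (m (c + 1))) (m (x + 1)) k hp m := by
      cases b with
      | leaf q =>
        obtain ⟨b1, b2, b3, b4⟩ := rb
        refine step_cond1 hG hI (by omega) (by omega) (by omega) (by omega) (by omega) c6 b3 ?_
        rw [b4]
        rintro rfl
        exact hb rfl
      | node b1 b2 =>
        exact step_cond2 hG hI (by omega) (by omega) (by omega) (by omega) c6 rb.2.2.1.pos.ne'
    exact Done.tail (ih _ _ _ _ _ _ hG.step I1 ps hx (by omega))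
  | @app t xv yv n _ ih =>
    intro σ c x k hp m hG hI ⟨c1, c2, ⟨c3, c4, c5, c6⟩, _⟩ ⟨x1, x2, rt, hx⟩ hw
    have I1 := step_app (w := w) (ρ := ρ) hG hI (by omega) (by omega) (by omega) (by omega) c6
    exact Done.tail (ih _ _ _ _ _ _ hG.step I1 rt hx (by omega))
  | op o a b hv =>
    intro σ c x k hp m hG hI ⟨c1, c2, ⟨c3, c4, c5, c6⟩, _⟩
      ⟨x1, x2, ⟨a1, a2, a3, a4⟩, ⟨b1, b2, b3, b4⟩⟩ hw
    have I1 := step_op (w := w) (ρ := ρ) o hG hI (by omega) (by omega) (by omega) (by omega)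
      (by omega) (by omega) (by omega) c6 (by rw [a4, b4]; exact hv)
    rw [a4, b4] at I1
    refine Done.one I1 ⟨by omega, by omega, ?_, ?_⟩ (by omega) ⟨by omega, fun i hi => ?_⟩
    · simp
    · simp
    · simp (disch := omega) only [Function.update_of_ne]

end Crest.Agent.N325.Mach
private theorem rz_c12b577cf1 : type_of% @_root_.Crest.Agent.N325.Mach.RV.eq_def := @_root_.Crest.Agent.N325.Mach.RV.eq_def -- L14
private theorem rz_4a83167338 : type_of% @_root_.Crest.Agent.N325.Mach.RV.eq_1 := @_root_.Crest.Agent.N325.Mach.RV.eq_1 -- L14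
end

-- ▼ part N325/M0/Interp4
section

/-!
# N325 / M0: the interpreter loop, building values on the heap
-/

set_option autoImplicit false

namespace Crest.Agent.N325.Mach

open Crest.Agent.R309.RAM

variable {w : ℕ} {ρ : ℕ → ℕ}

theorem loop_exit {c : Cond} {p : Prog} {σ : St} {Q : St → Prop} (hc : c.eval σ) (hQ : Q σ) :
    Runs w ρ (.loop c p) σ 1 Q :=
  ⟨σ, 1, Ex.loop_done hc, le_rfl, hQ⟩

theorem loop_den {c : Cond} {p : Prog} {σ : St} {Q : St → Prop} {n : ℕ} (hl : lf p)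
    (hc : ¬c.eval σ) (h : Runs w ρ (.loop c p) (den w ρ p σ) n Q) :
    Runs w ρ (.loop c p) σ (n + (p.len + 2)) Q := by
  obtain ⟨σ1, t1, e1, b1, rfl⟩ := runs_den w ρ hl σ
  obtain ⟨σ2, t2, e2, b2, hQ⟩ := h
  exact ⟨σ2, _, Ex.loop_step hc e1 e2, by omega, hQ⟩

/-- the interpreter -/
def interp : Prog := .loop (.zero 6) core

/-- the cost of one round -/
def cL : ℕ := core.len + 2

theorem Is.self (σ : St) : Is σ (σ.regs 2) (σ.regs 3) (σ.regs 4) (σ.regs 5) σ.mem :=
  ⟨rfl, rfl, rfl, rfl, rfl⟩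

theorem iter_done {σ : St} {x h : ℕ} {m : ℕ → ℕ} (hG : Good σ) (hI : Is σ 0 x 0 h m) (j : ℕ) :
    Is ((den w ρ core)^[j] σ) 0 x 0 h m := by
  induction j with
  | zero => exact hI
  | succ j ih =>
    rw [Function.iterate_succ_apply']
    exact step_done (hG.iter j) ih

theorem interp_good {y h : ℕ} {m : ℕ → ℕ} : ∀ (j : ℕ) (σ : St), Good σ →
    Is ((den w ρ core)^[j] σ) 0 y 0 h m → j * σ.regs 7 < σ.regs 6 →
    Runs w ρ interp σ (cL * (j + 1) + 1) fun σ' => Is σ' 0 y 0 h m := by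
  have fin : ∀ (j : ℕ) (σ : St), Good σ → Is ((den w ρ core)^[j] σ) 0 y 0 h m → 0 < σ.regs 6 →
      σ.regs 2 = 0 → σ.regs 4 = 0 →
      Runs w ρ interp σ (cL * (j + 1) + 1) fun σ' => Is σ' 0 y 0 h m := by
    intro j σ hG hI h6 h2 h4
    have I0 : Is σ 0 (σ.regs 3) 0 (σ.regs 5) σ.mem := ⟨h2, rfl, h4, rfl, rfl⟩
    have I1 := iter_done (w := w) (ρ := ρ) hG I0 j
    have I2 := step_done (w := w) (ρ := ρ) hG I0
    rw [← I1.x, ← I1.h, ← I1.m, hI.x, hI.h, hI.m] at I2
    refine (loop_den (c := .zero 6) (σ := σ) lf_core (show ¬σ.regs 6 = 0 by omega)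
      (loop_exit (c := .zero 6) (σ := den w ρ core σ) (fuel_done hG h2 h4) I2)).mono ?_ fun _ h => h
    unfold cL
    rw [Nat.mul_succ]
    omega
  intro j
  induction j with
  | zero => exact fun σ hG hI h6 => fin 0 σ hG hI (by omega) hI.c hI.k
  | succ j ih =>
    intro σ hG hI h6
    by_cases hd : σ.regs 2 = 0 ∧ σ.regs 4 = 0
    · exact fin _ σ hG hI (by omega) hd.1 hd.2
    · rw [Function.iterate_succ_apply] at hI
      have e7 : (den w ρ core σ).regs 7 = σ.regs 7 := den_keep lf_core (by decide) σ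
      have := ih _ hG.step hI (by
        rw [fuel_run hd, e7]
        rw [Nat.succ_mul] at h6
        omega)
      refine (loop_den (c := .zero 6) (σ := σ) lf_core (show ¬σ.regs 6 = 0 by omega) this).mono ?_
        fun _ h => h
      unfold cL
      rw [Nat.mul_succ _ (j + 1)]
      omega

theorem interp_any : ∀ (F : ℕ) (σ : St), Good σ → σ.regs 7 = 1 → σ.regs 6 ≤ F →
    Runs w ρ interp σ (cL * F + 1) fun _ => True := by
  intro F
  induction F with
  | zero => exact fun σ _ _ h6 => loop_exit (show σ.regs 6 = 0 by omega) trivial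
  | succ F ih =>
    intro σ hG h7 h6
    by_cases h0 : σ.regs 6 = 0
    · exact (loop_exit (c := .zero 6) (σ := σ) h0 trivial).mono (by omega) fun _ h => h
    · have e7 : (den w ρ core σ).regs 7 = σ.regs 7 := den_keep lf_core (by decide) σ
      have := ih _ (hG.step (w := w) (ρ := ρ)) (e7.trans h7) (by
        by_cases hd : σ.regs 2 = 0 ∧ σ.regs 4 = 0
        · rw [fuel_done hG hd.1 hd.2]; omega
        · rw [fuel_run hd]; omega)
      refine (loop_den (c := .zero 6) (σ := σ) lf_core h0 this).mono ?_ fun _ h => h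
      unfold cL
      rw [Nat.mul_succ]
      omega

/-- evaluation of a term by the interpreter, from an empty continuation -/
theorem interp_ev {t : Tm} {xv yv : V} {n : ℕ} (h : Ev (2 ^ w) t xv yv n) {σ : St}
    {c x hp : ℕ} {m : ℕ → ℕ} (hG : Good σ) (hI : Is σ c x 0 hp m) (hc : RV m hp t.enc c)
    (hx : RV m hp xv x) (hw : hp + 12 * n < 2 ^ w) (hf : 3 * n * σ.regs 7 < σ.regs 6) :
    Runs w ρ interp σ (cL * (3 * n + 1) + 1) fun σ' => ∃ y hp' m', Is σ' 0 y 0 hp' m' ∧
      RV m' hp' yv y ∧ hp' ≤ hp + 12 * n ∧ Ext m hp m' hp' := by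
  obtain ⟨k, hk, h⟩ := h
  obtain ⟨j, hj, y, hp', m', I, r, b, E⟩ := sim (ρ := ρ) h σ c x 0 hp m hG hI hc hx (by omega)
  have h1 : j * σ.regs 7 ≤ 3 * n * σ.regs 7 := Nat.mul_le_mul_right _ (by omega)
  refine (interp_good j σ hG I (by omega)).mono ?_ fun σ' h' => ⟨y, hp', m', h', r, by omega, E⟩
  exact Nat.succ_le_succ (Nat.mul_le_mul_left _ (by omega))

/-- number of cells of a value -/
def sz : V → ℕ
  | .leaf _ => 2
  | .node a b => 2 + sz a + sz b

/-- largest leaf -/
def mx : V → ℕ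
  | .leaf n => n
  | .node a b => max (mx a) (mx b)

/-- code that writes a value at the top of the heap -/
def bld : V → List Op
  | .leaf n => [.store 8 5, .add 15 5 9, .const 14 n, .store 14 15, .add 5 15 9]
  | .node a b => [.add 14 5 10, .store 14 5, .add 15 5 9, .const 14 (2 + sz a), .add 14 5 14,
      .store 14 15, .add 5 15 9] ++ (bld a ++ bld b)

theorem bld_keep {r : ℕ} (h5 : r ≠ 5) (h14 : r ≠ 14) (h15 : r ≠ 15) (v : V) :
    ∀ i ∈ bld v, opKeep r i := by
  induction v with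
  | leaf n => simp [bld, opKeep, h5.symm, h14.symm, h15.symm]
  | node a b iha ihb =>
    intro i hi
    simp only [bld, List.mem_append] at hi
    rcases hi with hi | hi | hi
    · revert i; simp [opKeep, h5.symm, h14.symm, h15.symm]
    · exact iha i hi
    · exact ihb i hi

theorem bld_ok (v : V) : ∀ i ∈ bld v, i.ok 20 := by
  induction v with
  | leaf n => simp [bld, Op.ok]
  | node a b iha ihb =>
    intro i hi
    simp only [bld, List.mem_append] at hi
    rcases hi with hi | hi | hi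
    · revert i; simp [Op.ok]
    · exact iha i hi
    · exact ihb i hi

theorem effs_append (l l' : List Op) (σ : St) :
    effs w ρ (l ++ l') σ = effs w ρ l' (effs w ρ l σ) := List.foldl_append ..

theorem Good.effs {l : List Op} {σ : St} (hG : Good σ) (h8 : ∀ i ∈ l, opKeep 8 i)
    (h9 : ∀ i ∈ l, opKeep 9 i) (h10 : ∀ i ∈ l, opKeep 10 i) : Good (effs w ρ l σ) :=
  ⟨(effs_keep h8 σ).trans hG.zero, (effs_keep h9 σ).trans hG.one, (effs_keep h10 σ).trans hG.two⟩

theorem Good.bld {σ : St} (hG : Good σ) (v : V) : Good (R309.RAM.effs w ρ (bld v) σ) :=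
  hG.effs (bld_keep (by omega) (by omega) (by omega) v) (bld_keep (by omega) (by omega) (by omega) v)
    (bld_keep (by omega) (by omega) (by omega) v)

theorem sz_pos (v : V) : 2 ≤ sz v := by
  cases v <;> simp only [sz] <;> omega

theorem bld_spec (v : V) : ∀ (σ : St) (h : ℕ), Good σ → σ.regs 5 = h → 0 < h →
    h + sz v < 2 ^ w → mx v < 2 ^ w →
    (effs w ρ (bld v) σ).regs 5 = h + sz v ∧ RV (effs w ρ (bld v) σ).mem (h + sz v) v h ∧
      Ext σ.mem h (effs w ρ (bld v) σ).mem (h + sz v) ∧ (effs w ρ (bld v) σ).drawn = σ.drawn := by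
  induction v with
  | leaf n =>
    intro σ h hG h5 h0 hs hm
    simp only [sz, mx] at hs hm
    simp (disch := omega) only [bld, sz, effs_cons, effs_nil, Op.eff, Function.update_apply,
      Nat.reduceEqDiff, ↓reduceIte, h5, hG.zero, hG.one, Nat.mod_eq_of_lt, RV, Ext, true_and,
      and_true]
    refine ⟨⟨h0, by omega, ?_⟩, by omega, fun i hi => ?_⟩
    · rw [if_neg (by omega)]
    · rw [if_neg (by omega), if_neg (by omega)]
  | node a b iha ihb =>
    intro σ h hG h5 h0 hs hm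
    simp only [sz, mx, max_lt_iff] at hs hm
    have ha := sz_pos a
    have hb := sz_pos b
    rw [bld, effs_append, effs_append]
    generalize hσ1 : effs w ρ [.add 14 5 10, .store 14 5, .add 15 5 9, .const 14 (2 + sz a),
      .add 14 5 14, .store 14 15, .add 5 15 9] σ = σ1
    have G1 : Good σ1 := by
      subst hσ1
      exact hG.effs (by simp [opKeep]) (by simp [opKeep]) (by simp [opKeep])
    have k1 : σ1.regs 5 = h + 2 ∧ σ1.mem = Function.update (Function.update σ.mem h (h + 2)) (h + 1)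
        (h + (2 + sz a)) ∧ σ1.drawn = σ.drawn := by
      subst hσ1
      simp (disch := omega) only [effs_cons, effs_nil, Op.eff, Function.update_apply,
        Nat.reduceEqDiff, ↓reduceIte, h5, hG.one, hG.two, Nat.mod_eq_of_lt, and_self]
    obtain ⟨a1, a2, a3, a4⟩ := iha σ1 (h + 2) G1 k1.1 (by omega) (by omega) hm.1
    obtain ⟨b1, b2, b3, b4⟩ := ihb _ _ (G1.bld a) a1 (by omega) (by omega) hm.2
    have E1 : Ext σ.mem h σ1.mem (h + 2) := by
      rw [k1.2.1]
      refine ⟨by omega, fun i hi => ?_⟩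
      simp (disch := omega) only [Function.update_of_ne]
    have e : h + sz (.node a b) = h + 2 + sz a + sz b := by simp only [sz]; omega
    rw [e]
    refine ⟨b1, ⟨h0, by omega, ?_, ?_⟩, (E1.trans a3).trans b3, by rw [b4, a4, k1.2.2]⟩
    · rw [(a3.trans b3).2 h (by omega), k1.2.1, Function.update_of_ne (by omega),
        Function.update_self]
      exact RV.ext b3 a2
    · rw [(a3.trans b3).2 (h + 1) (by omega), k1.2.1, Function.update_self,
        show h + (2 + sz a) = h + 2 + sz a by omega]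
      exact b2

end Crest.Agent.N325.Mach
private theorem rz_efc5f1b774 : type_of% @_root_.Crest.Agent.N325.Mach.bld.eq_def := @_root_.Crest.Agent.N325.Mach.bld.eq_def -- L120
private theorem rz_24e5fd2ae0 : type_of% @_root_.Crest.Agent.N325.Mach.bld.eq_1 := @_root_.Crest.Agent.N325.Mach.bld.eq_1 -- L120
private theorem rz_08d9d89339 : type_of% @_root_.Crest.Agent.N325.Mach.mx.eq_def := @_root_.Crest.Agent.N325.Mach.mx.eq_def -- L115
private theorem rz_04daa06da8 : type_of% @_root_.Crest.Agent.N325.Mach.mx.eq_1 := @_root_.Crest.Agent.N325.Mach.mx.eq_1 -- L115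
private theorem rz_cbf02fd811 : type_of% @_root_.Crest.Agent.N325.Mach.sz.eq_def := @_root_.Crest.Agent.N325.Mach.sz.eq_def -- L110
private theorem rz_2849c4fbcd : type_of% @_root_.Crest.Agent.N325.Mach.sz.eq_1 := @_root_.Crest.Agent.N325.Mach.sz.eq_1 -- L110
end

-- ▼ part N325/M0/Interp5
section

/-!
# N325 / M0: reading a list of words onto the heap, writing a list out
-/

set_option autoImplicit false

namespace Crest.Agent.N325.Mach

open Crest.Agent.R309.RAM

variable {w : ℕ} {ρ : ℕ → ℕ}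

theorem RV_nats {m : ℕ → ℕ} {h : ℕ} : ∀ (l : List ℕ) (b : ℕ), 0 < b → b + 4 * l.length + 2 ≤ h →
    (∀ j (hj : j < l.length), m (b + 4 * j) = b + 4 * j + 2 ∧ m (b + 4 * j + 1) = b + 4 * j + 4 ∧
      m (b + 4 * j + 2) = 0 ∧ m (b + 4 * j + 3) = l[j]) →
    m (b + 4 * l.length) = 0 → m (b + 4 * l.length + 1) = 0 → RV m h (V.nats l) b := by
  intro l
  induction l with
  | nil => exact fun b h0 h1 _ h2 h3 => ⟨h0, by simpa using h1, by simpa using h2, by simpa using h3⟩
  | cons a l ih =>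
    intro b h0 h1 hd h2 h3
    rw [List.length_cons] at h1 h2 h3
    obtain ⟨d1, d2, d3, d4⟩ := hd 0 (by simp)
    simp only [Nat.mul_zero, Nat.add_zero, List.getElem_cons_zero] at d1 d2 d3 d4
    refine ⟨h0, by omega, ?_, ?_⟩
    · rw [d1]
      exact ⟨by omega, by omega, d3, d4⟩
    · rw [d2]
      refine ih (b + 4) (by omega) (by omega) (fun j hj => ?_) ?_ ?_
      · have := hd (j + 1) (by simpa using hj)
        rw [List.getElem_cons_succ, show b + 4 * (j + 1) = b + 4 + 4 * j by omega] at this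
        exact this
      · rw [← h2]; congr 1; omega
      · rw [← h3]; congr 1; omega

/-- one cell of a list; the entry is in register 14 -/
def cell : List Op :=
  [.add 15 5 10, .store 15 5, .add 18 15 10, .add 19 5 9, .store 18 19, .store 8 15, .add 15 15 9,
    .store 14 15, .copy 5 18, .add 16 16 9]

/-- build the list of the values produced by `src`; the length is in register 17 -/
def mkList (src : List Op) : Prog :=
  .seq (.blk [.copy 16 8]) (.seq (.loop (.eq 16 17) (.blk (src ++ cell))) (.blk (bld (.leaf 0))))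

theorem mkList_spec {src : List Op} {val d : ℕ → ℕ} {m0 : ℕ → ℕ} {b L : ℕ}
    (hsrc : ∀ (σ : St) (i : ℕ), i < L → Good σ → σ.regs 16 = i → (∀ a < b, σ.mem a = m0 a) →
      σ.drawn = d i → effs w ρ src σ = ⟨Function.update σ.regs 14 (val i), σ.mem, d (i + 1)⟩)
    {σ : St} (hG : Good σ) (h5 : σ.regs 5 = b) (h17 : σ.regs 17 = L) (hm : σ.mem = m0)
    (hd : σ.drawn = d 0) (h0 : 0 < b) (hw : b + 4 * L + 4 < 2 ^ w) :
    Runs w ρ (mkList src) σ (7 + L * (src.length + 12)) fun σ' => Good σ' ∧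
      σ'.regs 5 = b + 4 * L + 2 ∧ RV σ'.mem (b + 4 * L + 2) (V.nats ((List.range L).map val)) b ∧
      Ext m0 b σ'.mem (b + 4 * L + 2) ∧ σ'.drawn = d L := by
  let I : ℕ → St → Prop := fun k τ => ∃ i, i + k = L ∧ Good τ ∧ τ.regs 5 = b + 4 * i ∧
    τ.regs 16 = i ∧ τ.regs 17 = L ∧ (∀ a < b, τ.mem a = m0 a) ∧ τ.drawn = d i ∧
    ∀ j < i, τ.mem (b + 4 * j) = b + 4 * j + 2 ∧ τ.mem (b + 4 * j + 1) = b + 4 * j + 4 ∧
      τ.mem (b + 4 * j + 2) = 0 ∧ τ.mem (b + 4 * j + 3) = val j
  have hloop := Runs.loop (w := w) (ρ := ρ) (c := .eq 16 17) (p := .blk (src ++ cell))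
    (m := src.length + 10) (I := I) (fun τ ⟨i, h1, _, _, h3, h4, _⟩ => by
      show τ.regs 16 = τ.regs 17
      omega) (fun k τ ⟨i, h1, G, h2, h3, h4, h6, h7, h8⟩ => by
      refine ⟨by show ¬τ.regs 16 = τ.regs 17; omega, ?_⟩
      refine (Runs.blk _ ?_).mono (by simp [cell]) fun _ h => h
      rw [effs_append, hsrc τ i (by omega) G h3 h6 h7]
      obtain ⟨g0, g1, g2⟩ := G
      refine ⟨i + 1, by omega, ?_⟩
      simp (disch := omega) only [cell, effs_cons, effs_nil, Op.eff, Function.update_apply,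
        Nat.reduceEqDiff, ↓reduceIte, h2, h3, h4, g0, g1, g2, Nat.mod_eq_of_lt, true_and]
      refine ⟨⟨?_, ?_, ?_⟩, by omega, fun a ha => ?_, fun j hj => ?_⟩
      · simp only [Function.update_apply, Nat.reduceEqDiff, ↓reduceIte, g0]
      · simp only [Function.update_apply, Nat.reduceEqDiff, ↓reduceIte, g1]
      · simp only [Function.update_apply, Nat.reduceEqDiff, ↓reduceIte, g2]
      · simp (disch := omega) only [if_neg, h6 a ha]
      · by_cases hji : j = i
        · subst hji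
          simp (disch := omega) only [if_neg, if_pos, ↓reduceIte, and_self, true_and]
        · simp (disch := omega) only [if_neg]
          exact h8 j (by omega))
  have s1 : Runs w ρ (.blk [.copy 16 8]) σ 1 (I L) := by
    refine Runs.blk _ ⟨0, by omega, hG.effs (by simp [opKeep]) (by simp [opKeep]) (by simp [opKeep]),
      ?_⟩
    simp only [effs_cons, effs_nil, Op.eff, Function.update_apply, Nat.reduceEqDiff, ↓reduceIte,
      h5, h17, hG.zero, hm, hd, Nat.mul_zero, Nat.add_zero, implies_true, true_and]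
    exact fun j hj => absurd hj (by omega)
  refine (s1.seq fun τ hτ => (hloop L τ hτ).seq (m := 5) fun τ' ⟨i, h1, G, h2, h3, h4, h6, h7, h8⟩ =>
    Runs.blk _ ?_).mono (by rw [show src.length + 10 + 2 = src.length + 12 by omega]; omega)
    fun _ h => h
  obtain rfl : i = L := by omega
  obtain ⟨a1, a2, a3, a4⟩ := bld_spec (w := w) (ρ := ρ) (.leaf 0) τ' (b + 4 * i) G h2 (by omega)
    (by simp only [sz]; omega) (by simp only [mx]; omega)
  simp only [sz] at a1 a2 a3
  refine ⟨G.bld _, a1, RV_nats _ b h0 (by simp) (fun j hj => ?_) ?_ ?_,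
    ⟨by omega, fun a ha => (a3.2 a (by omega)).trans (h6 a ha)⟩, a4.trans h7⟩
  · simp only [List.length_map, List.length_range] at hj
    rw [a3.2 _ (by omega), a3.2 _ (by omega), a3.2 _ (by omega), a3.2 _ (by omega),
      List.getElem_map, List.getElem_range]
    exact h8 j hj
  · simpa using a2.2.2.1
  · simpa using a2.2.2.2

/-- one round of the output loop -/
def outB : Prog :=
  .seq (.blk [.load 14 3]) (.ite (.zero 14) (.blk [.copy 6 8])
    (.blk [.add 14 14 9, .load 14 14, .store 14 5, .add 5 5 9, .add 0 0 9, .add 3 3 9, .load 3 3,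
      .sub 6 6 9]))

theorem lf_outB : lf outB := by simp only [outB, lf, and_self]

theorem len_outB : outB.len = 12 := rfl

theorem out_any : ∀ (F : ℕ) (σ : St), Good σ → σ.regs 6 ≤ F →
    Runs w ρ (.loop (.zero 6) outB) σ (14 * F + 1) fun _ => True := by
  intro F
  induction F with
  | zero => exact fun σ _ h6 => loop_exit (show σ.regs 6 = 0 by omega) trivial
  | succ F ih =>
    intro σ hG h6
    by_cases h0 : σ.regs 6 = 0
    · exact (loop_exit (c := .zero 6) (σ := σ) h0 trivial).mono (by omega) fun _ h => h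
    · have G : Good (den w ρ outB σ) :=
        ⟨(den_keep lf_outB (by decide) σ).trans hG.zero, (den_keep lf_outB (by decide) σ).trans hG.one,
          (den_keep lf_outB (by decide) σ).trans hG.two⟩
      have := ih _ G (by
        by_cases hz : σ.mem (σ.regs 3) = 0 <;>
          simp only [outB, den, Cond.eval, effs_cons, effs_nil, Op.eff, Function.update_apply,
            Nat.reduceEqDiff, ↓reduceIte, hz, hG.zero, hG.one] <;> omega)
      refine (loop_den (c := .zero 6) (σ := σ) lf_outB h0 this).mono ?_ fun _ h => h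
      rw [len_outB]
      omega

theorem out_good {h0 : ℕ} : ∀ (l2 l1 : List ℕ) (σ : St), Good σ → RV σ.mem h0 (V.nats l2) (σ.regs 3) →
    σ.regs 0 = l1.length → σ.regs 5 = h0 + l1.length → l2.length ≤ σ.regs 6 →
    (∀ i (hi : i < l1.length), σ.mem (h0 + i) = l1[i]) → h0 + l1.length + l2.length < 2 ^ w →
    Runs w ρ (.loop (.zero 6) outB) σ (14 * (l2.length + 1) + 1) fun σ' =>
      σ'.regs 0 = (l1 ++ l2).length ∧ ∀ i (hi : i < (l1 ++ l2).length), σ'.mem (h0 + i) = (l1 ++ l2)[i] := by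
  intro l2
  induction l2 with
  | nil =>
    intro l1 σ hG r e0 e5 e6 hm hw
    simp only [List.append_nil]
    by_cases h6 : σ.regs 6 = 0
    · exact (loop_exit (c := .zero 6) (σ := σ) h6 ⟨e0, hm⟩).mono (by omega) fun _ h => h
    · have hz : σ.mem (σ.regs 3) = 0 := r.2.2.1
      refine (loop_den (c := .zero 6) (σ := σ) lf_outB h6 (loop_exit ?_ ?_)).mono
        (by rw [len_outB]; simp) fun _ h => h
      · simp only [outB, den, Cond.eval, effs_cons, effs_nil, Op.eff, Function.update_apply,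
          Nat.reduceEqDiff, ↓reduceIte, hz, hG.zero]
      · simp only [outB, den, Cond.eval, effs_cons, effs_nil, Op.eff, Function.update_apply,
          Nat.reduceEqDiff, ↓reduceIte, hz, hG.zero]
        exact ⟨e0, hm⟩
  | cons a l2 ih =>
    intro l1 σ hG ⟨r1, r2, ⟨r3, r4, r5, r6⟩, r7⟩ e0 e5 e6 hm hw
    rw [List.length_cons] at e6 hw
    have hz : ¬σ.mem (σ.regs 3) = 0 := by omega
    have G : Good (den w ρ outB σ) :=
      ⟨(den_keep lf_outB (by decide) σ).trans hG.zero, (den_keep lf_outB (by decide) σ).trans hG.one,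
        (den_keep lf_outB (by decide) σ).trans hG.two⟩
    have k : (den w ρ outB σ).mem = Function.update σ.mem (h0 + l1.length) a ∧
        (den w ρ outB σ).regs 3 = σ.mem (σ.regs 3 + 1) ∧
        (den w ρ outB σ).regs 0 = l1.length + 1 ∧ (den w ρ outB σ).regs 5 = h0 + l1.length + 1 ∧
        (den w ρ outB σ).regs 6 = σ.regs 6 - 1 := by
      simp (disch := omega) only [outB, den, Cond.eval, effs_cons, effs_nil, Op.eff,
        Function.update_apply, Nat.reduceEqDiff, ↓reduceIte, hz, hG.one, e0, e5, r6,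
        Nat.mod_eq_of_lt, if_neg, and_self]
    obtain ⟨k1, k2, k3, k4, k5⟩ := k
    have := ih (l1 ++ [a]) _ G (by
        rw [k1, k2]
        exact RV.ext ⟨le_rfl, fun i hi => Function.update_of_ne (by omega) _ _⟩ r7)
      (by rw [k3]; simp) (by rw [k4]; simp; omega) (by omega) (by
        intro i hi
        rw [k1]
        simp only [List.length_append, List.length_singleton] at hi
        by_cases hi' : i < l1.length
        · rw [Function.update_of_ne (by omega), List.getElem_append_left hi', hm i hi']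
        · obtain rfl : i = l1.length := by omega
          simp) (by simp; omega)
    simp only [List.append_assoc, List.singleton_append] at this
    refine (loop_den (c := .zero 6) (σ := σ) lf_outB (show ¬σ.regs 6 = 0 by omega) this).mono ?_
      fun _ h => h
    rw [len_outB, List.length_cons]
    omega

end Crest.Agent.N325.Mach
end

-- ▼ part N325/M0/Machine
section

/-!
# N325 / M0: the machine theorem

One word-RAM program evaluates the term `fu` on the input (the fuel `F`), draws `F` random bits,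
evaluates the term `e` on the input and the bits for at most `F` steps and prints the result.
-/

set_option autoImplicit false

namespace Crest.Agent.N325.Mach

open Crest.Agent.R309.RAM Crest.WordRAM

variable {w : ℕ} {ρ : ℕ → ℕ}

/-- the instruction draws no random word -/
def opDet : Op → Prop
  | .rand _ => False
  | _ => True

instance (i : Op) : Decidable (opDet i) := by
  cases i <;> unfold opDet <;> infer_instance

/-- the program draws no random word -/
def det : Prog → Prop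
  | .blk l => ∀ i ∈ l, opDet i
  | .seq p q => det p ∧ det q
  | .ite _ p q => det p ∧ det q
  | .loop _ p => det p

instance detDec : (p : Prog) → Decidable (det p)
  | .blk l => by unfold det; infer_instance
  | .seq p q => by unfold det; exact @instDecidableAnd _ _ (detDec p) (detDec q)
  | .ite _ p q => by unfold det; exact @instDecidableAnd _ _ (detDec p) (detDec q)
  | .loop _ p => by unfold det; exact detDec p

theorem effs_det {l : List Op} (h : ∀ i ∈ l, opDet i) : ∀ σ : St, (effs w ρ l σ).drawn = σ.drawn := by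
  induction l with
  | nil => intro σ; rfl
  | cons i l ih =>
    intro σ
    rw [effs_cons, ih fun j hj => h j (List.mem_cons_of_mem _ hj)]
    have := h i List.mem_cons_self
    cases i <;> first | rfl | exact this.elim

theorem Ex_det {p : Prog} {σ σ' : St} {t : ℕ} (h : Ex w ρ p σ σ' t) :
    det p → σ'.drawn = σ.drawn := by
  induction h with
  | blk l s => exact fun hk => effs_det hk s
  | seq _ _ ih1 ih2 => exact fun hk => (ih2 hk.2).trans (ih1 hk.1)
  | ite_true _ _ ih => exact fun hk => ih hk.1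
  | ite_false _ _ ih => exact fun hk => ih hk.2
  | loop_done _ => exact fun _ => rfl
  | loop_step _ _ _ ih1 ih2 => exact fun hk => (ih2 hk).trans (ih1 hk)

theorem runs_det {p : Prog} {σ : St} {n : ℕ} {Q : St → Prop} (h : Runs w ρ p σ n Q) (hd : det p) :
    Runs w ρ p σ n fun σ' => Q σ' ∧ σ'.drawn = σ.drawn := by
  obtain ⟨σ', t, h1, h2, h3⟩ := h
  exact ⟨σ', t, h1, h2, h3, Ex_det h1 hd⟩

theorem Good.of_keep {p : Prog} {σ σ' : St} (hG : Good σ)
    (h : ∀ r, keep r p → σ'.regs r = σ.regs r) (h8 : keep 8 p) (h9 : keep 9 p) (h10 : keep 10 p) :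
    Good σ' :=
  ⟨(h 8 h8).trans hG.zero, (h 9 h9).trans hG.one, (h 10 h10).trans hG.two⟩

/-- read the input, write the two terms -/
def ph1 (e fu : Tm) : Prog :=
  .seq (.blk [.const 8 0, .const 9 1, .const 10 2, .add 5 0 9, .copy 17 0, .copy 11 5])
    (.seq (mkList [.load 14 16]) (.seq (.blk [.copy 2 5]) (.seq (.blk (bld fu.enc))
      (.seq (.blk [.copy 13 5]) (.seq (.blk (bld e.enc))
        (.blk [.copy 3 11, .copy 4 8, .copy 6 9, .copy 7 8]))))))

/-- draw the tape -/
def ph2 : Prog :=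
  .seq (.blk [.add 12 3 9, .load 12 12, .copy 17 12, .copy 3 5])
    (.seq (mkList [.rand 14, .rem 14 14 10])
      (.blk [.store 11 5, .add 15 5 9, .store 3 15, .copy 3 5, .add 5 15 9, .copy 2 13, .copy 4 8,
        .add 6 12 12, .add 6 6 12, .add 6 6 9, .copy 7 9]))

/-- print -/
def ph3 : Prog := .seq (.blk [.copy 1 5, .copy 0 8, .copy 6 12]) (.loop (.zero 6) outB)

/-- the whole program -/
def whole (e fu : Tm) : Prog := .seq (.seq (ph1 e fu) (.seq interp ph2)) (.seq interp ph3)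

theorem whole_ok (e fu : Tm) : (whole e fu).ok 20 :=
  ⟨⟨⟨by decide, by decide, by decide, bld_ok _, by decide, bld_ok _, by decide⟩, by decide,
    by decide⟩, by decide⟩

/-- the initial state -/
def st0 (w : ℕ) (inp : List ℕ) : St :=
  ⟨fun j => if j = 0 then inp.length % 2 ^ w else 0, fun i => inp[i]?.getD 0 % 2 ^ w, 0⟩

theorem ph1_spec (e fu : Tm) {inp : List ℕ} (hin : ∀ a ∈ inp, a < 2 ^ w)
    (hw : 5 * inp.length + 5 + sz fu.enc + sz e.enc < 2 ^ w) (h1 : mx fu.enc < 2 ^ w)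
    (h2 : mx e.enc < 2 ^ w) :
    Runs w ρ (ph1 e fu) (st0 w inp)
      (13 * inp.length + (bld fu.enc).length + (bld e.enc).length + 19) fun σ => Good σ ∧
      σ.regs 4 = 0 ∧ σ.regs 5 = 5 * inp.length + 3 + sz fu.enc + sz e.enc ∧
      RV σ.mem (σ.regs 5) fu.enc (σ.regs 2) ∧ RV σ.mem (σ.regs 5) e.enc (σ.regs 13) ∧
      RV σ.mem (σ.regs 5) (V.nats inp) (σ.regs 11) ∧ σ.regs 3 = σ.regs 11 ∧ σ.regs 6 = 1 ∧
      σ.regs 7 = 0 ∧ σ.drawn = 0 := by
  have s1 : Runs w ρ (.blk [.const 8 0, .const 9 1, .const 10 2, .add 5 0 9, .copy 17 0, .copy 11 5])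
      (st0 w inp) 6 fun σ => Good σ ∧ σ.regs 5 = inp.length + 1 ∧ σ.regs 17 = inp.length ∧
        σ.regs 11 = inp.length + 1 ∧ σ.mem = (st0 w inp).mem ∧ σ.drawn = 0 := by
    refine Runs.blk _ ⟨⟨?_, ?_, ?_⟩, ?_⟩ <;>
      simp (disch := omega) only [st0, effs_cons, effs_nil, Op.eff, Function.update_apply,
        Nat.reduceEqDiff, ↓reduceIte, Nat.mod_eq_of_lt, and_self]
  have hval : (List.range inp.length).map (fun i => inp[i]?.getD 0) = inp := by
    apply List.ext_getElem (by simp)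
    intro i h1 h2
    simp [List.getElem?_eq_getElem h2]
  refine (s1.seq fun σ1 ⟨G1, a5, a17, a11, am, ad⟩ => (Runs.keep (mkList_spec (src := [.load 14 16])
    (val := fun i => inp[i]?.getD 0) (d := fun _ => 0) (m0 := (st0 w inp).mem) (b := inp.length + 1)
    (L := inp.length) ?_ G1 a5 a17 am ad (by omega) (by omega))).seq
    (m := 1 + ((bld fu.enc).length + (1 + ((bld e.enc).length + 4))))
    fun σ2 ⟨⟨G2, b5, br, _, bd⟩, bk⟩ => ?_).mono
      (by simp only [List.length_cons, List.length_nil]; omega) fun _ h => h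
  · intro σ i hi _ h16 hm hd
    simp only [effs_cons, effs_nil, Op.eff, h16, hm i (by omega), st0, hd]
    rw [Nat.mod_eq_of_lt]
    rw [List.getElem?_eq_getElem hi]
    exact hin _ (List.getElem_mem hi)
  rw [hval] at br
  have b11 : σ2.regs 11 = inp.length + 1 := (bk 11 (by decide)).trans a11
  refine (Runs.blk _ (Q := fun σ => σ = _) rfl).seq fun σ3 e3 => ?_
  have G3 : Good σ3 := e3 ▸ G2.effs (by decide) (by decide) (by decide)
  have c : σ3.regs 2 = σ2.regs 5 ∧ σ3.regs 5 = σ2.regs 5 ∧ σ3.regs 11 = σ2.regs 11 ∧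
      σ3.mem = σ2.mem ∧ σ3.drawn = σ2.drawn := by
    subst e3
    simp only [effs_cons, effs_nil, Op.eff, Function.update_apply, Nat.reduceEqDiff, ↓reduceIte,
      and_self]
  obtain ⟨c2, c5, c11, cm, cd⟩ := c
  obtain ⟨d5, dr, dE, dd⟩ := bld_spec (w := w) (ρ := ρ) fu.enc σ3 _ G3 (c5.trans b5) (by omega)
    (by omega) h1
  refine (Runs.blk _ (Q := fun σ => σ = _) rfl).seq fun σ4 e4 => ?_
  have G4 : Good σ4 := e4 ▸ G3.bld _
  have d2 : σ4.regs 2 = σ3.regs 2 := e4 ▸ effs_keep (bld_keep (by omega) (by omega) (by omega) _) _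
  have d11 : σ4.regs 11 = σ3.regs 11 := e4 ▸ effs_keep (bld_keep (by omega) (by omega) (by omega) _) _
  rw [← e4] at d5 dr dE dd
  refine (Runs.blk _ (Q := fun σ => σ = _) rfl).seq fun σ5 e5 => ?_
  have G5 : Good σ5 := e5 ▸ G4.effs (by decide) (by decide) (by decide)
  have f : σ5.regs 13 = σ4.regs 5 ∧ σ5.regs 5 = σ4.regs 5 ∧ σ5.regs 11 = σ4.regs 11 ∧
      σ5.regs 2 = σ4.regs 2 ∧ σ5.mem = σ4.mem ∧ σ5.drawn = σ4.drawn := by
    subst e5
    simp only [effs_cons, effs_nil, Op.eff, Function.update_apply, Nat.reduceEqDiff, ↓reduceIte,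
      and_self]
  obtain ⟨f13, f5, f11, f2, fm, fd⟩ := f
  obtain ⟨g5, gr, gE, gd⟩ := bld_spec (w := w) (ρ := ρ) e.enc σ5 _ G5 (f5.trans d5) (by omega)
    (by omega) h2
  refine (Runs.blk _ (Q := fun σ => σ = _) rfl).seq fun σ6 e6 => ?_
  have G6 : Good σ6 := e6 ▸ G5.bld _
  have g2 : σ6.regs 2 = σ5.regs 2 := e6 ▸ effs_keep (bld_keep (by omega) (by omega) (by omega) _) _
  have g11 : σ6.regs 11 = σ5.regs 11 := e6 ▸ effs_keep (bld_keep (by omega) (by omega) (by omega) _) _
  have g13 : σ6.regs 13 = σ5.regs 13 := e6 ▸ effs_keep (bld_keep (by omega) (by omega) (by omega) _) _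
  rw [← e6] at g5 gr gE gd
  rw [fm] at gE
  rw [cm] at dE
  refine Runs.blk _ ⟨G6.effs (by decide) (by decide) (by decide), ?_⟩
  simp only [effs_cons, effs_nil, Op.eff, Function.update_apply, Nat.reduceEqDiff, ↓reduceIte,
    G6.zero, G6.one, true_and, g5]
  refine ⟨by omega, ?_, ?_, ?_, by omega⟩
  · rw [g2, f2, d2, c2, b5]
    exact RV.ext gE dr
  · rw [g13, f13, d5]
    exact gr
  · rw [g11, f11, d11, c11, b11]
    exact RV.ext (dE.trans gE) br

theorem ph2_spec {σ : St} {F y h : ℕ} {ev iv : V} (hG : Good σ) (hI : Is σ 0 y 0 h σ.mem)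
    (ry : RV σ.mem h (.leaf F) y) (re : RV σ.mem h ev (σ.regs 13)) (ri : RV σ.mem h iv (σ.regs 11))
    (hd : σ.drawn = 0) (hw : h + 4 * F + 6 < 2 ^ w) :
    Runs w ρ ph2 σ (14 * F + 22) fun σ' => Good σ' ∧ σ'.regs 4 = 0 ∧ σ'.regs 5 = h + 4 * F + 4 ∧
      RV σ'.mem (σ'.regs 5) ev (σ'.regs 2) ∧
      RV σ'.mem (σ'.regs 5) (.node iv (V.nats (tapeBits ρ F))) (σ'.regs 3) ∧
      σ'.regs 6 = 3 * F + 1 ∧ σ'.regs 7 = 1 ∧ σ'.regs 12 = F := by
  obtain ⟨y1, y2, y3, y4⟩ := ry
  have hw1 : w ≠ 0 := by rintro rfl; omega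
  have s1 : Runs w ρ (.blk [.add 12 3 9, .load 12 12, .copy 17 12, .copy 3 5]) σ 4 fun τ =>
      Good τ ∧ τ.regs 5 = h ∧ τ.regs 17 = F ∧ τ.regs 12 = F ∧ τ.regs 3 = h ∧
      τ.regs 11 = σ.regs 11 ∧ τ.regs 13 = σ.regs 13 ∧ τ.mem = σ.mem ∧ τ.drawn = 0 := by
    refine Runs.blk _ ⟨hG.effs (by decide) (by decide) (by decide), ?_⟩
    simp (disch := omega) only [effs_cons, effs_nil, Op.eff, Function.update_apply,
      Nat.reduceEqDiff, ↓reduceIte, Nat.mod_eq_of_lt, hI.x, hI.h, hG.one, y4, hd, and_self]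
  refine (s1.seq fun σ1 ⟨G1, a5, a17, a12, a3, a11, a13, am, ad⟩ => (Runs.keep (mkList_spec
    (src := [.rand 14, .rem 14 14 10]) (val := fun i => ρ i % 2) (d := fun i => i) (m0 := σ.mem)
    (b := h) (L := F) ?_ G1 a5 a17 am ad (by omega) (by omega))).seq (m := 11)
    fun σ2 ⟨⟨G2, b5, br, bE, bd⟩, bk⟩ => ?_).mono
      (by simp only [List.length_cons, List.length_nil]; omega) fun _ h => h
  · intro τ i hi G h16 hm hd
    simp only [effs_cons, effs_nil, Op.eff, hd, Function.update_self, Function.update_idem]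
    rw [Function.update_of_ne (by omega), G.two,
      Nat.mod_mod_of_dvd _ (dvd_pow_self 2 hw1)]
  have b3 : σ2.regs 3 = h := (bk 3 (by decide)).trans a3
  have b11 : σ2.regs 11 = σ.regs 11 := (bk 11 (by decide)).trans a11
  have b12 : σ2.regs 12 = F := (bk 12 (by decide)).trans a12
  have b13 : σ2.regs 13 = σ.regs 13 := (bk 13 (by decide)).trans a13
  refine Runs.blk _ ⟨G2.effs (by decide) (by decide) (by decide), ?_⟩
  simp (disch := omega) only [effs_cons, effs_nil, Op.eff, Function.update_apply,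
    Nat.reduceEqDiff, ↓reduceIte, Nat.mod_eq_of_lt, G2.zero, G2.one, b3, b5, b11, b12, b13,
    true_and, and_true]
  have E : Ext σ2.mem (h + 4 * F + 2) (Function.update (Function.update σ2.mem (h + 4 * F + 2)
      (σ.regs 11)) (h + 4 * F + 2 + 1) h) (h + 4 * F + 2 + 1 + 1) := by
    refine ⟨by omega, fun i hi => ?_⟩
    simp (disch := omega) only [Function.update_of_ne]
  refine ⟨RV.ext (bE.trans E) re, ⟨by omega, by omega, ?_, ?_⟩, by omega⟩
  · rw [Function.update_of_ne (by omega), Function.update_self]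
    exact RV.ext (bE.trans E) ri
  · rw [Function.update_self]
    exact RV.ext E br

end Crest.Agent.N325.Mach
private theorem rz_2939b1964b : type_of% @_root_.Crest.Agent.N325.Mach.det.eq_def := @_root_.Crest.Agent.N325.Mach.det.eq_def -- L27
end

-- ▼ part N325/M0/Machine2
section

/-!
# N325 / M0: the machine theorem, statement
-/

set_option autoImplicit false

namespace Crest.Agent.N325

namespace Mach

open Crest.Agent.R309.RAM Crest.WordRAM

variable {w : ℕ} {ρ : ℕ → ℕ}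

theorem ph3_any {σ : St} {F : ℕ} (hG : Good σ) (h12 : σ.regs 12 = F) :
    Runs w ρ ph3 σ (14 * F + 4) fun _ => True := by
  refine ((Runs.blk _ (Q := fun σ => σ = _) rfl).seq fun σ1 e1 => out_any F σ1
    (e1 ▸ hG.effs (by decide) (by decide) (by decide)) ?_).mono
    (by simp only [List.length_cons, List.length_nil]; omega) fun _ h => h
  subst e1
  simp only [effs_cons, effs_nil, Op.eff, Function.update_apply, Nat.reduceEqDiff, ↓reduceIte, h12,
    le_refl]

theorem ph3_good {σ : St} {F : ℕ} {out : List ℕ} (hG : Good σ) (h12 : σ.regs 12 = F)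
    (r : RV σ.mem (σ.regs 5) (V.nats out) (σ.regs 3)) (hl : out.length ≤ F)
    (hw : σ.regs 5 + F < 2 ^ w) :
    Runs w ρ ph3 σ (14 * F + 18) fun σ' =>
      (List.range (σ'.regs 0)).map (fun i => σ'.mem (σ'.regs 1 + i)) = out := by
  refine ((Runs.blk _ (Q := fun σ => σ = _) rfl).seq (m := 14 * (out.length + 1) + 1)
    fun σ1 e1 => ?_).mono (by simp only [List.length_cons, List.length_nil]; omega) fun _ h => h
  have G1 : Good σ1 := e1 ▸ hG.effs (by decide) (by decide) (by decide)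
  have k : σ1.regs 0 = 0 ∧ σ1.regs 1 = σ.regs 5 ∧ σ1.regs 3 = σ.regs 3 ∧ σ1.regs 5 = σ.regs 5 ∧
      σ1.regs 6 = F ∧ σ1.mem = σ.mem := by
    subst e1
    simp only [effs_cons, effs_nil, Op.eff, Function.update_apply, Nat.reduceEqDiff, ↓reduceIte, h12,
      hG.zero, and_self]
  obtain ⟨k0, k1, k3, k5, k6, km⟩ := k
  refine (Runs.keep (out_good (h0 := σ.regs 5) out [] σ1 G1 (by rw [km, k3]; exact r) k0 k5
    (by omega) (fun i hi => absurd hi (by simp)) (by simp; omega))).mono le_rfl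
    fun σ2 ⟨⟨a0, am⟩, ak⟩ => ?_
  simp only [List.nil_append] at a0 am
  rw [a0, ak 1 (by decide), k1]
  apply List.ext_getElem (by simp)
  intro i h1 h2
  simp [am i h2]

/-- the program -/
def prog (e fu : Tm) : Program := ⟨20, (whole e fu).comp 20 0⟩

theorem run_prog {e fu : Tm} {inp : List ℕ} {n : ℕ} {Q : St → Prop}
    (h : Runs w ρ (whole e fu) (st0 w inp) n Q) {T : ℕ} (hT : n + 1 ≤ T) :
    (run (prog e fu) w ρ inp T).halted = true ∧ ∃ σ, Q σ ∧ (run (prog e fu) w ρ inp T).output =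
      (List.range (σ.regs 0)).map fun i => σ.mem (σ.regs 1 + i) := by
  obtain ⟨σ, t, h1, h2, h3⟩ := h
  haveI : NeZero (prog e fu).numRegs := ⟨by show (20 : ℕ) ≠ 0; omega⟩
  have h4 := Ex.run (P := prog e fu) h1 (o := 0) (whole_ok e fu) (At.self _)
  have h0 : init (prog e fu) w inp = cfg 20 0 (st0 w inp) := rfl
  have h5 : step (prog e fu) w ρ (cfg 20 (0 + (whole e fu).len) σ) =
      { cfg 20 (0 + (whole e fu).len) σ with halted := true } := by
    have : (prog e fu).code[0 + (whole e fu).len]? = none := by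
      rw [List.getElem?_eq_none_iff]
      show ((whole e fu).comp 20 0).length ≤ _
      rw [Prog.length_comp]
      omega
    unfold step
    simp only [cfg, Bool.false_eq_true, if_false, this]
  have h6 : ∀ k, run (prog e fu) w ρ inp (k + (1 + t)) =
      { cfg 20 (0 + (whole e fu).len) σ with halted := true } := by
    intro k
    unfold run
    rw [Function.iterate_add_apply, Function.iterate_add_apply, h0]
    erw [h4]
    rw [Function.iterate_one]
    erw [h5]
    exact Function.iterate_fixed rfl k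
  obtain ⟨k, rfl⟩ : ∃ k, T = k + (1 + t) := ⟨T - (1 + t), by omega⟩
  rw [h6]
  exact ⟨rfl, σ, h3, rfl⟩

end Mach

open Mach Crest.Agent.R309.RAM Crest.WordRAM in
/-- **The machine theorem.** -/
theorem machine (e fu : Tm) : ∃ (P : Program) (c : ℕ), ∀ (w : ℕ) (inp : List ℕ) (ρ : ℕ → ℕ)
    (F n0 T : ℕ), (∀ a ∈ inp, a < 2 ^ w) → Ev (2 ^ w) fu (V.nats inp) (.leaf F) n0 →
    c * (inp.length + n0 + F + 1) < 2 ^ w → c * (inp.length + n0 + F + 1) ≤ T →
    (run P w ρ inp T).halted = true ∧ ∀ out : List ℕ,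
      Ev (2 ^ w) e (.node (V.nats inp) (V.nats (tapeBits ρ F))) (V.nats out) F → out.length ≤ F →
      (run P w ρ inp T).output = out := by
  refine ⟨prog e fu, (bld fu.enc).length + (bld e.enc).length + sz fu.enc + sz e.enc + mx fu.enc +
    mx e.enc + 3 * cL + 100, fun w inp ρ F n0 T hin hfu hw hT => ?_⟩
  generalize hc : (bld fu.enc).length + (bld e.enc).length + sz fu.enc + sz e.enc + mx fu.enc +
    mx e.enc + 3 * cL + 100 = c at hw hT
  have e1 : c * (inp.length + n0 + F + 1) = c * inp.length + c * n0 + c * F + c := by ring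
  have e2 : 13 * inp.length ≤ c * inp.length := Nat.mul_le_mul_right _ (by omega)
  have e3 : (3 * cL + 12) * n0 ≤ c * n0 := Nat.mul_le_mul_right _ (by omega)
  have e4 : (3 * cL + 30) * F ≤ c * F := Nat.mul_le_mul_right _ (by omega)
  have e5 : cL * (3 * n0 + 1) = 3 * (cL * n0) + cL := by ring
  have e6 : cL * (3 * F + 1) = 3 * (cL * F) + cL := by ring
  have e7 : (3 * cL + 12) * n0 = 3 * (cL * n0) + 12 * n0 := by ring
  have e8 : (3 * cL + 30) * F = 3 * (cL * F) + 30 * F := by ring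
  have p1 : Runs w ρ (.seq (ph1 e fu) (.seq interp ph2)) (st0 w inp)
      (13 * inp.length + (bld fu.enc).length + (bld e.enc).length + 19 +
        (cL * (3 * n0 + 1) + 1 + (14 * F + 22))) fun σ' => Good σ' ∧ σ'.regs 4 = 0 ∧
      σ'.regs 5 ≤ 5 * inp.length + 7 + sz fu.enc + sz e.enc + 12 * n0 + 4 * F ∧
      RV σ'.mem (σ'.regs 5) e.enc (σ'.regs 2) ∧
      RV σ'.mem (σ'.regs 5) (.node (V.nats inp) (V.nats (tapeBits ρ F))) (σ'.regs 3) ∧
      σ'.regs 6 = 3 * F + 1 ∧ σ'.regs 7 = 1 ∧ σ'.regs 12 = F := by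
    refine (ph1_spec e fu hin (by omega) (by omega) (by omega)).seq
      fun σ1 ⟨G1, a4, a5, rf, re, ri, a3, a6, a7, ad⟩ => ?_
    refine (runs_det (Runs.keep (interp_ev hfu G1 ⟨rfl, a3, a4, rfl, rfl⟩ rf ri (by omega)
      (by rw [a7, a6]; omega))) (by decide)).seq fun σ2 ⟨⟨⟨y, hp, m, I, ry, b, E⟩, k⟩, d⟩ => ?_
    obtain rfl := I.m
    refine (ph2_spec (G1.of_keep k (by decide) (by decide) (by decide)) I ry
      (by rw [k 13 (by decide)]; exact RV.ext E re) (by rw [k 11 (by decide)]; exact RV.ext E ri)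
      (d.trans ad) (by omega)).mono le_rfl fun σ3 ⟨G3, c4, c5, r1, r2, c6⟩ =>
        ⟨G3, c4, by omega, r1, r2, c6⟩
  refine ⟨(run_prog (Q := fun _ => True) (p1.seq (m := cL * (3 * F + 1) + 1 + (14 * F + 4))
    fun σ3 ⟨G3, c4, c5, r1, r2, c6, c7, c12⟩ => ?_) (by omega)).1, fun out hout hl => ?_⟩
  · exact (Runs.keep (interp_any (3 * F + 1) σ3 G3 c7 c6.le)).seq fun σ4 ⟨_, k⟩ =>
      ph3_any (G3.of_keep k (by decide) (by decide) (by decide)) ((k 12 (by decide)).trans c12)
  · obtain ⟨_, σ, h1, h2⟩ := run_prog (T := T) (p1.seq (m := cL * (3 * F + 1) + 1 + (14 * F + 18))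
      fun σ3 ⟨G3, c4, c5, r1, r2, c6, c7, c12⟩ => (Runs.keep (interp_ev hout G3
        ⟨rfl, rfl, c4, rfl, rfl⟩ r1 r2 (by omega) (by rw [c7, c6]; omega))).seq
        fun σ4 ⟨⟨y, hp, m, I, ry, b, E⟩, k⟩ =>
          ph3_good (G3.of_keep k (by decide) (by decide) (by decide))
            ((k 12 (by decide)).trans c12) (by rw [I.m, I.h, I.x]; exact ry) hl
            (by rw [I.h]; omega)) (by omega)
    rw [h2, h1]

end Crest.Agent.N325
end

-- ▼ part N325/M0/Top
section

/-!
# N325 / M0 (helper34): **the wrapper** `goal_of`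
-/

set_option autoImplicit false

namespace Crest.Agent.N325

open Crest.GraphRAM

theorem machineThm : MachineThm := fun e fu => by
  obtain ⟨P, c, h⟩ := machine e fu
  exact ⟨P, c, fun w inp F n0 h1 h2 h3 ρ => h w inp ρ F n0 _ h3 h1 h2 le_rfl⟩

/-- the body of the loop of `lg2` -/
def lgB : ℕ × ℕ × ℕ → R (ℕ × ℕ) := fun p =>
  if p.1 = 0 then .ret p.2 else if 1 < p.2.1 then
    whileF (fun s : ℕ × ℕ => decide (1 < s.1)) (fun s => pure (s.1 / 2, s.2 + 1)) (p.1 - 1)
      (p.2.1 / 2, p.2.2 + 1)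
  else .ret p.2

theorem lgB_eq (n : ℕ) (s : ℕ × ℕ) :
    whileF (fun s : ℕ × ℕ => decide (1 < s.1)) (fun s => pure (s.1 / 2, s.2 + 1)) n s =
      call lgB (n, s) := by
  cases n with
  | zero => rfl
  | succ n =>
    rw [call, lgB, whileF]
    simp only [R.pure_bind', decide_eq_true_eq, Nat.add_eq_zero_iff, one_ne_zero, and_false,
      if_false, Nat.add_sub_cancel]

theorem impl_lgB : Impl lgB :=
  Impl.fix0 (fun g p => if p.1 = 0 then .ret p.2 else if 1 < p.2.1 then
    call g (p.1 - 1, p.2.1 / 2, p.2.2 + 1) else .ret p.2) (fun p => by rw [lgB, lgB_eq])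
    (by fun_prop)

@[fun_prop] theorem impl_lg2 {α : Type} [Rp α] {x : α → ℕ} (h : Pu true x) :
    Impl fun a => lg2 (x a) := by
  have := impl_lgB
  refine Impl.comp (g := lg2) ?_ h
  unfold lg2
  simp only [lgB_eq]
  refine Impl.bind (Impl.call_known ?_) ?_ <;> fun_prop

theorem impl_fuel {fu : List ℕ → R ℕ} (h : Impl fu) (a b : ℕ) : Impl (fuel fu a b) := by
  unfold fuel
  fun_prop

/-- **the wrapper**: an implementable algorithm, an implementable program `fu` (without samples)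
computing a number between the cost bound `Fu N` and an almost linear function `Fu' N` -/
theorem goal_of (alg : List ℕ → R (List ℕ)) (fu : List ℕ → R ℕ) (Fu Fu' : ℕ → ℕ) (c : ℕ)
    (ha : Impl alg) (hf : Impl fu) (hF : AL Fu')
    (h : ∀ (n : ℕ) (G : SimpleGraph (Fin n)) (adj : Fin n → List (Fin n)), 1 ≤ n →
      (∀ v, (adj v).Nodup ∧ ∀ u, u ∈ adj v ↔ G.Adj v u) →
      (Sp ⟨(sizeN n adj + 2) ^ c, -1⟩ (fu (adjInput n adj)) fun F t =>
        Fu (sizeN n adj) ≤ F ∧ F ≤ Fu' (sizeN n adj) ∧ t ≤ Fu' (sizeN n adj)) ∧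
      Sp ⟨(sizeN n adj + 2) ^ c, 1 / (3 * ((Fu (sizeN n adj) : ℝ) + 1))⟩ (alg (adjInput n adj))
        fun out t => IsMaxMatchingOutput G out ∧ t ≤ Fu (sizeN n adj)) : Goal :=
  goal_of_aux machineThm alg fu Fu Fu' c ha (impl_fuel hf) hF h

end Crest.Agent.N325
end

-- ▼ part N325/M0/Std1
section

/-!
# N325 / M0 (helper34): the wrapper for large inputs, modulo the implementation of the fuel
-/

set_option autoImplicit false

namespace Crest.Agent.N325

open Crest.GraphRAM Filter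

/-- small inputs are solved by the slow algorithm -/
def sw (N0 : ℕ) (slow alg : List ℕ → R (List ℕ)) (inp : List ℕ) : R (List ℕ) := do
  let N ← sizeR inp
  if N < N0 then slow inp else alg inp

theorem goal_ev_aux (h1 : Impl sizeR) (h2 : ∀ C, Impl (fuStd C))
    (slow alg : List ℕ → R (List ℕ)) (S G : ℕ → ℕ) (c : ℕ) (hs : Impl slow) (ha : Impl alg)
    (hG : SubQ G)
    (hslow : ∀ (n : ℕ) (Γ : SimpleGraph (Fin n)) (adj : Fin n → List (Fin n)), 1 ≤ n →
      (∀ v, (adj v).Nodup ∧ ∀ u, u ∈ adj v ↔ Γ.Adj v u) →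
      Sp ⟨S (sizeN n adj), -1⟩ (slow (adjInput n adj))
        fun out t => IsMaxMatchingOutput Γ out ∧ t ≤ S (sizeN n adj))
    (halg : ∀ᶠ N : ℕ in atTop, ∀ (n : ℕ) (Γ : SimpleGraph (Fin n)) (adj : Fin n → List (Fin n)),
      1 ≤ n → (∀ v, (adj v).Nodup ∧ ∀ u, u ∈ adj v ↔ Γ.Adj v u) → sizeN n adj = N →
      Sp ⟨(N + 2) ^ c, 1 / ((N : ℝ) + 2) ^ 3⟩ (alg (adjInput n adj))
        fun out t => IsMaxMatchingOutput Γ out ∧ t ≤ N * G N) : Goal := by
  obtain ⟨N0, hN0⟩ := eventually_atTop.1 ((halg.and hG.le).and (subP_rt_lam.neg 4))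
  let C : ℕ := (∑ N ∈ Finset.range N0, (S N + (2 * N + 4))) + 11
  have hF : AL fun N => C * (N * rt (lam N) N) := AL.mul_left (SubP.const C) (AL.id.mul subP_rt_lam)
  obtain ⟨k, hk⟩ := hF.lt_pow
  have hC : 11 ≤ C := Nat.le_add_left _ _
  have hS : ∀ N < N0, S N + (2 * N + 4) ≤ C := fun N h =>
    (Finset.single_le_sum (f := fun N => S N + (2 * N + 4)) (fun _ _ => Nat.zero_le _)
      (Finset.mem_range.2 h)).trans (Nat.le_add_right _ _)
  refine goal_of (sw N0 slow alg) (fuStd C)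
    (fun N => if N < N0 then S N + (2 * N + 4) else 4 * (N * rt (lam N) N)) _ (c + k)
    (by unfold sw; fun_prop) (h2 C) hF fun n Γ adj hn hadj => ?_
  have hN : 1 ≤ sizeN n adj := hn.trans (le_sizeN n adj)
  have s1 := hslow n Γ adj hn hadj
  have s2 := fun h => (hN0 (sizeN n adj) h).1.1 n Γ adj hn hadj rfl
  have s3 := @sp_sizeR
  have s4 := @sp_fuStd ⟨(sizeN n adj + 2) ^ (c + k), -1⟩ C n adj
  replace s3 := fun g => @s3 g n adj
  generalize sizeN n adj = N at *
  have r2 := two_le_rt (lam N) N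
  have k1 := hk N hN
  have k2 : (N + 2) ^ k ≤ (N + 2) ^ (c + k) := Nat.pow_le_pow_right (by omega) (by omega)
  have k3 : (N + 2) ^ c ≤ (N + 2) ^ (c + k) := Nat.pow_le_pow_right (by omega) (by omega)
  have k4 : N * 2 ≤ N * rt (lam N) N := Nat.mul_le_mul_left _ r2
  have k5 := Nat.mul_le_mul_right (N * rt (lam N) N) hC
  have k6 : C * 1 ≤ C * (N * rt (lam N) N) := Nat.mul_le_mul_left _ (by omega)
  have k7 := hS N
  dsimp only at *
  refine ⟨(s4 (by omega) (by omega)).mono fun F t h => ⟨?_, h.1.le, by omega⟩,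
    (s3 _).bind fun M t h => ?_⟩
  · split_ifs with e
    · have := k7 e; omega
    · omega
  · rw [h.1]
    split_ifs with e
    · have := k7 e
      exact (s1.gl (by dsimp only; omega) (neg_one_lt_zero.le.trans (by positivity))).mono
        fun out s q => ⟨q.1, by omega⟩
    · obtain ⟨⟨_, q1⟩, q2⟩ := hN0 N (by omega)
      have q3 := Nat.mul_le_mul_left N q1
      refine ((s2 (by omega)).gl k3 (one_div_le_one_div_of_le (by positivity) ?_)).mono
        fun out s q => ⟨q.1, by omega⟩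
      have q4 : 3 * (4 * (N * rt (lam N) N) + 1) ≤ (N + 2) ^ 3 := by
        have := Nat.mul_le_mul_left N q2
        nlinarith [Nat.zero_le (N ^ 3)]
      exact_mod_cast q4

end Crest.Agent.N325
end

-- ▼ part N325/M0/Std

/-!
# N325 / M0 (helper34): **the wrapper for large inputs** `goal_ev`
-/

set_option autoImplicit false

namespace Crest.Agent.N325

open Crest.GraphRAM Filter

variable {α : Type} [Rp α]

/-- the body of the loop counting a list -/
def lenB : List ℕ × ℕ → R ℕ := fun p =>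
  List.casesOn p.1 (.ret p.2) fun _ l => foldP (fun _ s => s + 1) l (p.2 + 1)

theorem lenB_eq (l : List ℕ) (s : ℕ) : foldP (fun _ s => s + 1) l s = call lenB (l, s) := by
  cases l <;> rfl

theorem impl_lenB : Impl lenB :=
  Impl.fix0 (fun g p => List.casesOn p.1 (.ret p.2) fun _ l => call g (l, p.2 + 1))
    (fun p => by simp only [lenB, lenB_eq]) (by fun_prop)

@[fun_prop] theorem impl_sizeR {x : α → List ℕ} (h : Pu true x) : Impl fun a => sizeR (x a) := by
  have := impl_lenB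
  refine Impl.comp (g := sizeR) ?_ h
  unfold sizeR lenL
  simp only [lenB_eq]
  refine Impl.bind (Impl.call_known ?_) ?_ <;> fun_prop

/-- the body of the loop of `powR` -/
def powB : ℕ × ℕ × ℕ × ℕ → R ℕ := fun p =>
  Nat.casesOn p.2.1 (.ret p.2.2.2) fun n =>
    nat (p.2.2.2 * p.1) >>= forN (fun _ s => nat (s * p.1)) n (p.2.2.1 + 1)

theorem powB_eq (a n i : ℕ) :
    forN (fun _ s => nat (s * a)) n i = fun s => call powB (a, n, i, s) := by
  funext s
  cases n <;> rfl

theorem impl_powB : Impl powB :=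
  Impl.fix0 (fun g p => Nat.casesOn p.2.1 (.ret p.2.2.2) fun n =>
    nat (p.2.2.2 * p.1) >>= fun s => call g (p.1, n, p.2.2.1 + 1, s))
    (fun p => by simp only [powB, powB_eq]) (by fun_prop)

@[fun_prop] theorem impl_powR {x k : α → ℕ} (hx : Pu true x) (hk : Pu true k) :
    Impl fun a => powR (x a) (k a) := by
  have := impl_powB
  unfold powR
  simp only [powB_eq]
  refine Impl.call_known ?_
  fun_prop

@[fun_prop] theorem impl_levR {x : α → ℕ} (h : Pu true x) : Impl fun a => levR (x a) := by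
  unfold levR; fun_prop

@[fun_prop] theorem impl_lamR {x : α → ℕ} (h : Pu true x) : Impl fun a => lamR (x a) := by
  unfold lamR; fun_prop

@[fun_prop] theorem impl_rtR {x y : α → ℕ} (hx : Pu true x) (hy : Pu true y) :
    Impl fun a => rtR (x a) (y a) := by
  unfold rtR; fun_prop

@[fun_prop] theorem impl_clg2 {x : α → ℕ} (h : Pu true x) : Impl fun a => clg2 (x a) := by
  unfold clg2; fun_prop

theorem impl_fuStd (C : ℕ) : Impl (fuStd C) := by
  unfold fuStd; fun_prop

/-- **the wrapper for large inputs**: a slow exact algorithm without samples (any cost), and an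
algorithm that is correct and fast on all large inputs -/
theorem goal_ev (slow alg : List ℕ → R (List ℕ)) (S G : ℕ → ℕ) (c : ℕ) (hs : Impl slow)
    (ha : Impl alg) (hG : SubQ G)
    (hslow : ∀ (n : ℕ) (Γ : SimpleGraph (Fin n)) (adj : Fin n → List (Fin n)), 1 ≤ n →
      (∀ v, (adj v).Nodup ∧ ∀ u, u ∈ adj v ↔ Γ.Adj v u) →
      Sp ⟨S (sizeN n adj), -1⟩ (slow (adjInput n adj))
        fun out t => IsMaxMatchingOutput Γ out ∧ t ≤ S (sizeN n adj))
    (halg : ∀ᶠ N : ℕ in atTop, ∀ (n : ℕ) (Γ : SimpleGraph (Fin n)) (adj : Fin n → List (Fin n)),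
      1 ≤ n → (∀ v, (adj v).Nodup ∧ ∀ u, u ∈ adj v ↔ Γ.Adj v u) → sizeN n adj = N →
      Sp ⟨(N + 2) ^ c, 1 / ((N : ℝ) + 2) ^ 3⟩ (alg (adjInput n adj))
        fun out t => IsMaxMatchingOutput Γ out ∧ t ≤ N * G N) : Goal :=
  goal_ev_aux (impl_sizeR Pu.id) impl_fuStd slow alg S G c hs ha hG hslow halg

end Crest.Agent.N325
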