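import Crest.Agent.N325.M0.Eta

-- ▼ part N325/M0/Lev
section

/-!
# N325 / M0 (helper34): slowly growing parameters

`lev N → ∞` so slowly that `(log N) ^ 2 ^ 2 ^ (c * lev N) = N ^ o(1)`; `rt L N ≈ N ^ (1 / L)`.
-/

set_option autoImplicit false

namespace Crest.Agent.N325

open Filter

/-- `a = o(b)` -/
def Neg (a b : ℕ → ℕ) : Prop := ∀ k : ℕ, ∀ᶠ N in atTop, k * a N ≤ b N

theorem Neg.mono {a a' b b' : ℕ → ℕ} (h : Neg a b) (ha : ∀ᶠ N in atTop, a' N ≤ a N)
    (hb : ∀ᶠ N in atTop, b N ≤ b' N) : Neg a' b' := fun k => by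
  filter_upwards [h k, ha, hb] with N h1 h2 h3
  exact ((Nat.mul_le_mul_left k h2).trans h1).trans h3

theorem Neg.le {a a' b : ℕ → ℕ} (h : Neg a b) (ha : ∀ N, a' N ≤ a N) : Neg a' b :=
  h.mono (.of_forall ha) (.of_forall fun _ => le_rfl)

theorem Neg.add {a a' b : ℕ → ℕ} (h : Neg a b) (h' : Neg a' b) : Neg (fun N => a N + a' N) b :=
  fun k => by
    filter_upwards [h (2 * k), h' (2 * k)] with N h1 h2
    rw [mul_assoc] at h1 h2
    rw [mul_add]; omega

theorem Neg.const_mul {a b : ℕ → ℕ} (h : Neg a b) (c : ℕ) : Neg (fun N => c * a N) b :=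
  fun k => (h (k * c)).mono fun N h => by rwa [mul_assoc] at h

theorem Neg.const {b : ℕ → ℕ} (h : Tendsto b atTop atTop) (c : ℕ) : Neg (fun _ => c) b :=
  fun k => h.eventually_ge_atTop (k * c)

theorem Neg.mul_right {a b : ℕ → ℕ} (h : Neg a b) (c : ℕ → ℕ) :
    Neg (fun N => a N * c N) fun N => b N * c N := fun k => (h k).mono fun N h => by
  rw [← mul_assoc]; exact Nat.mul_le_mul_right _ h

theorem Neg.comp {a b f : ℕ → ℕ} (h : Neg a b) (hf : Tendsto f atTop atTop) :
    Neg (fun N => a (f N)) fun N => b (f N) := fun k => hf.eventually (h k)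

theorem Neg.pow_lt {L : ℕ → ℕ} (h : Tendsto L atTop atTop) {i j : ℕ} (hij : i < j) :
    Neg (fun N => L N ^ i) fun N => L N ^ j := fun k => by
  filter_upwards [h.eventually_ge_atTop (k + 1)] with N hN
  calc k * L N ^ i ≤ L N * L N ^ i := Nat.mul_le_mul_right _ (by omega)
    _ = L N ^ (i + 1) := by ring
    _ ≤ _ := Nat.pow_le_pow_right (by omega) hij

theorem tendsto_log2 : Tendsto (Nat.log 2) atTop atTop :=
  tendsto_atTop.2 fun b => (eventually_ge_atTop (2 ^ b)).mono fun _ h =>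
    Nat.le_log_of_pow_le one_lt_two h

/-- a function that is eventually below a subpolynomial one -/
theorem SubP.of_eventually {G H : ℕ → ℕ} (h : SubP H) (k : ∀ᶠ N in atTop, G N ≤ H N) : SubP G := by
  obtain ⟨M, hM⟩ := eventually_atTop.1 k
  refine (h.add (SubP.const (∑ N ∈ Finset.range M, G N))).mono fun N _ => ?_
  by_cases e : N < M
  · exact (Finset.single_le_sum (f := G) (fun _ _ => Nat.zero_le _) (Finset.mem_range.2 e)).trans
      (Nat.le_add_left _ _)
  · exact (hM N (by omega)).trans (Nat.le_add_right _ _)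

/-- **`2 ^ o(log N) = N ^ o(1)`** -/
theorem SubP.two_pow {E : ℕ → ℕ} (h : Neg E (Nat.log 2)) : SubP fun N => 2 ^ E N := by
  intro ε e
  obtain ⟨M, hM⟩ := eventually_atTop.1 (h ⌈ε⁻¹⌉₊)
  refine ⟨1 + ∑ N ∈ Finset.range M, (2 : ℝ) ^ E N, fun N hN => ?_⟩
  have h1 : (1 : ℝ) ≤ N := by exact_mod_cast hN
  have h2 := Real.one_le_rpow h1 e.le
  have h3 : (0 : ℝ) ≤ ∑ N ∈ Finset.range M, (2 : ℝ) ^ E N := by positivity
  push_cast
  by_cases k : N < M
  · have := Finset.single_le_sum (f := fun N => (2 : ℝ) ^ E N) (fun _ _ => by positivity)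
      (Finset.mem_range.2 k)
    nlinarith
  · have h4 : (E N : ℝ) ≤ Nat.log 2 N * ε := by
      have a1 : (⌈ε⁻¹⌉₊ : ℝ) * E N ≤ Nat.log 2 N := by exact_mod_cast hM N (by omega)
      have a2 : ε⁻¹ * E N ≤ Nat.log 2 N :=
        (mul_le_mul_of_nonneg_right (Nat.le_ceil _) (by positivity)).trans a1
      rwa [inv_mul_le_iff₀ e, mul_comm] at a2
    have h5 : (2 : ℝ) ^ E N ≤ (N : ℝ) ^ ε := by
      rw [← Real.rpow_natCast]
      refine (Real.rpow_le_rpow_of_exponent_le one_le_two h4).trans ?_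
      rw [Real.rpow_mul zero_le_two, Real.rpow_natCast]
      refine Real.rpow_le_rpow (by positivity) ?_ e.le
      exact_mod_cast Nat.pow_log_le_self 2 (by omega)
    nlinarith

/-- a subpolynomial function is negligible -/
theorem SubP.neg {G : ℕ → ℕ} (g : SubP G) : Neg G fun N => N := fun k => by
  obtain ⟨C, hC⟩ := (((SubP.const k).mul g).pow 2) 1 one_pos
  filter_upwards [eventually_ge_atTop (⌈C⌉₊ + 1)] with N hN
  have h := hC N (by omega)
  rw [Real.rpow_one] at h
  have h2 : (k * G N) ^ 2 ≤ ⌈C⌉₊ * N := by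
    exact_mod_cast h.trans (mul_le_mul_of_nonneg_right (Nat.le_ceil C) (by positivity))
  refine (Nat.pow_le_pow_iff_left two_ne_zero).1 (h2.trans ?_)
  rw [sq]; exact Nat.mul_le_mul_right _ (by omega)

/-- `2 ^ G (log N) = N ^ o(1)` for a subpolynomial `G` -/
theorem SubP.two_pow_log {G : ℕ → ℕ} (g : SubP G) : SubP fun N => 2 ^ G (Nat.log 2 N) :=
  SubP.two_pow (g.neg.comp tendsto_log2)

/-- a power with a small exponent -/
theorem SubP.pow_of_neg {a e : ℕ → ℕ}
    (h : Neg (fun N => (Nat.log 2 (a N) + 1) * e N) (Nat.log 2)) : SubP fun N => a N ^ e N :=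
  (SubP.two_pow h).mono fun N _ => by
    rw [pow_mul]
    exact Nat.pow_le_pow_left (Nat.lt_pow_succ_log_self one_lt_two _).le _

/-- the number of levels -/
def lev (N : ℕ) : ℕ := Nat.log 2 (Nat.log 2 (Nat.log 2 (Nat.log 2 N))) + 1

theorem lev_pos (N : ℕ) : 1 ≤ lev N := Nat.le_add_left _ _

theorem lev_mono {N M : ℕ} (h : N ≤ M) : lev N ≤ lev M :=
  Nat.add_le_add_right (Nat.log_mono_right (Nat.log_mono_right (Nat.log_mono_right
    (Nat.log_mono_right h)))) 1

theorem tendsto_lev : Tendsto lev atTop atTop :=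
  (tendsto_add_atTop_nat 1).comp (tendsto_log2.comp (tendsto_log2.comp
    (tendsto_log2.comp tendsto_log2)))

theorem two_pow_log_succ_le (x : ℕ) : 2 ^ (Nat.log 2 x + 1) ≤ 2 * x + 2 := by
  rcases Nat.eq_zero_or_pos x with rfl | h
  · simp
  · have := Nat.pow_log_le_self 2 h.ne'
    rw [pow_succ]; omega

/-- the double exponential of the level, as a function of `log N` -/
theorem SubP.tower (c : ℕ) :
    SubP fun x => 2 ^ 2 ^ (c * (Nat.log 2 (Nat.log 2 (Nat.log 2 x)) + 1)) :=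
  (((((SubP.const 2).mul SubP.log).add (SubP.const 2)).pow c).two_pow_log).mono fun x _ => by
    refine Nat.pow_le_pow_right two_pos ?_
    rw [mul_comm, pow_mul]
    exact Nat.pow_le_pow_left (two_pow_log_succ_le _) c

/-- **the polylogarithmic losses of all levels** -/
theorem SubP.polylog_pow {a : ℕ → ℕ} (c : ℕ) (h : ∀ N, 1 ≤ N → a N ≤ (Nat.log 2 N + 2) ^ c) :
    SubP fun N => a N ^ 2 ^ 2 ^ (c * lev N) := by
  have k := (((SubP.const c).mul (SubP.log.add (SubP.const 3))).mul (SubP.tower c)).two_pow_log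
  refine k.mono fun N hN => ?_
  rw [pow_mul 2 (c * (Nat.log 2 (Nat.log 2 N) + 3))]
  refine Nat.pow_le_pow_left ((h N hN).trans ?_) _
  rw [mul_comm, pow_mul]
  refine Nat.pow_le_pow_left ?_ c
  have := Nat.lt_pow_succ_log_self one_lt_two (Nat.log 2 N)
  rw [pow_succ] at this
  rw [pow_add]; omega

theorem SubP.tower_lev (c : ℕ) : SubP fun N => 2 ^ 2 ^ 2 ^ (c * lev N) :=
  (SubP.polylog_pow (a := fun _ => 2) (c + 1) fun N _ => by
    rw [pow_succ]
    exact le_trans (by omega) (Nat.le_mul_of_pos_left _ (by positivity))).mono fun N _ =>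
      Nat.pow_le_pow_right two_pos (Nat.pow_le_pow_right two_pos (Nat.pow_le_pow_right two_pos
        (Nat.mul_le_mul_right _ (Nat.le_succ c))))

theorem neg_tower_lev (c : ℕ) : Neg (fun N => 2 ^ 2 ^ (c * lev N)) (Nat.log 2) :=
  (SubP.tower c).neg.comp tendsto_log2

theorem neg_lev_pow (i : ℕ) : Neg (fun N => lev N ^ i) (Nat.log 2) :=
  (neg_tower_lev i).le fun N => by
    refine le_trans ?_ Nat.lt_two_pow_self.le
    rw [mul_comm, pow_mul]
    exact Nat.pow_le_pow_left Nat.lt_two_pow_self.le i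

/-- about `N ^ (1 / L)` -/
def rt (L N : ℕ) : ℕ := 2 ^ (Nat.log 2 N / L + 1)

theorem two_le_rt (L N : ℕ) : 2 ≤ rt L N := by
  unfold rt; rw [pow_succ]; have := Nat.one_le_two_pow (n := Nat.log 2 N / L); omega

theorem lt_rt_pow {L : ℕ} (hL : 1 ≤ L) (N : ℕ) : N < rt L N ^ L := by
  unfold rt
  rw [← pow_mul]
  refine (Nat.lt_pow_succ_log_self one_lt_two N).trans_le (Nat.pow_le_pow_right two_pos ?_)
  have := Nat.lt_div_mul_add (a := Nat.log 2 N) hL
  rw [add_mul, one_mul]; omega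

theorem rt_le (L N : ℕ) : rt L N ≤ 2 * N + 2 :=
  (Nat.pow_le_pow_right two_pos (Nat.add_le_add_right (Nat.div_le_self _ _) 1)).trans
    (two_pow_log_succ_le N)

/-- **powers of the root**: `(N ^ (1 / L)) ^ e = N ^ o(1)` if `e = o(L)`, `e = o(log N)` -/
theorem SubP.rt_pow {L e : ℕ → ℕ} (h : Neg e L) (h' : Neg e (Nat.log 2)) :
    SubP fun N => rt (L N) N ^ e N := by
  have k : Neg (fun N => Nat.log 2 N / L N * e N) (Nat.log 2) := fun k => (h k).mono fun N h => by
    calc k * (Nat.log 2 N / L N * e N) = Nat.log 2 N / L N * (k * e N) := by ring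
      _ ≤ Nat.log 2 N / L N * L N := Nat.mul_le_mul_left _ h
      _ ≤ _ := Nat.div_mul_le_self _ _
  refine (SubP.two_pow (k.add h')).mono fun N _ => le_of_eq ?_
  rw [rt, ← pow_mul, add_mul, one_mul]

theorem SubP.rt {L : ℕ → ℕ} (h : Tendsto L atTop atTop) : SubP fun N => rt (L N) N := by
  simpa only [pow_one] using SubP.rt_pow (Neg.const h 1) (Neg.const tendsto_log2 1)

theorem SubP.rt_lev : SubP fun N => N325.rt (lev N) N := SubP.rt tendsto_lev

/-- two scales: `(N ^ (1 / lev ^ j)) ^ (c * lev ^ i)` with `i < j` -/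
theorem SubP.rt_lev_pow {i j : ℕ} (h : i < j) (c : ℕ) :
    SubP fun N => N325.rt (lev N ^ j) N ^ (c * lev N ^ i) :=
  SubP.rt_pow ((Neg.pow_lt tendsto_lev h).const_mul c) ((neg_lev_pow i).const_mul c)

end Crest.Agent.N325
end

-- ▼ part N325/M0/SubQ

/-!
# N325 / M0 (helper34): the quantitative class `SubQ` of functions `N ^ o(1)`

`SubQ G`: every power of `G N` is eventually below the fixed function `rt (lam N) N = N ^ o(1)`.
-/

set_option autoImplicit false

namespace Crest.Agent.N325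

open Filter

/-- a parameter growing more slowly than `lev` -/
def lam (N : ℕ) : ℕ := Nat.log 2 (lev N) + 1

theorem lam_pos (N : ℕ) : 1 ≤ lam N := Nat.le_add_left _ _

theorem tendsto_lam : Tendsto lam atTop atTop :=
  (tendsto_add_atTop_nat 1).comp (tendsto_log2.comp tendsto_lev)

theorem neg_lam_lev : Neg lam lev := (SubP.log.add (SubP.const 1)).neg.comp tendsto_lev

theorem subP_rt_lam : SubP fun N => rt (lam N) N := SubP.rt tendsto_lam

/-- quantitative `N ^ o(1)` -/
def SubQ (G : ℕ → ℕ) : Prop := ∀ k : ℕ, ∀ᶠ N in atTop, G N ^ k ≤ rt (lam N) N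

variable {G H : ℕ → ℕ}

theorem SubQ.le (h : SubQ G) : ∀ᶠ N in atTop, G N ≤ rt (lam N) N := by
  simpa only [pow_one] using h 1

theorem SubQ.subP (h : SubQ G) : SubP G := subP_rt_lam.of_eventually h.le

theorem SubQ.of_eventually (h : SubQ H) (k : ∀ᶠ N in atTop, G N ≤ H N) : SubQ G := fun j => by
  filter_upwards [h j, k] with N h1 h2
  exact (Nat.pow_le_pow_left h2 j).trans h1

theorem SubQ.mono (h : SubQ H) (k : ∀ N, 1 ≤ N → G N ≤ H N) : SubQ G :=
  h.of_eventually ((eventually_ge_atTop 1).mono k)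

theorem SubQ.mul (g : SubQ G) (h : SubQ H) : SubQ fun N => G N * H N := fun k => by
  filter_upwards [g (k * 2), h (k * 2)] with N h1 h2
  refine (Nat.pow_le_pow_iff_left two_ne_zero).1 ?_
  rw [← pow_mul, mul_pow, sq]
  exact Nat.mul_le_mul h1 h2

theorem SubQ.pow (g : SubQ G) (c : ℕ) : SubQ fun N => G N ^ c := fun k => by
  simpa only [pow_mul] using g (c * k)

theorem SubQ.max (g : SubQ G) (h : SubQ H) : SubQ fun N => max (G N) (H N) := fun k => by
  filter_upwards [g k, h k] with N h1 h2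
  rcases le_total (G N) (H N) with e | e
  · rwa [max_eq_right e]
  · rwa [max_eq_left e]

/-- **`2 ^ E` with `E * lam = o(log N)`** -/
theorem SubQ.two_pow {E : ℕ → ℕ} (h : Neg (fun N => E N * lam N) (Nat.log 2)) :
    SubQ fun N => 2 ^ E N := fun k => (h k).mono fun N h => by
  rw [← pow_mul, rt]
  refine Nat.pow_le_pow_right two_pos (Nat.le_succ_of_le ((Nat.le_div_iff_mul_le (lam_pos N)).2 ?_))
  rwa [mul_comm (E N), mul_assoc]

theorem subP_lam_aux :
    SubP fun x => Nat.log 2 (Nat.log 2 (Nat.log 2 (Nat.log 2 x)) + 1) + 1 :=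
  (SubP.log.add (SubP.const 2)).mono fun x _ => by
    have h1 := Nat.log_le_self 2 (Nat.log 2 (Nat.log 2 (Nat.log 2 x)) + 1)
    have h2 := Nat.log_le_self 2 (Nat.log 2 (Nat.log 2 x))
    have h3 := Nat.log_le_self 2 (Nat.log 2 x)
    omega

theorem SubP.neg_lam (g : SubP G) : Neg (fun N => G (Nat.log 2 N) * lam N) (Nat.log 2) :=
  (g.mul subP_lam_aux).neg.comp tendsto_log2

/-- `2 ^ G (log N)` for a subpolynomial `G` -/
theorem SubQ.two_pow_log (g : SubP G) : SubQ fun N => 2 ^ G (Nat.log 2 N) := SubQ.two_pow g.neg_lam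

theorem SubQ.const (c : ℕ) : SubQ fun _ => c :=
  (SubQ.two_pow_log (SubP.const c)).mono fun _ _ => Nat.lt_two_pow_self.le

theorem SubQ.add (g : SubQ G) (h : SubQ H) : SubQ fun N => G N + H N :=
  ((SubQ.const 2).mul (g.max h)).mono fun N _ => by
    have := le_max_left (G N) (H N)
    have := le_max_right (G N) (H N)
    omega

theorem SubQ.log : SubQ fun N => Nat.log 2 N :=
  (SubQ.two_pow_log (SubP.log.add (SubP.const 1))).mono fun _ _ =>
    (Nat.lt_pow_succ_log_self one_lt_two _).le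

/-- the logarithm of a polynomially bounded number -/
theorem SubQ.log_of_le {a : ℕ → ℕ} (c : ℕ) (h : ∀ᶠ N in atTop, a N ≤ (N + 2) ^ c) :
    SubQ fun N => Nat.log 2 (a N) :=
  ((SubQ.const c).mul (SubQ.log.add (SubQ.const 3))).of_eventually (h.mono fun N h => by
    refine (Nat.log_mono_right (h.trans (?_ : _ ≤ 2 ^ (c * (Nat.log 2 N + 3))))).trans
      (Nat.log_pow one_lt_two _).le
    rw [mul_comm, pow_mul]
    refine Nat.pow_le_pow_left ?_ c
    have := Nat.lt_pow_succ_log_self one_lt_two N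
    rw [pow_succ] at this
    rw [pow_add]; omega)

theorem SubQ.clog_of_le {a : ℕ → ℕ} (c : ℕ) (h : ∀ᶠ N in atTop, a N ≤ (N + 2) ^ c) :
    SubQ fun N => Nat.clog 2 (a N) :=
  ((SubQ.log_of_le c h).add (SubQ.const 1)).mono fun _ _ => clog_le_log_add _

theorem SubQ.clog : SubQ fun N => Nat.clog 2 (N + 2) :=
  SubQ.clog_of_le 1 (.of_forall fun _ => (pow_one _).ge)

/-- **the polylogarithmic losses of all levels** -/
theorem SubQ.polylog_pow {a : ℕ → ℕ} (c : ℕ)
    (h : ∀ᶠ N in atTop, a N ≤ (Nat.log 2 N + 2) ^ c) :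
    SubQ fun N => a N ^ 2 ^ 2 ^ (c * lev N) := by
  have k := SubQ.two_pow_log
    (((SubP.const c).mul (SubP.log.add (SubP.const 3))).mul (SubP.tower c))
  refine k.of_eventually (h.mono fun N h => ?_)
  rw [pow_mul 2 (c * (Nat.log 2 (Nat.log 2 N) + 3))]
  refine Nat.pow_le_pow_left (h.trans ?_) _
  rw [mul_comm, pow_mul]
  refine Nat.pow_le_pow_left ?_ c
  have := Nat.lt_pow_succ_log_self one_lt_two (Nat.log 2 N)
  rw [pow_succ] at this
  rw [pow_add]; omega

/-- polylogarithmic base, exponent at most doubly exponential in the level -/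
theorem SubQ.polylog_pow' {a e : ℕ → ℕ} (c : ℕ)
    (h : ∀ᶠ N in atTop, a N ≤ (Nat.log 2 N + 2) ^ c)
    (he : ∀ᶠ N in atTop, e N ≤ 2 ^ 2 ^ (c * lev N)) : SubQ fun N => a N ^ e N :=
  (SubQ.polylog_pow (a := fun N => (Nat.log 2 N + 2) ^ c) c (.of_forall fun _ => le_rfl)).of_eventually
    (by
      filter_upwards [h, he] with N h1 h2
      exact (Nat.pow_le_pow_left h1 _).trans (Nat.pow_le_pow_right (by positivity) h2))

theorem SubQ.tower_lev (c : ℕ) : SubQ fun N => 2 ^ 2 ^ 2 ^ (c * lev N) :=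
  SubQ.two_pow_log (SubP.tower c)

theorem SubQ.lev : SubQ lev :=
  (SubQ.tower_lev 1).mono fun N _ => by
    rw [one_mul]
    exact (Nat.lt_two_pow_self.trans (Nat.lt_two_pow_self.trans Nat.lt_two_pow_self)).le

theorem neg_tower_lam (c : ℕ) : Neg (fun N => 2 ^ 2 ^ (c * lev N) * lam N) (Nat.log 2) :=
  (SubP.tower c).neg_lam

/-- **powers of the root** -/
theorem SubQ.rt_pow {L e : ℕ → ℕ} (h : Neg (fun N => e N * lam N) L)
    (h' : Neg (fun N => e N * lam N) (Nat.log 2)) : SubQ fun N => rt (L N) N ^ e N := by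
  have k : Neg (fun N => Nat.log 2 N / L N * (e N * lam N)) (Nat.log 2) := fun k =>
    (h k).mono fun N h => by
      calc k * (Nat.log 2 N / L N * (e N * lam N))
          = Nat.log 2 N / L N * (k * (e N * lam N)) := by ring
        _ ≤ Nat.log 2 N / L N * L N := Nat.mul_le_mul_left _ h
        _ ≤ _ := Nat.div_mul_le_self _ _
  refine (SubQ.two_pow (E := fun N => (Nat.log 2 N / L N + 1) * e N)
    ((k.add h').le fun N => le_of_eq (by ring))).mono fun N _ => le_of_eq ?_
  rw [rt, ← pow_mul]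

/-- the usual form: `e * lev ≤ L` and `e` at most doubly exponential in the level -/
theorem SubQ.rt_pow' {L e : ℕ → ℕ} (c : ℕ) (h : ∀ᶠ N in atTop, e N * N325.lev N ≤ c * L N)
    (he : ∀ᶠ N in atTop, e N ≤ 2 ^ 2 ^ (c * N325.lev N)) : SubQ fun N => rt (L N) N ^ e N := by
  refine SubQ.rt_pow (fun k => ?_) ((neg_tower_lam c).mono
    (he.mono fun N h => Nat.mul_le_mul_right _ h) (.of_forall fun _ => le_rfl))
  filter_upwards [h, neg_lam_lev (k * (c + 1))] with N h1 h2
  refine Nat.le_of_mul_le_mul_left (?_ : (c + 1) * _ ≤ (c + 1) * _) (Nat.succ_pos c)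
  calc (c + 1) * (k * (e N * lam N)) = e N * (k * (c + 1) * lam N) := by ring
    _ ≤ e N * N325.lev N := Nat.mul_le_mul_left _ h2
    _ ≤ _ := h1.trans (Nat.mul_le_mul_right _ (Nat.le_succ c))

theorem SubQ.rt_lev : SubQ fun N => rt (N325.lev N) N := by
  simpa only [pow_one] using SubQ.rt_pow' (L := N325.lev) (e := fun _ => 1) 1
    (.of_forall fun _ => le_rfl) (.of_forall fun _ => Nat.one_le_two_pow)

/-- two scales: `(N ^ (1 / lev ^ j)) ^ (c * lev ^ i)` with `i < j` -/
theorem SubQ.rt_lev_pow {i j : ℕ} (h : i < j) (c : ℕ) :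
    SubQ fun N => rt (N325.lev N ^ j) N ^ (c * N325.lev N ^ i) := by
  refine SubQ.rt_pow' (c + i) (.of_forall fun N => ?_) (.of_forall fun N => ?_)
  · rw [mul_assoc, ← pow_succ]
    exact Nat.mul_le_mul (Nat.le_add_right _ _) (Nat.pow_le_pow_right (lev_pos N) h)
  · refine le_trans ?_ Nat.lt_two_pow_self.le
    rw [add_mul, pow_add, mul_comm i, pow_mul 2 (N325.lev N) i]
    exact Nat.mul_le_mul (Nat.lt_two_pow_self.le.trans (Nat.pow_le_pow_right two_pos
      (Nat.le_mul_of_pos_right _ (lev_pos N)))) (Nat.pow_le_pow_left Nat.lt_two_pow_self.le i)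

end Crest.Agent.N325
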