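import Crest.Agent.N325.M0.Impl
import Crest.Agent.N325.M0.Eta
import Crest.Prelude.Def_GraphRAM
import Crest.Agent.Rz.Def_GraphRAM

/-!
# N325 / M0 (helper34): sizes of the input and the output, the fuel program, word lengths
-/

set_option autoImplicit false

namespace Crest.Agent.N325

open Crest.GraphRAM

/-- the size `n + m` of an input -/
def sizeN (n : ℕ) (adj : Fin n → List (Fin n)) : ℕ := n + (∑ v, (adj v).length) / 2

theorem le_sizeN (n : ℕ) (adj : Fin n → List (Fin n)) : n ≤ sizeN n adj := Nat.le_add_right _ _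

theorem length_adjInput (n : ℕ) (adj : Fin n → List (Fin n)) :
    (adjInput n adj).length = n + 2 + ∑ v, (adj v).length := by
  simp only [adjInput, List.length_append, List.length_cons, List.length_ofFn, List.length_flatten,
    List.map_ofFn, List.sum_ofFn, Function.comp, List.length_map]

theorem length_adjInput_le (n : ℕ) (adj : Fin n → List (Fin n)) :
    (adjInput n adj).length ≤ 2 * sizeN n adj + 3 := by
  rw [length_adjInput, sizeN]; omega

theorem mem_adjInput_le {n : ℕ} {adj : Fin n → List (Fin n)} {a : ℕ} (h : a ∈ adjInput n adj) :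
    a ≤ 2 * sizeN n adj + 1 := by
  simp only [adjInput, List.cons_append, List.mem_cons, List.mem_append, List.mem_ofFn,
    List.mem_flatten] at h
  unfold sizeN
  rcases h with rfl | ⟨k, rfl⟩ | ⟨_, ⟨v, rfl⟩, h⟩
  · omega
  · have : (∑ u : Fin n, if u.val < k.val then (adj u).length else 0) ≤ ∑ v, (adj v).length :=
      Finset.sum_le_sum fun u _ => by split_ifs <;> omega
    omega
  · obtain ⟨u, _, rfl⟩ := List.mem_map.1 h
    have := u.2
    omega

theorem headD_adjInput (n : ℕ) (adj : Fin n → List (Fin n)) : (adjInput n adj).headD 0 = n := rfl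

theorem sizeN_le {n : ℕ} {adj : Fin n → List (Fin n)} (h : ∀ v, (adj v).Nodup) :
    sizeN n adj + 2 ≤ (n + 2) ^ 2 := by
  have : ∑ v, (adj v).length ≤ n * n := by
    refine (Finset.sum_le_card_nsmul _ _ n fun v _ => ?_).trans (by simp)
    simpa using (h v).length_le_card
  unfold sizeN
  have h2 : (∑ v, (adj v).length) / 2 ≤ n * n := (Nat.div_le_self _ _).trans this
  nlinarith

theorem lt_of_pairsOf {n : ℕ} : ∀ {l : List ℕ}, Even l.length →
    (∀ q ∈ pairsOf l, q.1 < n ∧ q.2 < n) → ∀ a ∈ l, a < n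
  | [], _, _ => by simp
  | [_], h, _ => by simp at h
  | a :: b :: t, h, k => by
    have h1 := k (a, b) (by simp [pairsOf])
    have h2 := lt_of_pairsOf (l := t) (by
      rw [List.length_cons, List.length_cons, add_assoc, Nat.even_add] at h
      exact h.2 (by decide)) fun q hq => k q (by simp [pairsOf, hq])
    intro x hx
    rcases List.mem_cons.1 hx with rfl | hx
    · exact h1.1
    rcases List.mem_cons.1 hx with rfl | hx
    · exact h1.2
    · exact h2 x hx

theorem length_le_of_isMax {n : ℕ} {G : SimpleGraph (Fin n)} {out : List ℕ}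
    (h : IsMaxMatchingOutput G out) : out.length ≤ n := by
  have := lt_of_pairsOf h.1 fun q hq => let ⟨a, b, _⟩ := h.2.2.1 q hq; ⟨a, b⟩
  simpa using (h.2.1.subperm (l₂ := List.range n) fun a ha => List.mem_range.2 (this a ha)).length_le

/-! ### the fuel -/

/-- the binary logarithm -/
def lg2 (x : ℕ) : R ℕ := do
  let s ← whileF (fun s : ℕ × ℕ => decide (1 < s.1)) (fun s => pure (s.1 / 2, s.2 + 1)) (x + 1) (x, 0)
  pure s.2

theorem sp_lg2 {g : Gl} (x : ℕ) : Sp g (lg2 x) fun r t => r = Nat.log 2 x ∧ t ≤ Nat.log 2 x + 1 := by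
  refine (sp_whileF' (fun s : ℕ × ℕ => s.1 ≤ x ∧ s.2 + Nat.log 2 s.1 = Nat.log 2 x)
    (fun s => Nat.log 2 s.1) (fun s k e => ?_) ⟨le_rfl, zero_add _⟩
    (Nat.lt_succ_of_le (Nat.log_le_self 2 x))).bind fun s t k => ?_
  · have e : 1 < s.1 := of_decide_eq_true e
    have h := Nat.log_div_base 2 s.1
    have h2 : 0 < Nat.log 2 s.1 := Nat.log_pos one_lt_two e
    have := k.2
    exact sp_pure.2 ⟨⟨(Nat.div_le_self _ _).trans k.1, by dsimp only; omega⟩, by dsimp only; omega⟩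
  · have e : ¬1 < s.1 := of_decide_eq_false k.1
    have h : Nat.log 2 s.1 = 0 := Nat.log_of_lt (by omega)
    have := k.2.1.2
    have := k.2.2
    exact sp_pure.2 ⟨by omega, by dsimp only at *; omega⟩

/-- the number of steps of the deep language, and of random bits -/
def fuelV (a b F n : ℕ) : ℕ := (F + 1) * (U (a * (Nat.log 2 (n + 2) + 1)) b + 1) + (n + 2)

/-- the program computing the fuel -/
def fuel (fu : List ℕ → R ℕ) (a b : ℕ) (inp : List ℕ) : R ℕ := do
  let F ← fu inp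
  let l ← lg2 (inp.headD 0 + 2)
  nat ((F + 1) * (b * (a * (l + 1) + 1) ^ b + 1) + (inp.headD 0 + 2))

theorem fuelV_mono (a b : ℕ) {F F' n n' : ℕ} (h : F ≤ F') (k : n ≤ n') :
    fuelV a b F n ≤ fuelV a b F' n' := by
  have := Nat.log_mono_right (b := 2) (Nat.add_le_add_right k 2)
  unfold fuelV U
  gcongr

theorem sp_fuel {g : Gl} {fu : List ℕ → R ℕ} {a b lo hi : ℕ} {inp : List ℕ}
    (h : Sp g (fu inp) fun F t => lo ≤ F ∧ F ≤ hi ∧ t ≤ hi)
    (hX : fuelV a b hi (inp.headD 0) ≤ g.X) :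
    Sp g (fuel fu a b inp) fun F t => fuelV a b lo (inp.headD 0) ≤ F ∧
      F ≤ fuelV a b hi (inp.headD 0) ∧ t ≤ hi + (inp.headD 0 + 3) := by
  refine h.bind fun F t k => (sp_lg2 _).bind fun l s k' => ?_
  have e := Nat.log_le_self 2 (inp.headD 0 + 2)
  rw [k'.1]
  exact sp_nat.2 ⟨(fuelV_mono a b k.2.1 le_rfl).trans hX, fuelV_mono a b k.1 le_rfl,
    fuelV_mono a b k.2.1 le_rfl, by omega⟩

theorem SubP.U {G : ℕ → ℕ} (g : SubP G) (c : ℕ) : SubP fun N => U (G N) c :=
  (SubP.const c).mul ((g.add (SubP.const 1)).pow c)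

theorem SubP.log_add : SubP fun N => Nat.log 2 (N + 2) :=
  SubP.clog.mono fun _ _ => Nat.log_le_clog _ _

theorem AL.fuelV {G : ℕ → ℕ} (g : AL G) (a b : ℕ) : AL fun N => fuelV a b (G N) N :=
  ((g.add (AL.const 1)).mul (((((SubP.const a).mul (SubP.log_add.add (SubP.const 1))).U b)).add
    (SubP.const 1))).add (AL.id.add (AL.const 2))

/-! ### word lengths -/

theorem AL.lt_pow {G : ℕ → ℕ} (g : AL G) : ∃ k, ∀ N, 1 ≤ N → G N < (N + 2) ^ k := by
  obtain ⟨C, hC⟩ := g.le_sq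
  refine ⟨C + 2, fun N hN => (hC N hN).trans_lt ?_⟩
  rw [pow_add]
  exact Nat.mul_lt_mul_of_lt_of_le (Nat.lt_two_pow_self.trans_le
    (Nat.pow_le_pow_left (by omega) _)) (Nat.pow_le_pow_left (by omega) _) (by positivity)

theorem exists_bits (d c k : ℕ) : ∃ a, 1 ≤ a ∧ ∀ L M t, 1 ≤ L → M < 2 ^ (k * L) →
    t < 2 ^ (k * L) → M + (U (d * (a * L)) c * t + U (d * (a * L)) c) < 2 ^ (a * L) := by
  obtain ⟨C, hC⟩ := ((((((SubP.const d).mul SubP.log).U c).add (SubP.const 1)).pow 2).pow 2) 1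
    one_pos
  refine ⟨⌈C⌉₊ + 2 * k + 1, by omega, fun L M t hL hM ht => ?_⟩
  generalize hz : (⌈C⌉₊ + 2 * k + 1) * L = z
  have h1 : ⌈C⌉₊ ≤ 2 ^ z := by
    refine le_trans ?_ Nat.lt_two_pow_self.le
    rw [← hz]; nlinarith
  have h2 := hC (2 ^ z) Nat.one_le_two_pow
  simp only [Nat.log_pow one_lt_two, Real.rpow_one] at h2
  generalize U (d * z) c = K at *
  have h3 : ((K + 1) ^ 2) ^ 2 ≤ (2 ^ z) ^ 2 := by
    have : ((K + 1) ^ 2) ^ 2 ≤ ⌈C⌉₊ * 2 ^ z := by
      exact_mod_cast h2.trans (mul_le_mul_of_nonneg_right (Nat.le_ceil C) (by positivity))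
    exact this.trans (by rw [sq]; exact Nat.mul_le_mul_right _ h1)
  have h4 := (Nat.pow_le_pow_iff_left two_ne_zero).1 h3
  have h5 : (2 ^ (k * L)) ^ 2 ≤ 2 ^ z := by
    rw [← pow_mul]
    refine Nat.pow_le_pow_right two_pos ?_
    rw [← hz]; nlinarith
  have h6 : (2 ^ (k * L) * (K + 1)) ^ 2 ≤ (2 ^ z) ^ 2 := by
    rw [mul_pow, sq (2 ^ z)]; exact Nat.mul_le_mul h5 h4
  refine lt_of_lt_of_le ?_ ((Nat.pow_le_pow_iff_left two_ne_zero).1 h6)
  nlinarith

theorem pow_le_two_pow_clog {n N : ℕ} (h : N + 2 ≤ (n + 2) ^ 2) (k : ℕ) :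
    (N + 2) ^ k ≤ 2 ^ (2 * k * Nat.clog 2 (n + 2)) := by
  have := Nat.le_pow_clog one_lt_two (n + 2)
  calc (N + 2) ^ k ≤ ((2 ^ Nat.clog 2 (n + 2)) ^ 2) ^ k :=
        Nat.pow_le_pow_left (h.trans (Nat.pow_le_pow_left this 2)) k
    _ = _ := by rw [← pow_mul, ← pow_mul]; congr 1; ring

end Crest.Agent.N325
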